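import Mathlib
import Vale.Agent.P264.Soliton.TailDefs

/-!
Interface of the series at the origin for the certified connection (Soliton A): a family of
solutions on `[0, 3/2)` and their data at `3/2`, with the limit `c` fixed by `g1`.
-/

namespace Vale.Agent.P264.Soliton.Inner

open Set
open scoped ContDiff

noncomputable def G0 : ℝ := 335327670288442897 / 1000000000000000000

noncomputable def G1 : ℝ := 60280401746544981 / 10000000000000000000000

/-- Parameter box of the series family, centred at `(G0, G1)`. -/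
def pSet : Set (ℝ × ℝ) :=
  {p | |p.1| ≤ 1 / 4000000 ∧ |p.2| ≤ 1 / 250000000}

/-- The limit selected by the first Taylor coefficient: `1/(2c) = 1/2 + 90 g1`. -/
noncomputable def cOf (p : ℝ × ℝ) : ℝ := 1 / (1 + 180 * (G1 + p.2))

/-- Value and two derivatives of the centre at `3/2`. -/
noncomputable def leftZ : Fin 3 → ℝ :=
  ![5006268565009976 / 10 ^ 16, -3270271243019640 / 10 ^ 16, 146099539314831 / 10 ^ 16]

/-- Derivative of the data in the two parameters. -/
noncomputable def leftD0 : Fin 3 → ℝ :=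
  ![-14843667662 / 10 ^ 10, -9590380844 / 10 ^ 10, 908894265 / 10 ^ 10]

noncomputable def leftD1 : Fin 3 → ℝ :=
  ![-22355864569 / 10 ^ 10, -29513617470 / 10 ^ 10, -18568730756 / 10 ^ 10]

/-- The series family. `data p i` is the `i`-th derivative of `q = 1 - y g` at `3/2`. -/
structure LeftMap where
  g : ℝ × ℝ → ℝ → ℝ
  data : ℝ × ℝ → Fin 3 → ℝ
  smooth : ∀ p ∈ pSet, ContDiffOn ℝ ∞ (g p) (Ioo (-2) 2)
  pos : ∀ p ∈ pSet, ∀ y ∈ Icc (0 : ℝ) (3 / 2), 0 < 1 - y * g p y
  eqn : ∀ p ∈ pSet, ∀ y ∈ Ioo (0 : ℝ) 2, ode (cOf p) (fun z => 1 - z * g p z) y = 0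
  data0 : ∀ p ∈ pSet, data p 0 = 1 - 3 / 2 * g p (3 / 2)
  data1 : ∀ p ∈ pSet, data p 1 = deriv (fun z => 1 - z * g p z) (3 / 2)
  data2 : ∀ p ∈ pSet, data p 2 = deriv (deriv (fun z => 1 - z * g p z)) (3 / 2)
  centre : ∀ i, |data (0, 0) i - leftZ i| ≤ 1 / 10000000000
  lip : ∀ p ∈ pSet, ∀ p' ∈ pSet, ∀ i,
    |data p i - data p' i - leftD0 i * (p.1 - p'.1) - leftD1 i * (p.2 - p'.2)| ≤
      1 / 100000 * (|p.1 - p'.1| + |p.2 - p'.2|)

/-- Target: the series family exists. -/
def LeftTarget : Prop := Nonempty LeftMap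

end Vale.Agent.P264.Soliton.Inner
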