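import Mathlib

/-!
Integer polynomials in one local variable `u`, with crude bounds on `|u| ≤ 1`, for the certified
connection of the shrinker. Everything here evaluates in the kernel on integers.
-/

namespace Vale.Agent.P264.Soliton.Inner

/-- Coefficient list, lowest degree first. -/
abbrev IPoly := List Int

noncomputable def ev : IPoly → ℝ → ℝ
  | [], _ => 0
  | a :: p, u => (a : ℝ) + u * ev p u

def padd : IPoly → IPoly → IPoly
  | [], q => q
  | a :: p, [] => a :: p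
  | a :: p, b :: q => (a + b) :: padd p q

def psmul (k : Int) : IPoly → IPoly
  | [] => []
  | a :: p => (k * a) :: psmul k p

def pmul : IPoly → IPoly → IPoly
  | [], _ => []
  | a :: p, q => padd (psmul a q) (0 :: pmul p q)

def pdiffAux : Nat → IPoly → IPoly
  | _, [] => []
  | i, a :: p => ((i : Int) * a) :: pdiffAux (i + 1) p

def pdiff : IPoly → IPoly
  | [] => []
  | _ :: p => pdiffAux 1 p

def absSum : IPoly → Nat
  | [] => 0
  | a :: p => a.natAbs + absSum p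

/-- A lower bound of the polynomial on `|u| ≤ 1`. -/
def lowB : IPoly → Int
  | [] => 0
  | a :: p => a - (absSum p : Int)

@[simp] theorem ev_nil (u : ℝ) : ev [] u = 0 := rfl
@[simp] theorem ev_cons (a : Int) (p : IPoly) (u : ℝ) : ev (a :: p) u = (a : ℝ) + u * ev p u := rfl

theorem ev_padd : ∀ (p q : IPoly) (u : ℝ), ev (padd p q) u = ev p u + ev q u
  | [], q, u => by simp [padd]
  | a :: p, [], u => by simp [padd]
  | a :: p, b :: q, u => by simp [padd, ev_padd p q u]; ring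

theorem ev_psmul (k : Int) : ∀ (p : IPoly) (u : ℝ), ev (psmul k p) u = (k : ℝ) * ev p u
  | [], u => by simp [psmul]
  | a :: p, u => by simp [psmul, ev_psmul k p u]; ring

theorem ev_pmul : ∀ (p q : IPoly) (u : ℝ), ev (pmul p q) u = ev p u * ev q u
  | [], q, u => by simp [pmul]
  | a :: p, q, u => by simp [pmul, ev_padd, ev_psmul, ev_pmul p q u]; ring

theorem hasDerivAt_ev_aux : ∀ (p : IPoly) (i : Nat) (u : ℝ),
    HasDerivAt (fun x => x ^ (i + 1) * ev p x) (u ^ i * ev (pdiffAux (i + 1) p) u) u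
  | [], i, u => by simpa [pdiffAux] using hasDerivAt_const u (0 : ℝ)
  | a :: p, i, u => by
      have h1 : HasDerivAt (fun x : ℝ => (a : ℝ) * x ^ (i + 1))
          ((a : ℝ) * (((i + 1 : ℕ) : ℝ) * u ^ i)) u := by
        simpa using (hasDerivAt_pow (i + 1) u).const_mul (a : ℝ)
      have h2 := h1.add (hasDerivAt_ev_aux p (i + 1) u)
      refine (h2.congr_deriv ?_).congr_of_eventuallyEq ?_
      · simp [pdiffAux]; ring
      · filter_upwards with x
        simp; ring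

theorem hasDerivAt_ev : ∀ (p : IPoly) (u : ℝ), HasDerivAt (ev p) (ev (pdiff p) u) u
  | [], u => by
      show HasDerivAt (fun _ : ℝ => (0 : ℝ)) 0 u
      exact hasDerivAt_const u (0 : ℝ)
  | a :: p, u => by
      have h := (hasDerivAt_ev_aux p 0 u).const_add (a : ℝ)
      simpa [pdiff, ev] using h

theorem abs_ev_le : ∀ (p : IPoly) (u : ℝ), |u| ≤ 1 → |ev p u| ≤ (absSum p : ℝ)
  | [], u, _ => by simp [absSum]
  | a :: p, u, hu => by
      have h := abs_ev_le p u hu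
      simp only [ev_cons, absSum, Nat.cast_add]
      refine le_trans (abs_add_le _ _) (add_le_add (le_of_eq ?_) ?_)
      · rw [Nat.cast_natAbs, Int.cast_abs]
      · rw [abs_mul]
        calc |u| * |ev p u| ≤ 1 * |ev p u| := by
              exact mul_le_mul_of_nonneg_right hu (abs_nonneg _)
          _ ≤ _ := by simpa using h

theorem lowB_le : ∀ (p : IPoly) (u : ℝ), |u| ≤ 1 → (lowB p : ℝ) ≤ ev p u
  | [], u, _ => by simp [lowB]
  | a :: p, u, hu => by
      have h := abs_ev_le p u hu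
      have h2 : |u * ev p u| ≤ (absSum p : ℝ) := by
        rw [abs_mul]
        calc |u| * |ev p u| ≤ 1 * |ev p u| := mul_le_mul_of_nonneg_right hu (abs_nonneg _)
          _ ≤ _ := by simpa using h
      have h3 := (abs_le.mp h2).1
      simp only [lowB, ev_cons, Int.cast_sub, Int.cast_natCast]
      linarith

/-- The degree seven Hermite polynomial with value, derivative, half second and sixth third
derivative at `-1` equal to `a i` and at `1` equal to `b i`, times `32`. -/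
def hermite (a0 a1 a2 a3 b0 b1 b2 b3 : Int) : IPoly :=
  [16 * a0 + 11 * a1 + 6 * a2 + 2 * a3 + 16 * b0 - 11 * b1 + 6 * b2 - 2 * b3,
   -35 * a0 - 19 * a1 - 8 * a2 - 2 * a3 + 35 * b0 - 19 * b1 + 8 * b2 - 2 * b3,
   -15 * a1 - 14 * a2 - 6 * a3 + 15 * b1 - 14 * b2 + 6 * b3,
   35 * a0 + 35 * a1 + 20 * a2 + 6 * a3 - 35 * b0 + 35 * b1 - 20 * b2 + 6 * b3,
   5 * a1 + 10 * a2 + 6 * a3 - 5 * b1 + 10 * b2 - 6 * b3,
   -21 * a0 - 21 * a1 - 16 * a2 - 6 * a3 + 21 * b0 - 21 * b1 + 16 * b2 - 6 * b3,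
   -a1 - 2 * a2 - 2 * a3 + b1 - 2 * b2 + 2 * b3,
   5 * a0 + 5 * a1 + 4 * a2 + 2 * a3 - 5 * b0 + 5 * b1 - 4 * b2 + 2 * b3]

theorem hermite_left (a0 a1 a2 a3 b0 b1 b2 b3 : Int) :
    ev (hermite a0 a1 a2 a3 b0 b1 b2 b3) (-1) = 32 * a0 ∧
    ev (pdiff (hermite a0 a1 a2 a3 b0 b1 b2 b3)) (-1) = 32 * a1 ∧
    ev (pdiff (pdiff (hermite a0 a1 a2 a3 b0 b1 b2 b3))) (-1) = 64 * a2 ∧
    ev (pdiff (pdiff (pdiff (hermite a0 a1 a2 a3 b0 b1 b2 b3)))) (-1) = 192 * a3 := by
  refine ⟨?_, ?_, ?_, ?_⟩ <;> simp [hermite, pdiff, pdiffAux] <;> ring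

theorem hermite_right (a0 a1 a2 a3 b0 b1 b2 b3 : Int) :
    ev (hermite a0 a1 a2 a3 b0 b1 b2 b3) 1 = 32 * b0 ∧
    ev (pdiff (hermite a0 a1 a2 a3 b0 b1 b2 b3)) 1 = 32 * b1 ∧
    ev (pdiff (pdiff (hermite a0 a1 a2 a3 b0 b1 b2 b3))) 1 = 64 * b2 ∧
    ev (pdiff (pdiff (pdiff (hermite a0 a1 a2 a3 b0 b1 b2 b3)))) 1 = 192 * b3 := by
  refine ⟨?_, ?_, ?_, ?_⟩ <;> simp [hermite, pdiff, pdiffAux] <;> ring

end Vale.Agent.P264.Soliton.Inner
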