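import Mathlib
import Vale.Agent.P264.Soliton.Inner.Poly

/-!
The certificate of the connection: nodes with the jets of the approximate solution and of four
approximate solutions of the linearised equation, with radii; and the integer check of one piece.
-/

namespace Vale.Agent.P264.Soliton.Inner

/-- Value, derivative, half second and sixth third derivative, times `2 ^ 150`. -/
structure Jet where
  v0 : Int
  v1 : Int
  v2 : Int
  v3 : Int

/-- A node at `y / 4096`; the following piece has half width `2 ^ (-e)`; radii times `2 ^ 200`. -/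
structure Node where
  y : Nat
  e : Nat
  q : Jet
  a : Jet
  b : Jet
  r : Jet
  d : Jet
  p0 : Nat
  p1 : Nat
  p2 : Nat
  p3 : Nat

/-- The centre of the limit is `cNum / 2 ^ 64`. -/
def cNum : Nat := 18426750179538957642

/-- The second frame solution carries the change `kNum / 2 ^ 20` of the limit. -/
def kNum : Int := -188334754

def cdiv (a b : Nat) : Nat := (a + b - 1) / b

def jetPoly (e : Nat) (a b : Jet) : IPoly :=
  hermite (a.v0 * 2 ^ (3 * e)) (a.v1 * 2 ^ (2 * e)) (a.v2 * 2 ^ e) a.v3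
    (b.v0 * 2 ^ (3 * e)) (b.v1 * 2 ^ (2 * e)) (b.v2 * 2 ^ e) b.v3

/-- Polynomials are scaled by `2 ^ sc e`. -/
def sc (e : Nat) : Nat := 150 + 3 * e + 5

def centre (A B : Node) : Nat := (A.y + B.y) * 2 ^ A.e / 8192

def lin (A B : Node) : IPoly := [(centre A B : Int), 1]

def opY (Y v : IPoly) : IPoly :=
  padd (pmul (pmul Y (pmul Y Y)) (pdiff (pdiff (pdiff v))))
    (padd (psmul 17 (pmul (pmul Y Y) (pdiff (pdiff v)))) (psmul 56 (pmul Y (pdiff v))))

/-- `2 C 2^(2 e + 2 S)` times `y^2 q` times the residual of the approximate solution. -/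
def resPoly (e : Nat) (Y Q : IPoly) : IPoly :=
  padd
    (psmul (2 ^ (2 * e))
      (padd (psmul (2 * (cNum : Int)) (pmul Q (opY Y Q)))
        (psmul (112 * (cNum : Int)) (pmul Q (padd [2 ^ sc e] (psmul (-1) Q))))))
    (padd (psmul (2 ^ (64 + sc e)) (pmul (pmul Y Y) Q))
      (psmul (-((cNum : Int) * 2 ^ (2 * sc e))) (pmul Y Y)))

/-- `2 C^2 2^20 2^(2 e + 3 S)` times `y^2 q^2` times the residual of a frame solution with
change `k / 2^20` of the limit. -/
def rvPoly (e : Nat) (k : Int) (Y Q v : IPoly) : IPoly :=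
  padd
    (psmul (2 ^ 20 * 2 ^ (2 * e) * (2 * (cNum : Int) ^ 2))
      (padd (pmul (pmul Q Q) (opY Y v)) (psmul (-56) (pmul (pmul Q Q) v))))
    (padd (psmul (2 ^ 20 * (cNum : Int) ^ 2 * 2 ^ (2 * sc e)) (pmul (pmul Y Y) v))
      (psmul (-(k * 2 ^ (128 + sc e))) (pmul (pmul Y Y) (pmul Q Q))))

def minor (f g : IPoly) : IPoly := padd (pmul f (pdiff g)) (psmul (-1) (pmul g (pdiff f)))

/-- The second frame solution with the limit kept fixed, times `2^20`. -/
def homPoly (b d : IPoly) : IPoly := padd (psmul (2 ^ 20) b) (psmul (-kNum) d)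

def detPoly (f g h : IPoly) : IPoly :=
  padd (pmul (minor g h) (pdiff (pdiff f)))
    (padd (pmul (minor h f) (pdiff (pdiff g))) (pmul (minor f g) (pdiff (pdiff h))))

/-- Lower bound of the absolute value. -/
def absLow : IPoly → Nat
  | [] => 0
  | a :: p => a.natAbs - absSum p

/-- Bounds of one piece, all times `2^200` (rounded up, the lower bound of `q` down). -/
structure Bounds where
  qlo : Nat
  va : Nat
  vb : Nat
  vr : Nat
  vd : Nat
  res : Nat
  ra : Nat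
  rb : Nat
  rr : Nat
  rd : Nat
  ca : Nat
  cb : Nat
  cr : Nat

def boundsAux (e A : Nat) (Y Q a b r d : IPoly) : Bounds where
  qlo := (lowB Q).toNat * 2 ^ 200 / 2 ^ sc e
  va := cdiv (absSum a * 2 ^ 200) (2 ^ sc e)
  vb := cdiv (absSum b * 2 ^ 200) (2 ^ sc e)
  vr := cdiv (absSum r * 2 ^ 200) (2 ^ sc e)
  vd := cdiv (absSum d * 2 ^ 200) (2 ^ sc e)
  res := cdiv (absSum (resPoly e Y Q) * 2 ^ 200)
    (2 * cNum * (A - 1) ^ 2 * (lowB Q).toNat * 2 ^ sc e)
  ra := cdiv (absSum (rvPoly e 0 Y Q a) * 2 ^ 200)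
    (2 * cNum ^ 2 * 2 ^ 20 * (A - 1) ^ 2 * (lowB Q).toNat ^ 2 * 2 ^ sc e)
  rb := cdiv (absSum (rvPoly e kNum Y Q b) * 2 ^ 200)
    (2 * cNum ^ 2 * 2 ^ 20 * (A - 1) ^ 2 * (lowB Q).toNat ^ 2 * 2 ^ sc e)
  rr := cdiv (absSum (rvPoly e 0 Y Q r) * 2 ^ 200)
    (2 * cNum ^ 2 * 2 ^ 20 * (A - 1) ^ 2 * (lowB Q).toNat ^ 2 * 2 ^ sc e)
  rd := cdiv (absSum (rvPoly e (2 ^ 20) Y Q d) * 2 ^ 200)
    (2 * cNum ^ 2 * 2 ^ 20 * (A - 1) ^ 2 * (lowB Q).toNat ^ 2 * 2 ^ sc e)
  ca := cdiv (absSum (minor (homPoly b d) r) * 2 ^ sc e * 2 * 2 ^ 200)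
    (absLow (detPoly a (homPoly b d) r) * (A - 1) * 2 ^ (2 * e))
  cb := cdiv (absSum (minor r a) * 2 ^ sc e * 2 * 2 ^ 20 * 2 ^ 200)
    (absLow (detPoly a (homPoly b d) r) * (A - 1) * 2 ^ (2 * e))
  cr := cdiv (absSum (minor a (homPoly b d)) * 2 ^ sc e * 2 * 2 ^ 200)
    (absLow (detPoly a (homPoly b d) r) * (A - 1) * 2 ^ (2 * e))

def bounds (A B : Node) : Bounds :=
  boundsAux A.e (centre A B) (lin A B) (jetPoly A.e A.q B.q) (jetPoly A.e A.a B.a)
    (jetPoly A.e A.b B.b) (jetPoly A.e A.r B.r) (jetPoly A.e A.d B.d)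

/-- Bound of the change of the limit. -/
def devC (A B : Node) : Nat := cdiv (kNum.natAbs * A.p1 + 2 ^ 20 * B.p3) (2 ^ 20)

def devQ (A B : Node) (b : Bounds) : Nat :=
  cdiv (A.p0 * b.va + A.p1 * b.vb + B.p2 * b.vr + B.p3 * b.vd) (2 ^ 200)

def linTerm (A B : Node) (b : Bounds) : Nat :=
  cdiv (A.p0 * b.ra + A.p1 * b.rb + B.p2 * b.rr + B.p3 * b.rd) (2 ^ 200)

def quadTerm (D q : Nat) : Nat := cdiv (2 * D ^ 2 * 2 ^ 400) ((q - D) ^ 3)

/-- Bound of the forcing. -/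
def force (A B : Node) (b : Bounds) : Nat :=
  b.res + 2 * (linTerm A B b + quadTerm (devQ A B b) b.qlo + quadTerm (devC A B) (cNum * 2 ^ 136))

def okRadii (A B : Node) (b : Bounds) : Bool :=
  decide (devQ A B b < b.qlo) &&
  decide (devC A B < cNum * 2 ^ 136) &&
  decide (B.p0 + cdiv (b.ca * force A B b) (2 ^ 200) ≤ A.p0) &&
  decide (B.p1 + cdiv (b.cb * force A B b) (2 ^ 200) ≤ A.p1) &&
  decide (A.p2 + cdiv (b.cr * force A B b) (2 ^ 200) ≤ B.p2) &&
  decide (A.p3 + cdiv (cdiv (kNum.natAbs * b.cb) (2 ^ 20) * force A B b) (2 ^ 200) ≤ B.p3)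

def okShape (A B : Node) : Bool :=
  decide (A.y < B.y) &&
  decide ((B.y - A.y) * 2 ^ A.e = 8192) &&
  decide (centre A B * 8192 = (A.y + B.y) * 2 ^ A.e) &&
  decide (1 < centre A B) &&
  decide (0 < lowB (jetPoly A.e A.q B.q)) &&
  decide (0 < absLow (detPoly (jetPoly A.e A.a B.a)
    (homPoly (jetPoly A.e A.b B.b) (jetPoly A.e A.d B.d)) (jetPoly A.e A.r B.r)))

def okPiece (A B : Node) : Bool := okShape A B && okRadii A B (bounds A B)

def okList : List Node → Bool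
  | A :: B :: l => okPiece A B && okList (B :: l)
  | _ => true

end Vale.Agent.P264.Soliton.Inner
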