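import Mathlib
import Vale.Agent.P264.Soliton.Inner.Cert

/-!
The functions defined by the certificate: piecewise Hermite polynomials, their derivatives, and the
right hand side of the equation for the coefficients in the frame.
-/

namespace Vale.Agent.P264.Soliton.Inner

open Set

/-- Centre of the limit. -/
noncomputable def ctil : ℝ := (cNum : ℝ) / 2 ^ 64

/-- Change of the limit carried by the frame solutions. -/
noncomputable def kap : Fin 4 → ℝ := ![0, (kNum : ℝ) / 2 ^ 20, 0, 1]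

noncomputable def residual (y : ℝ) (q : Fin 4 → ℝ) : ℝ :=
  y * q 3 + 17 * q 2 + 56 * q 1 / y + 56 * (1 - q 0) / y ^ 2
    + (1 / (2 * ctil) - 1 / (2 * q 0))

noncomputable def linResidual (y : ℝ) (q : Fin 4 → ℝ) (κ : ℝ) (v : Fin 4 → ℝ) : ℝ :=
  y * v 3 + 17 * v 2 + 56 * v 1 / y - 56 * v 0 / y ^ 2 + v 0 / (2 * q 0 ^ 2)
    - κ / (2 * ctil ^ 2)

/-- Second order part of `1/(2c)` at `ctil + d`. -/
noncomputable def phc (d : ℝ) : ℝ := d ^ 2 / (2 * ctil ^ 2 * (ctil + d))

/-- Second order part of `-1/(2q)` at `q + δ`. -/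
noncomputable def psi (q δ : ℝ) : ℝ := -(δ ^ 2 / (2 * q ^ 2 * (q + δ)))

noncomputable def forcing (y : ℝ) (q : Fin 4 → ℝ) (v : Fin 4 → Fin 4 → ℝ) (x : Fin 4 → ℝ) : ℝ :=
  -(residual y q + ∑ i, x i * linResidual y q (kap i) (v i) + phc (∑ i, kap i * x i)
    + psi (q 0) (∑ i, x i * v i 0)) / y

noncomputable def homSol (v : Fin 4 → Fin 4 → ℝ) (k : Fin 4) : ℝ :=
  v 1 k - (kNum : ℝ) / 2 ^ 20 * v 3 k

def mnr (f g : Fin 4 → ℝ) : ℝ := f 0 * g 1 - g 0 * f 1

noncomputable def wronsk (v : Fin 4 → Fin 4 → ℝ) : ℝ :=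
  mnr (homSol v) (v 2) * v 0 2 + mnr (v 2) (v 0) * homSol v 2 + mnr (v 0) (homSol v) * v 2 2

noncomputable def coef (v : Fin 4 → Fin 4 → ℝ) : Fin 4 → ℝ :=
  ![mnr (homSol v) (v 2) / wronsk v, mnr (v 2) (v 0) / wronsk v, mnr (v 0) (homSol v) / wronsk v,
    -((kNum : ℝ) / 2 ^ 20) * (mnr (v 2) (v 0) / wronsk v)]

theorem coef_kap (v : Fin 4 → Fin 4 → ℝ) : ∑ i, kap i * coef v i = 0 := by
  simp [Fin.sum_univ_four, kap, coef]

theorem coef_zero (v : Fin 4 → Fin 4 → ℝ) : ∑ i, coef v i * v i 0 = 0 := by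
  simp [Fin.sum_univ_four, coef, mnr, homSol]; ring

theorem coef_one (v : Fin 4 → Fin 4 → ℝ) : ∑ i, coef v i * v i 1 = 0 := by
  simp [Fin.sum_univ_four, coef, mnr, homSol]; ring

theorem coef_two (v : Fin 4 → Fin 4 → ℝ) (h : wronsk v ≠ 0) : ∑ i, coef v i * v i 2 = 1 := by
  have e : ∑ i, coef v i * v i 2 =
      (mnr (homSol v) (v 2) * v 0 2 + mnr (v 2) (v 0) * homSol v 2 +
        mnr (v 0) (homSol v) * v 2 2) / wronsk v := by
    simp [Fin.sum_univ_four, coef, homSol]; ring
  rw [e, ← wronsk, div_self h]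

/-- Node position. -/
noncomputable def Node.pos (N : Node) : ℝ := (N.y : ℝ) / 4096

/-- Selection of one of the five functions. -/
def Node.sol (N : Node) : Fin 5 → Jet := ![N.q, N.a, N.b, N.r, N.d]

/-- Prescribed derivative at a node. -/
noncomputable def Node.val (N : Node) (f : Fin 5) : ℕ → ℝ
  | 0 => ((N.sol f).v0 : ℝ) / 2 ^ 150
  | 1 => ((N.sol f).v1 : ℝ) / 2 ^ 150
  | 2 => 2 * ((N.sol f).v2 : ℝ) / 2 ^ 150
  | _ => 6 * ((N.sol f).v3 : ℝ) / 2 ^ 150

noncomputable def lvar (A B : Node) (y : ℝ) : ℝ := 2 ^ A.e * y - (centre A B : ℝ)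

/-- Derivative of order `k` of one of the functions on one piece. -/
noncomputable def piece (A B : Node) (f : Fin 5) (k : ℕ) (y : ℝ) : ℝ :=
  2 ^ (A.e * k) * ev (pdiff^[k] (jetPoly A.e (A.sol f) (B.sol f))) (lvar A B y) / 2 ^ sc A.e

theorem hasDerivAt_piece (A B : Node) (f : Fin 5) (k : ℕ) (y : ℝ) :
    HasDerivAt (piece A B f k) (piece A B f (k + 1) y) y := by
  have h1 : HasDerivAt (lvar A B) (2 ^ A.e) y := by
    show HasDerivAt (fun z : ℝ => 2 ^ A.e * z - (centre A B : ℝ)) (2 ^ A.e) y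
    simpa using (((hasDerivAt_id y).const_mul ((2:ℝ) ^ A.e)).sub_const (centre A B : ℝ))
  have h2 := ((hasDerivAt_ev (pdiff^[k] (jetPoly A.e (A.sol f) (B.sol f))) (lvar A B y)).comp y h1)
  refine ((h2.const_mul ((2:ℝ) ^ (A.e * k))).div_const ((2:ℝ) ^ sc A.e)).congr_deriv ?_
  rw [piece, Function.iterate_succ_apply', show A.e * (k + 1) = A.e * k + A.e by ring, pow_add]
  ring

/-- The arithmetic facts of a piece. -/
structure Shape (A B : Node) : Prop where
  lt : A.pos < B.pos
  left : lvar A B A.pos = -1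
  right : lvar A B B.pos = 1
  centre_gt : 1 < centre A B
  qpos : 0 < lowB (jetPoly A.e A.q B.q)
  det : 0 < absLow (detPoly (jetPoly A.e A.a B.a)
    (homPoly (jetPoly A.e A.b B.b) (jetPoly A.e A.d B.d)) (jetPoly A.e A.r B.r))

theorem shape_of_ok {A B : Node} (h : okShape A B = true) : Shape A B := by
  simp only [okShape, Bool.and_eq_true, decide_eq_true_eq] at h
  obtain ⟨⟨⟨⟨⟨h1, h2⟩, h3⟩, h4⟩, h5⟩, h6⟩ := h
  have e2 : ((B.y : ℝ) - A.y) * 2 ^ A.e = 8192 := by
    have := congrArg (fun n : ℕ => (n : ℝ)) h2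
    push_cast [Nat.cast_sub h1.le] at this; exact this
  have e3 : (centre A B : ℝ) * 8192 = ((A.y : ℝ) + B.y) * 2 ^ A.e := by exact_mod_cast h3
  refine ⟨?_, ?_, ?_, h4, h5, h6⟩
  · have : (A.y : ℝ) < B.y := by exact_mod_cast h1
    unfold Node.pos; linarith
  · unfold lvar Node.pos; linear_combination (-(1 : ℝ) / 8192) * e2 - (1 / 8192 : ℝ) * e3
  · unfold lvar Node.pos; linear_combination (1 / 8192 : ℝ) * e2 - (1 / 8192 : ℝ) * e3

theorem piece_left {A B : Node} (h : Shape A B) (f : Fin 5) {k : ℕ} (hk : k ≤ 3) :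
    piece A B f k A.pos = A.val f k := by
  obtain ⟨e0, e1, e2, e3⟩ := hermite_left ((A.sol f).v0 * 2 ^ (3 * A.e))
    ((A.sol f).v1 * 2 ^ (2 * A.e)) ((A.sol f).v2 * 2 ^ A.e) (A.sol f).v3
    ((B.sol f).v0 * 2 ^ (3 * A.e)) ((B.sol f).v1 * 2 ^ (2 * A.e)) ((B.sol f).v2 * 2 ^ A.e) (B.sol f).v3
  unfold piece
  rw [h.left]
  have hs : (2:ℝ) ^ sc A.e = 2 ^ 150 * (2 ^ A.e) ^ 3 * 32 := by rw [sc, pow_add, pow_add, pow_mul']; norm_num
  rw [pow_mul (2:ℝ) A.e k]
  interval_cases k
  all_goals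
    simp only [Function.iterate_succ_apply', Function.iterate_zero_apply, jetPoly, Node.val,
      e0, e1, e2, e3, hs]
    push_cast
    try simp only [pow_mul']
    field_simp
    try ring

theorem piece_right {A B : Node} (h : Shape A B) (f : Fin 5) {k : ℕ} (hk : k ≤ 3) :
    piece A B f k B.pos = B.val f k := by
  obtain ⟨e0, e1, e2, e3⟩ := hermite_right ((A.sol f).v0 * 2 ^ (3 * A.e))
    ((A.sol f).v1 * 2 ^ (2 * A.e)) ((A.sol f).v2 * 2 ^ A.e) (A.sol f).v3
    ((B.sol f).v0 * 2 ^ (3 * A.e)) ((B.sol f).v1 * 2 ^ (2 * A.e)) ((B.sol f).v2 * 2 ^ A.e) (B.sol f).v3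
  unfold piece
  rw [h.right]
  have hs : (2:ℝ) ^ sc A.e = 2 ^ 150 * (2 ^ A.e) ^ 3 * 32 := by rw [sc, pow_add, pow_add, pow_mul']; norm_num
  rw [pow_mul (2:ℝ) A.e k]
  interval_cases k
  all_goals
    simp only [Function.iterate_succ_apply', Function.iterate_zero_apply, jetPoly, Node.val,
      e0, e1, e2, e3, hs]
    push_cast
    try simp only [pow_mul']
    field_simp
    try ring

/-- The glued functions. -/
noncomputable def glue (f : Fin 5) (k : ℕ) : List Node → ℝ → ℝ
  | A :: B :: l, y => if y ≤ B.pos then piece A B f k y else glue f k (B :: l) y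
  | _, _ => 0

/-- Consecutive pieces have the right shape. -/
def Chain : List Node → Prop
  | A :: B :: l => Shape A B ∧ Chain (B :: l)
  | _ => True

theorem chain_of_ok : ∀ {l : List Node}, okList l = true → Chain l
  | [], _ => trivial
  | [_], _ => trivial
  | A :: B :: l, h => by
      simp only [okList, okPiece, Bool.and_eq_true] at h
      exact ⟨shape_of_ok h.1.1, chain_of_ok h.2⟩

theorem glue_head : ∀ {A : Node} {B : Node} {l : List Node}, Chain (A :: B :: l) → ∀ f {k : ℕ},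
    k ≤ 3 → glue f k (A :: B :: l) A.pos = A.val f k := by
  intro A B l h f k hk
  rw [glue, if_pos h.1.lt.le, piece_left h.1 f hk]

theorem chain_mono : ∀ {l : List Node}, Chain l → ∀ i j (hi : i < l.length) (hj : j < l.length),
    i ≤ j → l[i].pos ≤ l[j].pos
  | [], _, i, _, hi, _, _ => absurd hi (by simp)
  | [A], _, i, j, hi, hj, _ => by
      have : i = 0 := by simp at hi; omega
      have : j = 0 := by simp at hj; omega
      subst_vars; simp
  | A :: B :: l, h, i, j, hi, hj, hij => by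
      match i, j with
      | 0, 0 => simp
      | 0, j + 1 =>
          refine h.1.lt.le.trans ?_
          exact chain_mono h.2 0 j (by simp) (by simpa using hj) (Nat.zero_le _)
      | i + 1, 0 => omega
      | i + 1, j + 1 =>
          simpa using chain_mono h.2 i j (by simpa using hi) (by simpa using hj) (by omega)

theorem glue_piece (f : Fin 5) {k : ℕ} (hk : k ≤ 3) : ∀ {l : List Node}, Chain l →
    ∀ i (hi : i + 1 < l.length), ∀ y ∈ Icc l[i].pos l[i + 1].pos,
      glue f k l y = piece l[i] l[i + 1] f k y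
  | [], _, i, hi, _, _ => absurd hi (by simp)
  | [_], _, i, hi, _, _ => absurd hi (by simp)
  | A :: B :: l, h, 0, _, y, hy => by
      rw [glue, if_pos (by simpa using hy.2)]; rfl
  | A :: B :: l, h, i + 1, hi, y, hy => by
      have hi' : i + 1 < (B :: l).length := by simpa using hi
      have hy' : y ∈ Icc (B :: l)[i].pos (B :: l)[i + 1].pos := by simpa using hy
      have ih := glue_piece f hk h.2 i hi' y hy'
      have hBy : B.pos ≤ y := by
        refine le_trans ?_ hy'.1
        exact chain_mono h.2 0 i (by simp) (by omega) (Nat.zero_le _)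
      show glue f k (A :: B :: l) y = piece (B :: l)[i] (B :: l)[i + 1] f k y
      by_cases hyB : y ≤ B.pos
      · have hy0 : y = B.pos := le_antisymm hyB hBy
        rw [glue, if_pos hyB, ← ih, hy0, piece_right h.1 f hk]
        cases l with
        | nil => exact absurd hi (by simp)
        | cons C m => rw [glue_head h.2 f hk]
      · rw [glue, if_neg hyB]; exact ih

theorem glue_hasDeriv (f : Fin 5) {k : ℕ} (hk : k ≤ 2) : ∀ {l : List Node}, Chain l →
    ∀ (hl : 1 < l.length), ∀ y ∈ Icc (l[0]'(by omega)).pos (l[l.length - 1]'(by omega)).pos,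
      HasDerivWithinAt (glue f k l) (glue f (k + 1) l y)
        (Icc (l[0]'(by omega)).pos (l[l.length - 1]'(by omega)).pos) y
  | [], _, hl, _, _ => absurd hl (by simp)
  | [_], _, hl, _, _ => absurd hl (by simp)
  | A :: B :: [], h, _, y, hy => by
      simp only [List.length_cons, List.length_nil, List.getElem_cons_zero] at hy ⊢
      simp only [show (0 + 1 + 1 - 1 : ℕ) = 1 from rfl, List.getElem_cons_succ,
        List.getElem_cons_zero] at hy ⊢
      rw [show glue f (k + 1) (A :: [B]) y = piece A B f (k + 1) y by rw [glue, if_pos hy.2]]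
      refine (hasDerivAt_piece A B f k y).hasDerivWithinAt.congr (fun z hz => ?_) ?_
      · rw [glue, if_pos hz.2]
      · rw [glue, if_pos hy.2]
  | A :: B :: C :: l, h, _, y, hy => by
      have ih := glue_hasDeriv f hk h.2 (by simp)
      simp only [List.length_cons, List.getElem_cons_zero, add_tsub_cancel_right,
        List.getElem_cons_succ] at ih hy ⊢
      set e := ((C :: l)[l.length]'(by simp)).pos with he
      have hAB : A.pos ≤ B.pos := h.1.lt.le
      have hBe : B.pos ≤ e := by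
        have := chain_mono h.2 0 (l.length + 1) (by simp) (by simp) (Nat.zero_le _)
        simpa using this
      have tail_eq : ∀ (j : ℕ), j ≤ 3 → ∀ z, B.pos ≤ z →
          glue f j (A :: B :: C :: l) z = glue f j (B :: C :: l) z := by
        intro j hj z hz
        by_cases hzB : z ≤ B.pos
        · rw [glue, if_pos hzB, le_antisymm hzB hz, piece_right h.1 f hj,
            glue_head h.2 f hj]
        · rw [glue, if_neg hzB]
      have head_eq : ∀ (j : ℕ) z, z ≤ B.pos →
          glue f j (A :: B :: C :: l) z = piece A B f j z := fun j z hz => by rw [glue, if_pos hz]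
      have hL : y ∈ Icc A.pos B.pos → HasDerivWithinAt (glue f k (A :: B :: C :: l))
          (glue f (k + 1) (A :: B :: C :: l) y) (Icc A.pos B.pos) y := fun hm => by
        rw [head_eq (k + 1) y hm.2]
        exact (hasDerivAt_piece A B f k y).hasDerivWithinAt.congr (fun z hz => head_eq k z hz.2)
          (head_eq k y hm.2)
      have hR : y ∈ Icc B.pos e → HasDerivWithinAt (glue f k (A :: B :: C :: l))
          (glue f (k + 1) (A :: B :: C :: l) y) (Icc B.pos e) y := fun hm => by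
        rw [tail_eq (k + 1) (by omega) y hm.1]
        exact (ih y hm).congr (fun z hz => tail_eq k (by omega) z hz.1) (tail_eq k (by omega) y hm.1)
      rcases lt_trichotomy y B.pos with hlt | heq | hgt
      · refine (hL ⟨hy.1, hlt.le⟩).mono_of_mem_nhdsWithin ?_
        rw [mem_nhdsWithin]
        exact ⟨Iio B.pos, isOpen_Iio, hlt, fun z hz => ⟨hz.2.1, (le_of_lt (mem_Iio.1 hz.1))⟩⟩
      · have := (hL ⟨hy.1, heq.le⟩).union (hR ⟨heq.ge, hy.2⟩)
        rwa [Icc_union_Icc_eq_Icc hAB hBe] at this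
      · refine (hR ⟨hgt.le, hy.2⟩).mono_of_mem_nhdsWithin ?_
        rw [mem_nhdsWithin]
        exact ⟨Ioi B.pos, isOpen_Ioi, hgt, fun z hz => ⟨(le_of_lt (mem_Ioi.1 hz.1)), hz.2.2⟩⟩

end Vale.Agent.P264.Soliton.Inner
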