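import Vale.Agent.P264.Soliton.Inner.Data0
import Vale.Agent.P264.Soliton.Inner.Data1
import Vale.Agent.P264.Soliton.Inner.Data2
import Vale.Agent.P264.Soliton.Inner.Data3
import Vale.Agent.P264.Soliton.Inner.Data4
import Vale.Agent.P264.Soliton.Inner.Data5
import Vale.Agent.P264.Soliton.Inner.Data6
import Vale.Agent.P264.Soliton.Inner.Data7

/-! The node list of the certificate. -/

namespace Vale.Agent.P264.Soliton.Inner

def nodes : List Node :=
  [nd0, nd1, nd2, nd3, nd4, nd5, nd6, nd7, nd8, nd9,
    nd10, nd11, nd12, nd13, nd14, nd15, nd16, nd17, nd18, nd19,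
    nd20, nd21, nd22, nd23, nd24, nd25, nd26, nd27, nd28, nd29,
    nd30, nd31, nd32, nd33, nd34, nd35, nd36, nd37, nd38, nd39,
    nd40, nd41, nd42, nd43, nd44, nd45, nd46, nd47, nd48, nd49,
    nd50, nd51, nd52, nd53, nd54, nd55, nd56, nd57, nd58, nd59,
    nd60, nd61, nd62, nd63, nd64, nd65, nd66, nd67, nd68, nd69,
    nd70, nd71, nd72, nd73, nd74, nd75, nd76, nd77, nd78, nd79,
    nd80, nd81, nd82, nd83, nd84, nd85, nd86, nd87, nd88, nd89,
    nd90, nd91, nd92, nd93, nd94, nd95, nd96, nd97, nd98, nd99,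
    nd100, nd101, nd102, nd103, nd104, nd105, nd106, nd107, nd108, nd109,
    nd110, nd111, nd112, nd113, nd114, nd115, nd116, nd117, nd118, nd119,
    nd120, nd121, nd122, nd123, nd124, nd125, nd126, nd127, nd128, nd129,
    nd130, nd131, nd132, nd133, nd134, nd135, nd136, nd137, nd138, nd139,
    nd140, nd141, nd142, nd143, nd144, nd145, nd146, nd147, nd148, nd149,
    nd150, nd151, nd152, nd153, nd154, nd155, nd156, nd157, nd158, nd159,
    nd160, nd161, nd162, nd163, nd164, nd165, nd166, nd167, nd168, nd169,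
    nd170, nd171, nd172, nd173, nd174, nd175, nd176, nd177, nd178, nd179,
    nd180, nd181, nd182, nd183, nd184, nd185, nd186, nd187, nd188, nd189,
    nd190, nd191, nd192, nd193, nd194, nd195, nd196, nd197, nd198, nd199,
    nd200, nd201, nd202, nd203, nd204, nd205, nd206, nd207, nd208, nd209,
    nd210, nd211, nd212, nd213, nd214, nd215, nd216, nd217, nd218, nd219,
    nd220, nd221, nd222, nd223, nd224, nd225, nd226, nd227, nd228, nd229,
    nd230, nd231, nd232, nd233, nd234, nd235, nd236, nd237, nd238, nd239,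
    nd240, nd241, nd242, nd243, nd244, nd245, nd246, nd247, nd248, nd249,
    nd250, nd251, nd252, nd253, nd254, nd255, nd256, nd257, nd258, nd259,
    nd260, nd261, nd262, nd263, nd264, nd265, nd266, nd267, nd268, nd269,
    nd270, nd271, nd272, nd273, nd274, nd275, nd276, nd277, nd278, nd279,
    nd280, nd281, nd282, nd283, nd284, nd285, nd286, nd287, nd288, nd289,
    nd290, nd291, nd292, nd293, nd294, nd295, nd296, nd297, nd298, nd299,
    nd300, nd301, nd302, nd303, nd304, nd305, nd306, nd307, nd308, nd309,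
    nd310, nd311]

end Vale.Agent.P264.Soliton.Inner
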