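import Mathlib
import Vale.Agent.P264.Soliton.Inner.Frame
import Vale.Agent.P264.Soliton.Inner.Nodes

/-!
The two statements between the certificate and the matching: soundness of the check of one piece,
and the connection on `[3/2, 64]` for any contracting boundary map.
-/

namespace Vale.Agent.P264.Soliton.Inner

open Set

/-- The radii of a node. -/
noncomputable def Node.rad (N : Node) : Fin 4 → ℝ :=
  ![(N.p0 : ℝ) / 2 ^ 200, (N.p1 : ℝ) / 2 ^ 200, (N.p2 : ℝ) / 2 ^ 200, (N.p3 : ℝ) / 2 ^ 200]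

/-- The radii valid on a whole piece. -/
noncomputable def capP (A B : Node) : Fin 4 → ℝ :=
  ![A.rad 0, A.rad 1, B.rad 2, B.rad 3]

/-- The room that a piece leaves to its integral. -/
noncomputable def drop (A B : Node) : Fin 4 → ℝ :=
  ![A.rad 0 - B.rad 0, A.rad 1 - B.rad 1, B.rad 2 - A.rad 2, B.rad 3 - A.rad 3]

noncomputable def pieceQ (A B : Node) (y : ℝ) (k : Fin 4) : ℝ := piece A B 0 k y

noncomputable def pieceV (A B : Node) (y : ℝ) (i : Fin 4) (k : Fin 4) : ℝ :=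
  piece A B i.succ k y

/-- Soundness of the check of one piece. -/
def PieceSound : Prop :=
  ∀ A B : Node, okPiece A B = true → ∀ y ∈ Icc A.pos B.pos,
    wronsk (pieceV A B y) ≠ 0 ∧ (∀ i, 0 ≤ drop A B i) ∧
    ∀ x : Fin 4 → ℝ, (∀ i, |x i| ≤ capP A B i) →
      (0 < pieceQ A B y 0 ∧ |∑ i, x i * pieceV A B y i 0| < pieceQ A B y 0 ∧
        |∑ i, kap i * x i| < ctil) ∧
      (∀ j, (B.pos - A.pos) *
        |coef (pieceV A B y) j * forcing y (pieceQ A B y) (pieceV A B y) x| ≤ drop A B j) ∧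
      ∀ x' : Fin 4 → ℝ, ∀ d : ℝ, 0 ≤ d → (∀ i, |x' i| ≤ capP A B i) →
        (∀ i, |x i - x' i| ≤ d * capP A B i) →
        ∀ j, (B.pos - A.pos) *
          |coef (pieceV A B y) j * forcing y (pieceQ A B y) (pieceV A B y) x -
            coef (pieceV A B y) j * forcing y (pieceQ A B y) (pieceV A B y) x'| ≤
          d / 2 * drop A B j

/-- The radius of the value that the boundary map prescribes. -/
noncomputable def endRad (j : Fin 4) : ℝ := if j.val < 2 then nd311.rad j else nd0.rad j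

/-- A boundary map `(a(3/2), a(64), α) ↦ (prescribed end values, α)` that fits the certificate:
components `0, 1` are prescribed at `64` and `2, 3` at `3/2`. -/
structure BdOk (A : Fin 4 → ℝ)
    (B : (Fin 4 → ℝ) → (Fin 4 → ℝ) → (Fin 4 → ℝ) → (Fin 4 → ℝ) × (Fin 4 → ℝ)) : Prop where
  nonneg : ∀ j, 0 ≤ A j
  size : ∀ u v α, (∀ j, |u j| ≤ nd0.rad j) → (∀ j, |v j| ≤ nd311.rad j) → (∀ j, |α j| ≤ A j) →
    ∀ j, |(B u v α).1 j| ≤ endRad j ∧ |(B u v α).2 j| ≤ A j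
  lip : ∀ u v α u' v' α', ∀ d : ℝ, 0 ≤ d →
    (∀ j, |u j| ≤ nd0.rad j) → (∀ j, |v j| ≤ nd311.rad j) → (∀ j, |α j| ≤ A j) →
    (∀ j, |u' j| ≤ nd0.rad j) → (∀ j, |v' j| ≤ nd311.rad j) → (∀ j, |α' j| ≤ A j) →
    (∀ j, |u j - u' j| ≤ d * nd0.rad j) → (∀ j, |v j - v' j| ≤ d * nd311.rad j) →
    (∀ j, |α j - α' j| ≤ d * A j) →
    ∀ j, |(B u v α).1 j - (B u' v' α').1 j| ≤ d / 2 * endRad j ∧
      |(B u v α).2 j - (B u' v' α').2 j| ≤ d / 2 * A j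

/-- Derivative `k` at an end of the perturbed approximate solution. -/
noncomputable def endData (N : Node) (u : Fin 4 → ℝ) (k : ℕ) : ℝ :=
  N.val 0 k + ∑ i : Fin 4, u i * N.val i.succ k

/-- The connection on `[3/2, 64]`. -/
def MiddleTarget : Prop :=
  ∀ A B, BdOk A B → ∃ u v α : Fin 4 → ℝ, ∃ c : ℝ, ∃ q q1 q2 q3 : ℝ → ℝ,
    (∀ j, |u j| ≤ nd0.rad j) ∧ (∀ j, |v j| ≤ nd311.rad j) ∧ (∀ j, |α j| ≤ A j) ∧
    (∀ j : Fin 4, 2 ≤ j.val → u j = (B u v α).1 j) ∧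
    (∀ j : Fin 4, j.val < 2 → v j = (B u v α).1 j) ∧ α = (B u v α).2 ∧
    c = ctil + ∑ i, kap i * u i ∧ c = ctil + ∑ i, kap i * v i ∧ 0 < c ∧
    q (3 / 2) = endData nd0 u 0 ∧ q1 (3 / 2) = endData nd0 u 1 ∧ q2 (3 / 2) = endData nd0 u 2 ∧
    q 64 = endData nd311 v 0 ∧ q1 64 = endData nd311 v 1 ∧ q2 64 = endData nd311 v 2 ∧
    (∀ y ∈ Icc (3 / 2 : ℝ) 64, 0 < q y) ∧
    (∀ y ∈ Icc (3 / 2 : ℝ) 64, HasDerivWithinAt q (q1 y) (Icc (3 / 2 : ℝ) 64) y) ∧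
    (∀ y ∈ Icc (3 / 2 : ℝ) 64, HasDerivWithinAt q1 (q2 y) (Icc (3 / 2 : ℝ) 64) y) ∧
    (∀ y ∈ Icc (3 / 2 : ℝ) 64, HasDerivWithinAt q2 (q3 y) (Icc (3 / 2 : ℝ) 64) y) ∧
    (∀ y ∈ Icc (3 / 2 : ℝ) 64, y * q3 y + 17 * q2 y + 56 * q1 y / y + 56 * (1 - q y) / y ^ 2
      + (1 / (2 * c) - 1 / (2 * q y)) = 0) ∧
    ∃ y₀ ∈ Icc (3 / 2 : ℝ) 64, q y₀ ≤ 1 / 10

end Vale.Agent.P264.Soliton.Inner
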