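import Mathlib
import Vale.Agent.P264.Soliton.Inner.Targets
import Vale.Agent.P264.Soliton.Inner.LeftDefs

/-! Constants of the matching at `3/2` and `64` (from notes/P264_helper5/bnd.py, rounded). -/

namespace Vale.Agent.P264.Soliton.Inner

/-- Radii of the four parameters `(p0, p1, c - ctil, a)`. -/
noncomputable def parRad : Fin 4 → ℝ := ![17 / 100000000, 29 / 10000000000, 3 / 12500000, 3 / 25000000]

noncomputable def newtL : Fin 4 → Fin 4 → ℝ := ![![12347 / 100000, -(96911 / 1000000), 99391 / 100000, -(511 / 50000)],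
  ![-(1563 / 5000000), 2457 / 5000000, 79873 / 1000000000, -(10019 / 2000000000)],
  ![51297 / 100000, 25113 / 100000, 25077 / 1000000, -(10771 / 1000000)],
  ![4351 / 2500000000, -(27359 / 10000000000), -(4447 / 10000000000), 13919 / 2500000]]

noncomputable def newtR : Fin 4 → Fin 4 → ℝ := ![![13249 / 100000, -(3383 / 25000), -(247 / 125), -(13629 / 100000)],
  ![-(15071 / 1000000), -(10871 / 250000), 6969 / 250000, 7729 / 500000],
  ![27069 / 10000, 78101 / 10000, -(12517 / 2500), -(9441 / 2500)],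
  ![-(419 / 2000), 28807 / 100000, -(81263 / 10000), 2161 / 10000]]

/-- Derivative of the tail data in the limit. -/
noncomputable def slopeT : Fin 3 → ℝ := ![1028451518163 / 1000000000000, -(46426499 / 50000000000), 5757231 / 125000000000]

/-- Derivative of `cOf` in the second parameter, up to sign. -/
noncomputable def slopeC : ℝ := 17961 / 100

theorem rad_left : nd0.rad 0 ≤ 4151 / 50000000000 ∧ nd0.rad 1 ≤ 87 / 62500000000 ∧
    nd0.rad 2 ≤ 4001 / 10000000000000 ∧ nd0.rad 3 ≤ 1 / 2000000000000 ∧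
    1 / 2500000000 ≤ nd0.rad 2 ∧ 4999 / 10000000000000000 ≤ nd0.rad 3 := by
  norm_num [Node.rad, nd0, Matrix.cons_val_two, Matrix.cons_val_three, Matrix.tail_cons]

theorem rad_right : nd311.rad 0 ≤ 3501 / 100000000000 ∧ nd311.rad 1 ≤ 1301 / 1000000000000 ∧
    nd311.rad 2 ≤ 60410000000 ∧ nd311.rad 3 ≤ 329 / 20000000000 ∧
    7 / 200000000 ≤ nd311.rad 0 ∧ 13 / 10000000000 ≤ nd311.rad 1 := by
  norm_num [Node.rad, nd311, Matrix.cons_val_two, Matrix.cons_val_three, Matrix.tail_cons]

end Vale.Agent.P264.Soliton.Inner
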