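import Mathlib
import Vale.Agent.P264.Soliton.Inner.MatchData

/-! The nonlinear parts of the two boundary conditions, and their Lipschitz constants. -/

namespace Vale.Agent.P264.Soliton.Inner

open Set

theorem pow_sub_le {x y : ℝ} (hx : |x| ≤ 1) (hy : |y| ≤ 1) (n : ℕ) :
    |x ^ n - y ^ n| ≤ n * |x - y| := by
  induction n with
  | zero => simp
  | succ n ih =>
    rw [show x ^ (n + 1) - y ^ (n + 1) = x * (x ^ n - y ^ n) + y ^ n * (x - y) by ring]
    refine (abs_add_le _ _).trans ?_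
    rw [abs_mul, abs_mul, abs_pow]
    push_cast
    have h1 := (mul_le_of_le_one_left (abs_nonneg (x ^ n - y ^ n)) hx).trans ih
    have h2 := mul_le_of_le_one_left (abs_nonneg (x - y)) (pow_le_one₀ (abs_nonneg y) hy (n := n))
    linarith

/-- Deviation of a power from its linearisation at `c₀`. -/
theorem pow_dev {c₀ r x y : ℝ} (h0 : 0 ≤ c₀ - r) (h1 : c₀ + r ≤ 1) (hx : |x - c₀| ≤ r)
    (hy : |y - c₀| ≤ r) (n : ℕ) :
    |x ^ (n + 1) - y ^ (n + 1) - ((n : ℝ) + 1) * c₀ ^ n * (x - y)|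
      ≤ ((n : ℝ) + 1) * n * r * |x - y| := by
  have hr : 0 ≤ r := (abs_nonneg _).trans hx
  obtain ⟨x1, x2⟩ := abs_le.1 hx
  obtain ⟨y1, y2⟩ := abs_le.1 hy
  have hxa : |x| ≤ 1 := abs_le.2 ⟨by linarith, by linarith⟩
  have hya : |y| ≤ 1 := abs_le.2 ⟨by linarith, by linarith⟩
  have hca : |c₀| ≤ 1 := abs_le.2 ⟨by linarith, by linarith⟩
  induction n with
  | zero => simp
  | succ n ih =>
    rw [show x ^ (n + 1 + 1) - y ^ (n + 1 + 1) - (((n + 1 : ℕ) : ℝ) + 1) * c₀ ^ (n + 1) * (x - y)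
      = x * (x ^ (n + 1) - y ^ (n + 1) - ((n : ℝ) + 1) * c₀ ^ n * (x - y))
        + ((n : ℝ) + 1) * c₀ ^ n * (x - c₀) * (x - y)
        + (y ^ (n + 1) - c₀ ^ (n + 1)) * (x - y) by push_cast; ring]
    refine (abs_add_three _ _ _).trans ?_
    simp only [abs_mul, abs_pow, abs_of_nonneg (by positivity : (0:ℝ) ≤ (n:ℝ) + 1)]
    have t1 := (mul_le_of_le_one_left (abs_nonneg (x ^ (n + 1) - y ^ (n + 1)
      - ((n : ℝ) + 1) * c₀ ^ n * (x - y))) hxa).trans ih
    have t2 : ((n : ℝ) + 1) * |c₀| ^ n * |x - c₀| * |x - y| ≤ ((n : ℝ) + 1) * 1 * r * |x - y| :=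
      mul_le_mul_of_nonneg_right (mul_le_mul (mul_le_mul_of_nonneg_left
        (pow_le_one₀ (abs_nonneg _) hca) (by positivity)) hx (abs_nonneg _) (by positivity))
        (abs_nonneg _)
    have t3 : |y ^ (n + 1) - c₀ ^ (n + 1)| * |x - y| ≤ ((n : ℝ) + 1) * r * |x - y| := by
      refine mul_le_mul_of_nonneg_right ?_ (abs_nonneg _)
      refine (pow_sub_le hya hca (n + 1)).trans ?_
      push_cast
      exact mul_le_mul_of_nonneg_left hy (by positivity)
    push_cast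
    linarith

/-- The tail data at `64` without the parameter `a`. -/
noncomputable def tailRow (k : Fin 3) (c : ℝ) : ℝ :=
  ![c + tailPoly c 64, tailPoly1 c 64, tailPoly2 c 64] k

theorem tailRow_dev {c c' : ℝ} (hc : |c - ctil| ≤ 3 / 12500000)
    (hc' : |c' - ctil| ≤ 3 / 12500000) (k : Fin 3) :
    |tailRow k c - tailRow k c' - slopeT k * (c - c')| ≤ 1 / 10000000 * |c - c'| := by
  have hd := fun n => pow_dev (c₀ := ctil) (r := 3 / 12500000) (by norm_num [ctil, cNum])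
    (by norm_num [ctil, cNum]) hc hc' n
  have g2 := abs_le.1 (hd 1)
  have g3 := abs_le.1 (hd 2)
  have g4 := abs_le.1 (hd 3)
  have g5 := abs_le.1 (hd 4)
  have g6 := abs_le.1 (hd 5)
  have g7 := abs_le.1 (hd 6)
  have g8 := abs_le.1 (hd 7)
  have g9 := abs_le.1 (hd 8)
  norm_num [ctil, cNum] at g2 g3 g4 g5 g6 g7 g8 g9
  have hn := abs_nonneg (c - c')
  have hs := abs_le.1 (le_refl |c - c'|)
  fin_cases k <;>
    simp [tailRow, slopeT, tailPoly, tailPoly1, tailPoly2, coef1, coef2, coef3, coef4] <;>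
    norm_num <;> rw [abs_le] <;> constructor <;> linarith [hs.1, hs.2]

theorem tailRow_centre :
    |nd311.val 0 0 - tailRow 0 ctil| ≤ 983 / 1000000000000 ∧
    |nd311.val 0 1 - tailRow 1 ctil| ≤ 651 / 10000000000000 ∧
    |nd311.val 0 2 - tailRow 2 ctil| ≤ 542 / 100000000000000 := by
  simp [tailRow, tailPoly, tailPoly1, tailPoly2, coef1, coef2, coef3, coef4, ctil, cNum, Node.val,
    Node.sol, nd311]
  norm_num [abs_le]

theorem pSet_mem {p : ℝ × ℝ} (h1 : |p.1| ≤ 17 / 100000000) (h2 : |p.2| ≤ 29 / 10000000000) :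
    p ∈ pSet := ⟨h1.trans (by norm_num), h2.trans (by norm_num)⟩

/-- Constant and nonlinear part of the condition at `3/2`. -/
noncomputable def remL (L : LeftMap) (k : Fin 3) (p : ℝ × ℝ) : ℝ :=
  nd0.val 0 k + leftD0 k * p.1 + leftD1 k * p.2 - L.data p k

/-- Constant and nonlinear part of the condition on the limit. -/
noncomputable def remC (p : ℝ × ℝ) : ℝ := ctil - cOf p - slopeC * p.2

theorem remL_lip (L : LeftMap) {p p' : ℝ × ℝ} (hp : p ∈ pSet) (hp' : p' ∈ pSet) (k : Fin 3) :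
    |remL L k p - remL L k p'| ≤ 1 / 100000 * (|p.1 - p'.1| + |p.2 - p'.2|) := by
  rw [abs_sub_comm, show remL L k p' - remL L k p = L.data p k - L.data p' k
    - leftD0 k * (p.1 - p'.1) - leftD1 k * (p.2 - p'.2) by simp only [remL]; ring]
  exact L.lip p hp p' hp' k

theorem remL_size (L : LeftMap) {p : ℝ × ℝ} (h1 : |p.1| ≤ 17 / 100000000)
    (h2 : |p.2| ≤ 29 / 10000000000) (k : Fin 3) : |remL L k p| ≤ 103 / 1000000000000 := by
  have h0 : ((0 : ℝ), (0 : ℝ)) ∈ pSet := pSet_mem (by norm_num) (by norm_num)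
  have hl := remL_lip L (pSet_mem h1 h2) h0 k
  simp only [sub_zero] at hl
  have hc := L.centre k
  have hE : |nd0.val 0 k - leftZ k| ≤ 1 / 10000000000000000 := by
    fin_cases k <;> norm_num [Node.val, Node.sol, nd0, leftZ, abs_le]
  have he : remL L k (0, 0) = nd0.val 0 k - L.data (0, 0) k := by simp [remL]
  rw [he] at hl
  obtain ⟨a1, a2⟩ := abs_le.1 hl
  obtain ⟨b1, b2⟩ := abs_le.1 hc
  obtain ⟨c1, c2⟩ := abs_le.1 hE
  rw [abs_le]
  constructor <;> linarith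

theorem cOf_range {p : ℝ × ℝ} (h2 : |p.2| ≤ 29 / 10000000000) :
    998915 / 1000000 ≤ cOf p ∧ cOf p ≤ 998918 / 1000000 ∧
      cOf p * (1 + 180 * (G1 + p.2)) = 1 := by
  obtain ⟨l, u⟩ := abs_le.1 h2
  have hd : 0 < 1 + 180 * (G1 + p.2) := by norm_num [G1]; linarith
  refine ⟨?_, ?_, ?_⟩
  · rw [cOf, le_div_iff₀ hd]; norm_num [G1]; linarith
  · rw [cOf, div_le_iff₀ hd]; norm_num [G1]; linarith
  · rw [cOf, one_div_mul_cancel hd.ne']

theorem remC_lip {p p' : ℝ × ℝ} (h2 : |p.2| ≤ 29 / 10000000000)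
    (h2' : |p'.2| ≤ 29 / 10000000000) : |remC p - remC p'| ≤ 1 / 1000 * |p.2 - p'.2| := by
  obtain ⟨l, u, e⟩ := cOf_range h2
  obtain ⟨l', u', e'⟩ := cOf_range h2'
  have hd : remC p - remC p' = (180 * (cOf p * cOf p') - slopeC) * (p.2 - p'.2) := by
    simp only [remC]
    linear_combination (cOf p) * e' - (cOf p') * e
  rw [hd, abs_mul]
  refine mul_le_mul_of_nonneg_right ?_ (abs_nonneg _)
  have hlo : 998915 / 1000000 * (998915 / 1000000) ≤ cOf p * cOf p' :=
    mul_le_mul l l' (by norm_num) (by linarith)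
  have hhi : cOf p * cOf p' ≤ 998918 / 1000000 * (998918 / 1000000) :=
    mul_le_mul u u' (by linarith) (by norm_num)
  rw [abs_le, slopeC]
  constructor <;> linarith

theorem remC_size {p : ℝ × ℝ} (h2 : |p.2| ≤ 29 / 10000000000) :
    |remC p| ≤ 9 / 1000000000000 := by
  have hl := remC_lip h2 (p' := (0, 0)) (by norm_num)
  have hE : |remC (0, 0)| ≤ 6 / 1000000000000 := by
    norm_num [remC, cOf, ctil, cNum, G1, abs_le]
  simp only [sub_zero] at hl
  obtain ⟨a1, a2⟩ := abs_le.1 hl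
  obtain ⟨b1, b2⟩ := abs_le.1 hE
  rw [abs_le]
  constructor <;> linarith

end Vale.Agent.P264.Soliton.Inner
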