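import Mathlib
import Vale.Agent.P264.Soliton.Inner.MatchData

/-! The linear part of the two Newton maps: sizes of the rows, and invertibility. -/

namespace Vale.Agent.P264.Soliton.Inner

/-- Linear part of the conditions at `3/2`. -/
noncomputable def linL (u : Fin 4 → ℝ) (p0 p1 : ℝ) : Fin 4 → ℝ :=
  ![(∑ i, u i * nd0.val i.succ 0) - leftD0 0 * p0 - leftD1 0 * p1,
    (∑ i, u i * nd0.val i.succ 1) - leftD0 1 * p0 - leftD1 1 * p1,
    (∑ i, u i * nd0.val i.succ 2) - leftD0 2 * p0 - leftD1 2 * p1,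
    (∑ i, kap i * u i) + slopeC * p1]

/-- One Newton step at `3/2` for the remainder `e`. -/
noncomputable def stepL (u : Fin 4 → ℝ) (p0 p1 : ℝ) (e : Fin 4 → ℝ) (i : Fin 4) : ℝ :=
  ![u 2, u 3, p0, p1] i - ∑ k, newtL i k * (linL u p0 p1 k + e k)

/-- Linear part of the conditions at `64`. -/
noncomputable def linR (v : Fin 4 → ℝ) (dc a : ℝ) : Fin 4 → ℝ :=
  ![(∑ i, v i * nd311.val i.succ 0) - slopeT 0 * dc - a,
    (∑ i, v i * nd311.val i.succ 1) - slopeT 1 * dc + slope1 * a,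
    (∑ i, v i * nd311.val i.succ 2) - slopeT 2 * dc - slope2 * a,
    (∑ i, kap i * v i) - dc]

/-- One Newton step at `64` for the remainder `e`. -/
noncomputable def stepR (v : Fin 4 → ℝ) (dc a : ℝ) (e : Fin 4 → ℝ) (i : Fin 4) : ℝ :=
  ![v 0, v 1, dc, a] i - ∑ k, newtR i k * (linR v dc a k + e k)

theorem stepL_sub (u u' : Fin 4 → ℝ) (p0 p0' p1 p1' : ℝ) (e e' : Fin 4 → ℝ) (i : Fin 4) :
    stepL u p0 p1 e i - stepL u' p0' p1' e' i =
      stepL (fun j => u j - u' j) (p0 - p0') (p1 - p1') (fun k => e k - e' k) i := by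
  fin_cases i <;> simp [stepL, linL, Fin.sum_univ_four] <;> ring

theorem stepR_sub (v v' : Fin 4 → ℝ) (dc dc' a a' : ℝ) (e e' : Fin 4 → ℝ) (i : Fin 4) :
    stepR v dc a e i - stepR v' dc' a' e' i =
      stepR (fun j => v j - v' j) (dc - dc') (a - a') (fun k => e k - e' k) i := by
  fin_cases i <;> simp [stepR, linR, Fin.sum_univ_four] <;> ring

theorem stepL_bound {u : Fin 4 → ℝ} {p0 p1 s : ℝ} {e : Fin 4 → ℝ} (hs : 0 ≤ s)
    (hu : ∀ j, |u j| ≤ s * nd0.rad j) (h0 : |p0| ≤ s * (17 / 100000000))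
    (h1 : |p1| ≤ s * (29 / 10000000000))
    (he0 : |e 0| ≤ s * (103 / 1000000000000)) (he1 : |e 1| ≤ s * (103 / 1000000000000))
    (he2 : |e 2| ≤ s * (103 / 1000000000000)) (he3 : |e 3| ≤ s * (9 / 1000000000000)) :
    |stepL u p0 p1 e 0| ≤ s / 2 * nd0.rad 2 ∧ |stepL u p0 p1 e 1| ≤ s / 2 * nd0.rad 3 ∧
    |stepL u p0 p1 e 2| ≤ s / 2 * (17 / 100000000) ∧
    |stepL u p0 p1 e 3| ≤ s / 2 * (29 / 10000000000) := by
  obtain ⟨r0, r1, r2, r3, t2, t3⟩ := rad_left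
  have a0 := abs_le.1 ((hu 0).trans (mul_le_mul_of_nonneg_left r0 hs))
  have a1 := abs_le.1 ((hu 1).trans (mul_le_mul_of_nonneg_left r1 hs))
  have a2 := abs_le.1 ((hu 2).trans (mul_le_mul_of_nonneg_left r2 hs))
  have a3 := abs_le.1 ((hu 3).trans (mul_le_mul_of_nonneg_left r3 hs))
  have T2 : s / 2 * (1 / 2500000000) ≤ s / 2 * nd0.rad 2 :=
    mul_le_mul_of_nonneg_left t2 (by linarith)
  have T3 : s / 2 * (4999 / 10000000000000000) ≤ s / 2 * nd0.rad 3 :=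
    mul_le_mul_of_nonneg_left t3 (by linarith)
  obtain ⟨p0l, p0u⟩ := abs_le.1 h0
  obtain ⟨p1l, p1u⟩ := abs_le.1 h1
  obtain ⟨e0l, e0u⟩ := abs_le.1 he0
  obtain ⟨e1l, e1u⟩ := abs_le.1 he1
  obtain ⟨e2l, e2u⟩ := abs_le.1 he2
  obtain ⟨e3l, e3u⟩ := abs_le.1 he3
  refine ⟨le_trans ?_ T2, le_trans ?_ T3, ?_, ?_⟩ <;>
    simp [stepL, linL, newtL, Fin.sum_univ_four, Node.val, Node.sol, nd0, leftD0, leftD1, slopeC,
      kap, kNum] <;>
    norm_num <;> rw [abs_le] <;> constructor <;> linarith [a0.1, a0.2, a1.1, a1.2, a2.1, a2.2,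
      a3.1, a3.2]

theorem stepR_bound {v : Fin 4 → ℝ} {dc a s : ℝ} {e : Fin 4 → ℝ} (hs : 0 ≤ s)
    (hv : ∀ j, |v j| ≤ s * nd311.rad j) (h0 : |dc| ≤ s * (3 / 12500000))
    (h1 : |a| ≤ s * (3 / 25000000))
    (he0 : |e 0| ≤ s * (11 / 10000000000)) (he1 : |e 1| ≤ s * (64 / 10000000000))
    (he2 : |e 2| ≤ s * (58 / 10000000000)) (he3 : e 3 = 0) :
    |stepR v dc a e 0| ≤ s / 2 * nd311.rad 0 ∧ |stepR v dc a e 1| ≤ s / 2 * nd311.rad 1 ∧
    |stepR v dc a e 2| ≤ s / 2 * (3 / 12500000) ∧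
    |stepR v dc a e 3| ≤ s / 2 * (3 / 25000000) := by
  obtain ⟨r0, r1, r2, r3, t0, t1⟩ := rad_right
  have a0 := abs_le.1 ((hv 0).trans (mul_le_mul_of_nonneg_left r0 hs))
  have a1 := abs_le.1 ((hv 1).trans (mul_le_mul_of_nonneg_left r1 hs))
  have a2 := abs_le.1 ((hv 2).trans (mul_le_mul_of_nonneg_left r2 hs))
  have a3 := abs_le.1 ((hv 3).trans (mul_le_mul_of_nonneg_left r3 hs))
  have T0 : s / 2 * (7 / 200000000) ≤ s / 2 * nd311.rad 0 :=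
    mul_le_mul_of_nonneg_left t0 (by linarith)
  have T1 : s / 2 * (13 / 10000000000) ≤ s / 2 * nd311.rad 1 :=
    mul_le_mul_of_nonneg_left t1 (by linarith)
  obtain ⟨p0l, p0u⟩ := abs_le.1 h0
  obtain ⟨p1l, p1u⟩ := abs_le.1 h1
  obtain ⟨e0l, e0u⟩ := abs_le.1 he0
  obtain ⟨e1l, e1u⟩ := abs_le.1 he1
  obtain ⟨e2l, e2u⟩ := abs_le.1 he2
  refine ⟨le_trans ?_ T0, le_trans ?_ T1, ?_, ?_⟩ <;>
    simp [stepR, linR, newtR, Fin.sum_univ_four, Node.val, Node.sol, nd311, slopeT, slope1,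
      slope2, kap, kNum, he3] <;>
    norm_num <;> rw [abs_le] <;> constructor <;> linarith [a0.1, a0.2, a1.1, a1.2, a2.1, a2.2,
      a3.1, a3.2]

theorem newtL_inj {z : Fin 4 → ℝ} (h : ∀ i, ∑ k, newtL i k * z k = 0) : ∀ k, z k = 0 := by
  have h0 := h 0
  have h1 := h 1
  have h2 := h 2
  have h3 := h 3
  simp [newtL, Fin.sum_univ_four] at h0 h1 h2 h3
  intro k
  fin_cases k <;> simp <;> linarith

theorem newtR_inj {z : Fin 4 → ℝ} (h : ∀ i, ∑ k, newtR i k * z k = 0) : ∀ k, z k = 0 := by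
  have h0 := h 0
  have h1 := h 1
  have h2 := h 2
  have h3 := h 3
  simp [newtR, Fin.sum_univ_four] at h0 h1 h2 h3
  intro k
  fin_cases k <;> simp <;> linarith

end Vale.Agent.P264.Soliton.Inner
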