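import Mathlib
import Vale.Agent.P264.Soliton.Inner.MatchRem
import Vale.Agent.P264.Soliton.Inner.MatchRows

/-! The boundary map of the matching: it contracts, and its fixed points solve the six equations. -/

namespace Vale.Agent.P264.Soliton.Inner

open Set

/-- Remainder of the conditions at `3/2`. -/
noncomputable def errL (L : LeftMap) (α : Fin 4 → ℝ) : Fin 4 → ℝ :=
  ![remL L 0 (α 0, α 1), remL L 1 (α 0, α 1), remL L 2 (α 0, α 1), remC (α 0, α 1)]

/-- Remainder of the conditions at `64`. -/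
noncomputable def errR (T : TailMap) (α : Fin 4 → ℝ) : Fin 4 → ℝ :=
  ![nd311.val 0 0 + slopeT 0 * α 2 - tailRow 0 (ctil + α 2),
    nd311.val 0 1 + slopeT 1 * α 2 - tailRow 1 (ctil + α 2) - T.e1 (ctil + α 2) (α 3),
    nd311.val 0 2 + slopeT 2 * α 2 - tailRow 2 (ctil + α 2) - T.e2 (ctil + α 2) (α 3),
    0]

/-- The boundary map. -/
noncomputable def bd (L : LeftMap) (T : TailMap) (u v α : Fin 4 → ℝ) :
    (Fin 4 → ℝ) × (Fin 4 → ℝ) :=
  (![stepR v (α 2) (α 3) (errR T α) 0, stepR v (α 2) (α 3) (errR T α) 1,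
     stepL u (α 0) (α 1) (errL L α) 0, stepL u (α 0) (α 1) (errL L α) 1],
   ![stepL u (α 0) (α 1) (errL L α) 2, stepL u (α 0) (α 1) (errL L α) 3,
     stepR v (α 2) (α 3) (errR T α) 2, stepR v (α 2) (α 3) (errR T α) 3])

theorem par_bounds {α : Fin 4 → ℝ} (hα : ∀ j, |α j| ≤ parRad j) :
    |α 0| ≤ 17 / 100000000 ∧ |α 1| ≤ 29 / 10000000000 ∧ |α 2| ≤ 3 / 12500000 ∧
      |α 3| ≤ 3 / 25000000 := by
  have h0 := hα 0
  have h1 := hα 1
  have h2 := hα 2
  have h3 := hα 3
  simp [parRad] at h0 h1 h2 h3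
  exact ⟨h0, h1, h2, h3⟩

theorem cSet_mem {d : ℝ} (hd : |d| ≤ 3 / 12500000) : ctil + d ∈ cSet := by
  obtain ⟨l, u⟩ := abs_le.1 hd
  constructor <;> norm_num [ctil, cNum] <;> linarith

theorem aSet_mem {a : ℝ} (ha : |a| ≤ 3 / 25000000) : a ∈ aSet := by
  obtain ⟨l, u⟩ := abs_le.1 ha
  constructor <;> linarith

theorem errL_size (L : LeftMap) {α : Fin 4 → ℝ} (hα : ∀ j, |α j| ≤ parRad j) :
    (∀ k : Fin 4, k ≠ 3 → |errL L α k| ≤ 103 / 1000000000000) ∧
      |errL L α 3| ≤ 9 / 1000000000000 := by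
  obtain ⟨h0, h1, -, -⟩ := par_bounds hα
  refine ⟨fun k hk => ?_, remC_size (p := (α 0, α 1)) h1⟩
  fin_cases k
  · exact remL_size L (p := (α 0, α 1)) h0 h1 0
  · exact remL_size L (p := (α 0, α 1)) h0 h1 1
  · exact remL_size L (p := (α 0, α 1)) h0 h1 2
  · exact absurd rfl hk

theorem errL_lip (L : LeftMap) {α β : Fin 4 → ℝ} {d : ℝ} (hα : ∀ j, |α j| ≤ parRad j)
    (hβ : ∀ j, |β j| ≤ parRad j) (h : ∀ j, |α j - β j| ≤ d * parRad j) :
    (∀ k : Fin 4, k ≠ 3 → |errL L α k - errL L β k| ≤ d * (103 / 1000000000000)) ∧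
      |errL L α 3 - errL L β 3| ≤ d * (9 / 1000000000000) := by
  obtain ⟨a0, a1, -, -⟩ := par_bounds hα
  obtain ⟨b0, b1, -, -⟩ := par_bounds hβ
  have d0 := h 0
  have d1 := h 1
  simp [parRad] at d0 d1
  have hl : ∀ k, |remL L k (α 0, α 1) - remL L k (β 0, β 1)| ≤ d * (103 / 1000000000000) :=
    fun k => (remL_lip L (pSet_mem (p := (α 0, α 1)) a0 a1) (pSet_mem (p := (β 0, β 1)) b0 b1) k).trans
      (by
        show 1 / 100000 * (|α 0 - β 0| + |α 1 - β 1|) ≤ _
        linarith [abs_nonneg (α 0 - β 0)])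
  refine ⟨fun k hk => ?_, (remC_lip (p := (α 0, α 1)) (p' := (β 0, β 1)) a1 b1).trans ?_⟩
  · fin_cases k
    · exact hl 0
    · exact hl 1
    · exact hl 2
    · exact absurd rfl hk
  · show 1 / 1000 * |α 1 - β 1| ≤ _
    linarith [abs_nonneg (α 1 - β 1)]

theorem errR_size (T : TailMap) {α : Fin 4 → ℝ} (hα : ∀ j, |α j| ≤ parRad j) :
    |errR T α 0| ≤ 11 / 10000000000 ∧ |errR T α 1| ≤ 64 / 10000000000 ∧
      |errR T α 2| ≤ 58 / 10000000000 := by
  obtain ⟨-, -, h2, h3⟩ := par_bounds hα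
  obtain ⟨c0, c1, c2⟩ := tailRow_centre
  have hd := fun k => tailRow_dev (c := ctil + α 2) (c' := ctil) (by simpa using h2)
    (by norm_num) k
  simp only [add_sub_cancel_left] at hd
  have hc := cSet_mem h2
  have z0 : (0 : ℝ) ∈ aSet := aSet_mem (by norm_num)
  have s1 := T.e1_size _ hc
  have s2 := T.e2_size _ hc
  have l1 := T.e1_lip _ hc _ hc _ (aSet_mem h3) _ z0
  have l2 := T.e2_lip _ hc _ hc _ (aSet_mem h3) _ z0
  simp only [sub_self, sub_zero, abs_zero, mul_zero, add_zero] at l1 l2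
  obtain ⟨d0l, d0u⟩ := abs_le.1 (hd 0)
  obtain ⟨d1l, d1u⟩ := abs_le.1 (hd 1)
  obtain ⟨d2l, d2u⟩ := abs_le.1 (hd 2)
  rw [abs_le] at c0 c1 c2 s1 s2 l1 l2
  refine ⟨?_, ?_, ?_⟩ <;>
    simp only [errR, Matrix.cons_val_zero, Matrix.cons_val_one, Matrix.cons_val, abs_le] <;>
    constructor <;> linarith [abs_nonneg (α 2), abs_nonneg (α 3)]

theorem errR_lip (T : TailMap) {α β : Fin 4 → ℝ} {d : ℝ} (hd0 : 0 ≤ d)
    (hα : ∀ j, |α j| ≤ parRad j) (hβ : ∀ j, |β j| ≤ parRad j)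
    (h : ∀ j, |α j - β j| ≤ d * parRad j) :
    |errR T α 0 - errR T β 0| ≤ d * (11 / 10000000000) ∧
    |errR T α 1 - errR T β 1| ≤ d * (64 / 10000000000) ∧
    |errR T α 2 - errR T β 2| ≤ d * (58 / 10000000000) := by
  obtain ⟨-, -, a2, a3⟩ := par_bounds hα
  obtain ⟨-, -, b2, b3⟩ := par_bounds hβ
  have hd := fun k => tailRow_dev (c := ctil + α 2) (c' := ctil + β 2) (by simpa using a2)
    (by simpa using b2) k
  simp only [add_sub_add_left_eq_sub] at hd
  have l1 := T.e1_lip _ (cSet_mem a2) _ (cSet_mem b2) _ (aSet_mem a3) _ (aSet_mem b3)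
  have l2 := T.e2_lip _ (cSet_mem a2) _ (cSet_mem b2) _ (aSet_mem a3) _ (aSet_mem b3)
  simp only [add_sub_add_left_eq_sub] at l1 l2
  have e2 := h 2
  have e3 := h 3
  simp [parRad] at e2 e3
  obtain ⟨d0l, d0u⟩ := abs_le.1 (hd 0)
  obtain ⟨d1l, d1u⟩ := abs_le.1 (hd 1)
  obtain ⟨d2l, d2u⟩ := abs_le.1 (hd 2)
  obtain ⟨l1l, l1u⟩ := abs_le.1 l1
  obtain ⟨l2l, l2u⟩ := abs_le.1 l2
  refine ⟨?_, ?_, ?_⟩ <;>
    simp only [errR, Matrix.cons_val_zero, Matrix.cons_val_one, Matrix.cons_val, abs_le] <;>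
    constructor <;> linarith [abs_nonneg (α 2 - β 2), abs_nonneg (α 3 - β 3)]

theorem bd_ok (L : LeftMap) (T : TailMap) : BdOk parRad (bd L T) := by
  refine ⟨fun j => by fin_cases j <;> norm_num [parRad], ?_, ?_⟩
  · intro u v α hu hv hα j
    obtain ⟨h0, h1, h2, h3⟩ := par_bounds hα
    obtain ⟨eL, eL3⟩ := errL_size L hα
    obtain ⟨eR0, eR1, eR2⟩ := errR_size T hα
    obtain ⟨l0, l1, l2, l3⟩ := stepL_bound (e := errL L α) zero_le_one
      (fun j => by simpa using hu j) (by simpa using h0) (by simpa using h1)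
      (by simpa using eL 0 (by decide)) (by simpa using eL 1 (by decide))
      (by simpa using eL 2 (by decide)) (by simpa using eL3)
    obtain ⟨r0, r1, r2, r3⟩ := stepR_bound (e := errR T α) zero_le_one
      (fun j => by simpa using hv j) (by simpa using h2) (by simpa using h3)
      (by simpa using eR0) (by simpa using eR1) (by simpa using eR2) rfl
    have n0 := fun i => (abs_nonneg _).trans (hu i)
    have n1 := fun i => (abs_nonneg _).trans (hv i)
    fin_cases j <;> simp [bd, endRad, parRad] <;>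
      constructor <;> linarith [n0 2, n0 3, n1 0, n1 1]
  · intro u v α u' v' α' d hd hu hv hα hu' hv' hα' du dv dα j
    have e0 := dα 0
    have e1 := dα 1
    have e2 := dα 2
    have e3 := dα 3
    simp [parRad] at e0 e1 e2 e3
    obtain ⟨eL, eL3⟩ := errL_lip L hα hα' dα
    obtain ⟨eR0, eR1, eR2⟩ := errR_lip T hd hα hα' dα
    obtain ⟨l0, l1, l2, l3⟩ := stepL_bound (u := fun i => u i - u' i)
      (e := fun k => errL L α k - errL L α' k) hd du e0 e1 (eL 0 (by decide)) (eL 1 (by decide))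
      (eL 2 (by decide)) eL3
    obtain ⟨r0, r1, r2, r3⟩ := stepR_bound (v := fun i => v i - v' i)
      (e := fun k => errR T α k - errR T α' k) hd dv e2 e3 eR0 eR1 eR2 (by simp [errR])
    simp only [← stepL_sub] at l0 l1 l2 l3
    simp only [← stepR_sub] at r0 r1 r2 r3
    fin_cases j <;> simp [bd, endRad, parRad] <;> constructor <;> assumption

/-- A fixed point solves all equations. -/
theorem bd_zero (L : LeftMap) (T : TailMap) {u v α : Fin 4 → ℝ}
    (hu : ∀ j : Fin 4, 2 ≤ j.val → u j = (bd L T u v α).1 j)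
    (hv : ∀ j : Fin 4, j.val < 2 → v j = (bd L T u v α).1 j) (hα : α = (bd L T u v α).2) :
    (∀ k : Fin 3, endData nd0 u k = L.data (α 0, α 1) k) ∧
    ctil + ∑ i, kap i * u i = cOf (α 0, α 1) ∧
    endData nd311 v 0 = tailRow 0 (ctil + α 2) + α 3 ∧
    endData nd311 v 1 = tailRow 1 (ctil + α 2) - slope1 * α 3 + T.e1 (ctil + α 2) (α 3) ∧
    endData nd311 v 2 = tailRow 2 (ctil + α 2) + slope2 * α 3 + T.e2 (ctil + α 2) (α 3) ∧
    ∑ i, kap i * v i = α 2 := by
  have u2 : u 2 = stepL u (α 0) (α 1) (errL L α) 0 := hu 2 (by decide)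
  have u3 : u 3 = stepL u (α 0) (α 1) (errL L α) 1 := hu 3 (by decide)
  have v0 : v 0 = stepR v (α 2) (α 3) (errR T α) 0 := hv 0 (by decide)
  have v1 : v 1 = stepR v (α 2) (α 3) (errR T α) 1 := hv 1 (by decide)
  have a0 : α 0 = stepL u (α 0) (α 1) (errL L α) 2 := congrFun hα 0
  have a1 : α 1 = stepL u (α 0) (α 1) (errL L α) 3 := congrFun hα 1
  have a2 : α 2 = stepR v (α 2) (α 3) (errR T α) 2 := congrFun hα 2
  have a3 : α 3 = stepR v (α 2) (α 3) (errR T α) 3 := congrFun hα 3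
  have zL := newtL_inj (z := fun k => linL u (α 0) (α 1) k + errL L α k) fun i => by
    fin_cases i
    · have := u2; simp [stepL] at this ⊢; linarith
    · have := u3; simp [stepL] at this ⊢; linarith
    · have := a0; simp [stepL] at this ⊢; linarith
    · have := a1; simp [stepL] at this ⊢; linarith
  have zR := newtR_inj (z := fun k => linR v (α 2) (α 3) k + errR T α k) fun i => by
    fin_cases i
    · have := v0; simp [stepR] at this ⊢; linarith
    · have := v1; simp [stepR] at this ⊢; linarith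
    · have := a2; simp [stepR] at this ⊢; linarith
    · have := a3; simp [stepR] at this ⊢; linarith
  have L0 := zL 0
  have L1 := zL 1
  have L2 := zL 2
  have L3 := zL 3
  have R0 := zR 0
  have R1 := zR 1
  have R2 := zR 2
  have R3 := zR 3
  simp only [linL, errL, linR, errR, remL, remC, Matrix.cons_val_zero, Matrix.cons_val_one,
    Matrix.cons_val] at L0 L1 L2 L3 R0 R1 R2 R3
  refine ⟨fun k => ?_, by linarith, ?_, ?_, ?_, by linarith⟩
  · fin_cases k <;> simp [endData] at L0 L1 L2 ⊢ <;> linarith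
  all_goals simp only [endData]; linarith

end Vale.Agent.P264.Soliton.Inner
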