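import Mathlib
import Vale.Agent.P264.Soliton.Inner.MatchMap
import Vale.Agent.P264.Soliton.Tail.Boot

/-! The connection on `[0, 64]` from the series at the origin and the middle part. -/

namespace Vale.Agent.P264.Soliton.Inner

open Set Filter
open scoped Topology ContDiff
open Soliton.Tail

/-- `f` up to `3/2`, `g` beyond. -/
noncomputable def join (f g : ℝ → ℝ) (y : ℝ) : ℝ := if y ≤ 3 / 2 then f y else g y

theorem join_left {f g : ℝ → ℝ} {y : ℝ} (hy : y ≤ 3 / 2) : join f g y = f y := if_pos hy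

theorem join_right {f g : ℝ → ℝ} (h : f (3 / 2) = g (3 / 2)) {y : ℝ} (hy : 3 / 2 ≤ y) :
    join f g y = g y := by
  rcases hy.eq_or_lt with rfl | hy'
  · rw [join_left le_rfl, h]
  · exact if_neg hy'.not_ge

theorem join_deriv {fl fr gl gr : ℝ → ℝ}
    (hl : ∀ y ∈ Ioo (0 : ℝ) 2, HasDerivAt fl (gl y) y)
    (hr : ∀ y ∈ Icc (3 / 2 : ℝ) 64, HasDerivWithinAt fr (gr y) (Icc (3 / 2) 64) y)
    (hf : fl (3 / 2) = fr (3 / 2)) (hg : gl (3 / 2) = gr (3 / 2)) {y : ℝ}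
    (hy : y ∈ Ioc (0 : ℝ) 64) :
    HasDerivWithinAt (join fl fr) (join gl gr y) (Ioc 0 64) y := by
  rcases lt_trichotomy y (3 / 2) with h | rfl | h
  · rw [join_left h.le]
    exact ((hl y ⟨hy.1, by linarith⟩).congr_of_eventuallyEq
      (eventually_of_mem (Iio_mem_nhds h) fun t ht => join_left (le_of_lt ht))).hasDerivWithinAt
  · have a : HasDerivWithinAt (join fl fr) (gl (3 / 2)) (Iic (3 / 2)) (3 / 2) :=
      (hl (3 / 2) ⟨hy.1, by norm_num⟩).hasDerivWithinAt.congr (fun t ht => join_left ht)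
        (join_left le_rfl)
    have b : HasDerivWithinAt (join fl fr) (gr (3 / 2)) (Icc (3 / 2) 64) (3 / 2) :=
      (hr (3 / 2) ⟨le_rfl, hy.2⟩).congr (fun t ht => join_right hf ht.1) (join_right hf le_rfl)
    rw [← hg] at b
    rw [join_left le_rfl]
    refine (a.union b).mono fun t ht => ?_
    rcases le_total t (3 / 2) with h' | h'
    · exact Or.inl h'
    · exact Or.inr ⟨h', ht.2⟩
  · rw [join_right hg h.le]
    refine (((hr y ⟨h.le, hy.2⟩).congr (fun t ht => join_right hf ht.1)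
      (join_right hf h.le))).mono_of_mem_nhdsWithin ?_
    rw [mem_nhdsWithin]
    exact ⟨Ioi (3 / 2), isOpen_Ioi, h, fun t ht => ⟨le_of_lt ht.1, ht.2.2⟩⟩

theorem third_of_eq {c y z z1 z2 z3 : ℝ} (hy : y ≠ 0)
    (h : y * z3 + 17 * z2 + 56 * z1 / y + 56 * (1 - z) / y ^ 2 + (1 / (2 * c) - 1 / (2 * z)) = 0) :
    z3 = third c y z z1 z2 := by
  rw [third, eq_div_iff hy]
  linarith

theorem inner_of_middle (hM : MiddleTarget) (hL : LeftTarget) : InnerTarget := by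
  intro T
  obtain ⟨L⟩ := hL
  obtain ⟨u, v, α, c, qm, qm1, qm2, qm3, hu, hv, hα, hfu, hfv, hfα, hcu, hcv, -, m0, m1, m2,
    n0, n1, n2, hpos, d0, d1, d2, heq, y₀, hy₀, hneck⟩ := hM parRad (bd L T) (bd_ok L T)
  obtain ⟨hdat, hcL, hR0, hR1, hR2, hR3⟩ := bd_zero L T hfu hfv hfα
  obtain ⟨ha0, ha1, ha2, ha3⟩ := par_bounds hα
  set p : ℝ × ℝ := (α 0, α 1)
  have hp : p ∈ pSet := pSet_mem (p := (α 0, α 1)) ha0 ha1
  have hcp : cOf p = c := by rw [← hcL, hcu]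
  have hcd : ctil + α 2 = c := by rw [hcv, hR3]
  have hcm : c ∈ cSet := hcd ▸ cSet_mem ha2
  rw [hcd] at hR0 hR1 hR2
  set g₀ := L.g p
  set U : Set ℝ := Ioo (-2) 2
  set ql : ℝ → ℝ := fun z => 1 - z * g₀ z with hql
  have hs0 : ContDiffOn ℝ ∞ ql U := contDiffOn_const.sub (contDiffOn_id.mul (L.smooth p hp))
  have hs1 : ContDiffOn ℝ ∞ (deriv ql) U := hs0.deriv_of_isOpen isOpen_Ioo (by simp)
  have hs2 : ContDiffOn ℝ ∞ (deriv (deriv ql)) U := hs1.deriv_of_isOpen isOpen_Ioo (by simp)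
  have hd : ∀ {f : ℝ → ℝ}, ContDiffOn ℝ ∞ f U → ∀ y ∈ Ioo (0 : ℝ) 2,
      HasDerivAt f (deriv f y) y := fun hf y hy =>
    ((hf.differentiableOn (by simp)).differentiableAt
      (Ioo_mem_nhds (by linarith [hy.1]) hy.2)).hasDerivAt
  have hl3 : ∀ y ∈ Ioo (0 : ℝ) 2,
      deriv (deriv (deriv ql)) y = third c y (ql y) (deriv ql y) (deriv (deriv ql) y) :=
    fun y hy => third_of_eq hy.1.ne' (hcp ▸ L.eqn p hp y hy)
  have hm3 : ∀ y ∈ Icc (3 / 2 : ℝ) 64, qm3 y = third c y (qm y) (qm1 y) (qm2 y) :=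
    fun y hy => third_of_eq (by linarith [hy.1]) (heq y hy)
  have e0 : ql (3 / 2) = qm (3 / 2) := by
    rw [m0]
    exact ((hdat 0).trans (L.data0 p hp)).symm
  have e1 : deriv ql (3 / 2) = qm1 (3 / 2) := by
    rw [m1]
    exact ((hdat 1).trans (L.data1 p hp)).symm
  have e2 : deriv (deriv ql) (3 / 2) = qm2 (3 / 2) := by
    rw [m2]
    exact ((hdat 2).trans (L.data2 p hp)).symm
  have e3 : deriv (deriv (deriv ql)) (3 / 2) = qm3 (3 / 2) := by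
    rw [hl3 _ ⟨by norm_num, by norm_num⟩, hm3 _ ⟨le_rfl, by norm_num⟩, e0, e1, e2]
  set Q := join ql qm with hQ
  set Q1 := join (deriv ql) qm1 with hQ1
  set Q2 := join (deriv (deriv ql)) qm2 with hQ2
  set J : Set ℝ := Ioc 0 64
  have hQd : ∀ y ∈ J, HasDerivWithinAt Q (Q1 y) J y := fun y hy =>
    join_deriv (hd hs0) d0 e0 e1 hy
  have hQ1d : ∀ y ∈ J, HasDerivWithinAt Q1 (Q2 y) J y := fun y hy =>
    join_deriv (hd hs1) d1 e1 e2 hy
  have hQ2d : ∀ y ∈ J, HasDerivWithinAt Q2 (third c y (Q y) (Q1 y) (Q2 y)) J y := by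
    intro y hy
    refine (join_deriv (hd hs2) d2 e2 e3 hy).congr_deriv ?_
    rcases le_or_gt y (3 / 2) with h | h
    · simp only [hQ, hQ1, hQ2, join_left h]
      exact hl3 y ⟨hy.1, by linarith⟩
    · simp only [hQ, hQ1, hQ2, join, if_neg h.not_ge]
      exact hm3 y ⟨h.le, hy.2⟩
  have hQpos : ∀ y ∈ J, 0 < Q y := by
    intro y hy
    rcases le_or_gt y (3 / 2) with h | h
    · rw [hQ, join_left h]; exact L.pos p hp y ⟨hy.1.le, h⟩
    · rw [hQ, join_right e0 h.le]; exact hpos y ⟨h.le, hy.2⟩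
  have hQs : ContDiffOn ℝ ∞ Q J :=
    contDiffOn_of_third (c := c) (q1 := Q1) (q2 := Q2) (uniqueDiffOn_Ioc 0 64)
      (fun y hy => hy.1) hQpos hQd hQ1d hQ2d
  set g : ℝ → ℝ := fun y => if y ≤ 3 / 2 then g₀ y else (1 - qm y) / y with hgdef
  set q : ℝ → ℝ := fun y => 1 - y * g y with hqdef
  have hqQ : ∀ y ∈ J, q y = Q y := by
    intro y hy
    by_cases h : y ≤ 3 / 2
    · simp only [hqdef, hgdef, hQ, join, hql, if_pos h]
    · have := hy.1.ne'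
      simp only [hqdef, hgdef, hQ, join, if_neg h]
      field_simp
      ring
  have hgQ : ∀ y ∈ J, g y = (1 - Q y) / y := fun y hy => by
    rw [← hqQ y hy]
    simp only [hqdef]
    rw [sub_sub_cancel, mul_div_cancel_left₀ _ hy.1.ne']
  have hgs : ContDiffOn ℝ ∞ g (Icc 0 64) := by
    intro y hy
    rcases hy.1.eq_or_lt with rfl | hy0
    · refine (((L.smooth p hp).contDiffAt (Ioo_mem_nhds (by norm_num) (by norm_num))).congr_of_eventuallyEq
        (eventually_of_mem (Iio_mem_nhds (by norm_num : (0 : ℝ) < 3 / 2)) fun t ht => ?_)).contDiffWithinAt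
      exact if_pos (le_of_lt ht)
    · refine ((((contDiffOn_const.sub hQs).div contDiffOn_id fun t ht => ht.1.ne').congr hgQ)
        y ⟨hy0, hy.2⟩).mono_of_mem_nhdsWithin ?_
      rw [mem_nhdsWithin]
      exact ⟨Ioi 0, isOpen_Ioi, hy0, fun t ht => ⟨ht.1, ht.2.2⟩⟩
  have hqpos : ∀ y ∈ Icc (0 : ℝ) 64, 0 < q y := by
    intro y hy
    rcases hy.1.eq_or_lt with rfl | hy0
    · simp [hqdef]
    · rw [hqQ y ⟨hy0, hy.2⟩]; exact hQpos y ⟨hy0, hy.2⟩
  have hQ64 : Q 64 = qm 64 ∧ Q1 64 = qm1 64 ∧ Q2 64 = qm2 64 :=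
    ⟨join_right e0 (by norm_num), join_right e1 (by norm_num), join_right e2 (by norm_num)⟩
  have hI : ∀ y ∈ J, J ∈ 𝓝[Icc (0 : ℝ) 64] y := fun y hy => by
    rw [mem_nhdsWithin]
    exact ⟨Ioi 0, isOpen_Ioi, hy.1, fun t ht => ⟨ht.1, ht.2.2⟩⟩
  have hu64 := uniqueDiffOn_Icc (show (0 : ℝ) < 64 by norm_num)
  have w1 : ∀ y ∈ J, derivWithin q (Icc 0 64) y = Q1 y := fun y hy =>
    (((hQd y hy).congr hqQ (hqQ y hy)).mono_of_mem_nhdsWithin (hI y hy)).derivWithin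
      (hu64 y ⟨hy.1.le, hy.2⟩)
  have h64 : (64 : ℝ) ∈ J := ⟨by norm_num, le_rfl⟩
  have w2 : derivWithin (derivWithin q (Icc 0 64)) (Icc 0 64) 64 = Q2 64 :=
    (((hQ1d 64 h64).congr w1 (w1 64 h64)).mono_of_mem_nhdsWithin (hI 64 h64)).derivWithin
      (hu64 64 ⟨by norm_num, le_rfl⟩)
  have ham : α 3 ∈ aSet := aSet_mem ha3
  refine ⟨c, hcm, α 3, ham, g, q, hgs, fun y _ => rfl, hqpos,
    ⟨y₀, by linarith [hy₀.1], hy₀.2, ?_⟩, ?_, ?_, ?_, ?_⟩
  · rw [hqQ y₀ ⟨by linarith [hy₀.1], hy₀.2⟩, hQ, join_right e0 hy₀.1]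
    exact hneck
  · intro y hy
    have m : Ioo (0 : ℝ) 64 ∈ 𝓝 y := Ioo_mem_nhds hy.1 hy.2
    have hJ : ∀ t ∈ Ioo (0 : ℝ) 64, J ∈ 𝓝 t := fun t ht =>
      mem_of_superset (Ioo_mem_nhds ht.1 ht.2) Ioo_subset_Ioc_self
    have f0 : q =ᶠ[𝓝 y] Q := eventually_of_mem m fun t ht => hqQ t (Ioo_subset_Ioc_self ht)
    have f1 : deriv q =ᶠ[𝓝 y] Q1 := f0.deriv.trans (eventually_of_mem m fun t ht =>
      ((hQd t (Ioo_subset_Ioc_self ht)).hasDerivAt (hJ t ht)).deriv)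
    have f2 : deriv (deriv q) =ᶠ[𝓝 y] Q2 := f1.deriv.trans (eventually_of_mem m fun t ht =>
      ((hQ1d t (Ioo_subset_Ioc_self ht)).hasDerivAt (hJ t ht)).deriv)
    have f3 : deriv (deriv (deriv q)) y = third c y (Q y) (Q1 y) (Q2 y) :=
      f2.deriv_eq.trans ((hQ2d y (Ioo_subset_Ioc_self hy)).hasDerivAt (hJ y hy)).deriv
    rw [ode, f3, f2.eq_of_nhds, f1.eq_of_nhds, f0.eq_of_nhds, third]
    have := hy.1.ne'
    rw [mul_div_cancel₀ _ this]
    ring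
  · rw [hqQ 64 h64, hQ64.1, n0, hR0, T.value c hcm (α 3) ham]
    simp [tailRow]
  · rw [w1 64 h64, hQ64.2.1, n1, hR1, T.deriv_one c hcm (α 3) ham]
    simp [tailRow]
  · rw [w2, hQ64.2.2, n2, hR2, T.deriv_two c hcm (α 3) ham]
    simp [tailRow]

end Vale.Agent.P264.Soliton.Inner
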