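import Mathlib

/-!
Existence of a solution of `a' = G(y, a)` on consecutive pieces with split boundary conditions:
the first two components are integrated from the right end, the last two from the left end.
The radii are monotone piecewise constants; the iteration contracts by one half.
-/

namespace Vale.Agent.P264.Soliton.Inner

open Set MeasureTheory intervalIntegral Filter Topology

/-- Data of the piecewise contraction. -/
structure Split where
  n : ℕ
  t : ℕ → ℝ
  P : ℕ → Fin 4 → ℝ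
  A : Fin 4 → ℝ
  g : ℕ → Fin 4 → ℝ
  G : ℝ → (Fin 4 → ℝ) → Fin 4 → ℝ
  B : (Fin 4 → ℝ) → (Fin 4 → ℝ) → (Fin 4 → ℝ) → (Fin 4 → ℝ) × (Fin 4 → ℝ)

namespace Split

variable (K : Split)

def isL (j : Fin 4) : Prop := j.val < 2

instance (j : Fin 4) : Decidable (isL j) := inferInstanceAs (Decidable (j.val < 2))

/-- Radius on a whole piece. -/
def cap (i : ℕ) (j : Fin 4) : ℝ := if isL j then K.P i j else K.P (i + 1) j

/-- Radius of the prescribed end value. -/
def fixedEnd (j : Fin 4) : ℝ := if isL j then K.P K.n j else K.P 0 j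

/-- `d` times the admissible tube contains `(a, α)`. -/
structure Tube (d : ℝ) (a : ℝ → Fin 4 → ℝ) (α : Fin 4 → ℝ) : Prop where
  piece : ∀ i < K.n, ∀ y ∈ Icc (K.t i) (K.t (i + 1)), ∀ j, |a y j| ≤ d * K.cap i j
  first : ∀ j, |a (K.t 0) j| ≤ d * K.P 0 j
  last : ∀ j, |a (K.t K.n) j| ≤ d * K.P K.n j
  par : ∀ j, |α j| ≤ d * K.A j

/-- The assumptions. -/
structure Ok : Prop where
  step : ∀ i < K.n, K.t i ≤ K.t (i + 1)
  gstepL : ∀ i < K.n, ∀ j, isL j → (K.t (i + 1) - K.t i) * K.g i j ≤ K.P i j - K.P (i + 1) j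
  gstepR : ∀ i < K.n, ∀ j, ¬ isL j → (K.t (i + 1) - K.t i) * K.g i j ≤ K.P (i + 1) j - K.P i j
  nonneg : ∀ i ≤ K.n, ∀ j, 0 ≤ K.P i j
  nonnegA : ∀ j, 0 ≤ K.A j
  cont : ∀ a α, ContinuousOn a (Icc (K.t 0) (K.t K.n)) → K.Tube 1 a α →
    ContinuousOn (fun y => K.G y (a y)) (Icc (K.t 0) (K.t K.n))
  size : ∀ i < K.n, ∀ y ∈ Icc (K.t i) (K.t (i + 1)), ∀ x : Fin 4 → ℝ,
    (∀ j, |x j| ≤ K.cap i j) → ∀ j, |K.G y x j| ≤ K.g i j
  lip : ∀ i < K.n, ∀ y ∈ Icc (K.t i) (K.t (i + 1)), ∀ x x' : Fin 4 → ℝ, ∀ d : ℝ, 0 ≤ d →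
    (∀ j, |x j| ≤ K.cap i j) → (∀ j, |x' j| ≤ K.cap i j) →
    (∀ j, |x j - x' j| ≤ d * K.cap i j) → ∀ j, |K.G y x j - K.G y x' j| ≤ d / 2 * K.g i j
  bdSize : ∀ u v α, (∀ j, |u j| ≤ K.P 0 j) → (∀ j, |v j| ≤ K.P K.n j) → (∀ j, |α j| ≤ K.A j) →
    ∀ j, |(K.B u v α).1 j| ≤ K.fixedEnd j ∧ |(K.B u v α).2 j| ≤ K.A j
  bdLip : ∀ u v α u' v' α', ∀ d : ℝ, 0 ≤ d →
    (∀ j, |u j| ≤ K.P 0 j) → (∀ j, |v j| ≤ K.P K.n j) → (∀ j, |α j| ≤ K.A j) →
    (∀ j, |u' j| ≤ K.P 0 j) → (∀ j, |v' j| ≤ K.P K.n j) → (∀ j, |α' j| ≤ K.A j) →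
    (∀ j, |u j - u' j| ≤ d * K.P 0 j) → (∀ j, |v j - v' j| ≤ d * K.P K.n j) →
    (∀ j, |α j - α' j| ≤ d * K.A j) →
    ∀ j, |(K.B u v α).1 j - (K.B u' v' α').1 j| ≤ d / 2 * K.fixedEnd j ∧
      |(K.B u v α).2 j - (K.B u' v' α').2 j| ≤ d / 2 * K.A j

/-- One step of the iteration. -/
noncomputable def T (a : ℝ → Fin 4 → ℝ) (α : Fin 4 → ℝ) (y : ℝ) (j : Fin 4) : ℝ :=
  if isL j then (K.B (a (K.t 0)) (a (K.t K.n)) α).1 j - ∫ z in y..K.t K.n, K.G z (a z) j
  else (K.B (a (K.t 0)) (a (K.t K.n)) α).1 j + ∫ z in K.t 0..y, K.G z (a z) j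

noncomputable def iter : ℕ → (ℝ → Fin 4 → ℝ) × (Fin 4 → ℝ)
  | 0 => (fun _ _ => 0, fun _ => 0)
  | m + 1 => (K.T (iter m).1 (iter m).2,
      (K.B ((iter m).1 (K.t 0)) ((iter m).1 (K.t K.n)) (iter m).2).2)

theorem t_le (h : K.Ok) : ∀ {i k : ℕ}, i ≤ k → k ≤ K.n → K.t i ≤ K.t k := by
  intro i k hik hk
  induction k, hik using Nat.le_induction with
  | base => exact le_rfl
  | succ k hik ih => exact (ih (by omega)).trans (h.step k (by omega))

/-- Sums of piece integrals telescope. -/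
theorem integral_bound (h : K.Ok) (f : ℝ → ℝ) (d : ℝ) (hd : 0 ≤ d) (j : Fin 4)
    (hf : ContinuousOn f (Icc (K.t 0) (K.t K.n)))
    (hb : ∀ i < K.n, ∀ y ∈ Icc (K.t i) (K.t (i + 1)), |f y| ≤ d * K.g i j) :
    (isL j → (∀ i < K.n, ∀ y ∈ Icc (K.t i) (K.t (i + 1)),
        |∫ z in y..K.t K.n, f z| ≤ d * (K.P i j - K.P K.n j)) ∧
      |∫ z in K.t 0..K.t K.n, f z| ≤ d * (K.P 0 j - K.P K.n j)) ∧
    (¬ isL j → (∀ i < K.n, ∀ y ∈ Icc (K.t i) (K.t (i + 1)),
        |∫ z in K.t 0..y, f z| ≤ d * (K.P (i + 1) j - K.P 0 j)) ∧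
      |∫ z in K.t 0..K.t K.n, f z| ≤ d * (K.P K.n j - K.P 0 j)) := by
  have hint : ∀ x y, x ∈ Icc (K.t 0) (K.t K.n) → y ∈ Icc (K.t 0) (K.t K.n) →
      IntervalIntegrable f volume x y := fun x y hx hy =>
    (hf.mono (uIcc_subset_Icc hx hy)).intervalIntegrable
  have mem : ∀ i ≤ K.n, K.t i ∈ Icc (K.t 0) (K.t K.n) := fun i hi =>
    ⟨K.t_le h (Nat.zero_le i) hi, K.t_le h hi le_rfl⟩
  have inner : ∀ i < K.n, ∀ x ∈ Icc (K.t i) (K.t (i + 1)), ∀ y ∈ Icc (K.t i) (K.t (i + 1)),
      x ≤ y → |∫ z in x..y, f z| ≤ d * ((K.t (i + 1) - K.t i) * K.g i j) := by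
    intro i hi x hx y hy hxy
    have h0 : 0 ≤ d * K.g i j := le_trans (abs_nonneg _) (hb i hi x hx)
    have h1 := intervalIntegral.norm_integral_le_of_norm_le_const
      (a := x) (b := y) (f := f) (C := d * K.g i j) (fun z hz => by
        rw [uIoc_of_le hxy] at hz
        rw [Real.norm_eq_abs]
        exact hb i hi z ⟨hx.1.trans hz.1.le, hz.2.trans hy.2⟩)
    rw [Real.norm_eq_abs, abs_of_nonneg (sub_nonneg.mpr hxy)] at h1
    calc |∫ z in x..y, f z| ≤ d * K.g i j * (y - x) := h1
      _ ≤ d * K.g i j * (K.t (i + 1) - K.t i) :=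
        mul_le_mul_of_nonneg_left (by linarith [hx.1, hy.2]) h0
      _ = _ := by ring
  have memy : ∀ i < K.n, ∀ y ∈ Icc (K.t i) (K.t (i + 1)), y ∈ Icc (K.t 0) (K.t K.n) :=
    fun i hi y hy => ⟨(mem i hi.le).1.trans hy.1, hy.2.trans (mem (i + 1) hi).2⟩
  constructor
  · intro hj
    have tail : ∀ k i, i + k = K.n →
        |∫ z in K.t i..K.t K.n, f z| ≤ d * (K.P i j - K.P K.n j) := by
      intro k
      induction k with
      | zero =>
        intro i hik
        have hi : i = K.n := by omega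
        subst hi
        simp
      | succ k ih =>
        intro i hik
        have hi : i < K.n := by omega
        have e := integral_add_adjacent_intervals (hint _ _ (mem i hi.le) (mem (i + 1) hi))
          (hint _ _ (mem (i + 1) hi) (mem K.n le_rfl))
        rw [← e]
        refine (abs_add_le _ _).trans ?_
        have h1 := inner i hi _ (left_mem_Icc.2 (h.step i hi)) _
          (right_mem_Icc.2 (h.step i hi)) (h.step i hi)
        have h2 := ih (i + 1) (by omega)
        have h3 := mul_le_mul_of_nonneg_left (h.gstepL i hi j hj) hd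
        linarith
    refine ⟨fun i hi y hy => ?_, tail K.n 0 (by omega)⟩
    have e := integral_add_adjacent_intervals (hint _ _ (memy i hi y hy) (mem (i + 1) hi))
      (hint _ _ (mem (i + 1) hi) (mem K.n le_rfl))
    rw [← e]
    refine (abs_add_le _ _).trans ?_
    have h1 := inner i hi y hy _ (right_mem_Icc.2 (h.step i hi)) hy.2
    have h2 := tail (K.n - (i + 1)) (i + 1) (by omega)
    have h3 := mul_le_mul_of_nonneg_left (h.gstepL i hi j hj) hd
    linarith
  · intro hj
    have head : ∀ i, i ≤ K.n → |∫ z in K.t 0..K.t i, f z| ≤ d * (K.P i j - K.P 0 j) := by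
      intro i
      induction i with
      | zero => intro _; simp
      | succ i ih =>
        intro hi
        have e := integral_add_adjacent_intervals (hint _ _ (mem 0 (by omega)) (mem i (by omega)))
          (hint _ _ (mem i (by omega)) (mem (i + 1) hi))
        rw [← e]
        refine (abs_add_le _ _).trans ?_
        have h1 := inner i hi _ (left_mem_Icc.2 (h.step i hi)) _
          (right_mem_Icc.2 (h.step i hi)) (h.step i hi)
        have h2 := ih (by omega)
        have h3 := mul_le_mul_of_nonneg_left (h.gstepR i hi j hj) hd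
        linarith
    refine ⟨fun i hi y hy => ?_, head K.n le_rfl⟩
    have e := integral_add_adjacent_intervals (hint _ _ (mem 0 (by omega)) (mem i hi.le))
      (hint _ _ (mem i hi.le) (memy i hi y hy))
    rw [← e]
    refine (abs_add_le _ _).trans ?_
    have h1 := inner i hi _ (left_mem_Icc.2 (h.step i hi)) y hy hy.1
    have h2 := head i hi.le
    have h3 := mul_le_mul_of_nonneg_left (h.gstepR i hi j hj) hd
    linarith

theorem cap_nonneg (h : K.Ok) {i : ℕ} (hi : i < K.n) (j : Fin 4) : 0 ≤ K.cap i j := by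
  unfold cap; split_ifs
  · exact h.nonneg i hi.le j
  · exact h.nonneg (i + 1) hi j

theorem piece_mem (h : K.Ok) {i : ℕ} (hi : i < K.n) {y : ℝ}
    (hy : y ∈ Icc (K.t i) (K.t (i + 1))) : y ∈ Icc (K.t 0) (K.t K.n) :=
  ⟨(K.t_le h (Nat.zero_le i) hi.le).trans hy.1, hy.2.trans (K.t_le h hi le_rfl)⟩

theorem exists_piece (hn : 0 < K.n) : ∀ y ∈ Icc (K.t 0) (K.t K.n),
    ∃ i < K.n, y ∈ Icc (K.t i) (K.t (i + 1)) := by
  intro y hy
  classical
  have hex : ∃ i, y ≤ K.t (i + 1) ∧ i < K.n := ⟨K.n - 1, by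
    rw [Nat.sub_add_cancel hn]; exact hy.2, by omega⟩
  refine ⟨Nat.find hex, (Nat.find_spec hex).2, ?_, (Nat.find_spec hex).1⟩
  by_cases h0 : Nat.find hex = 0
  · rw [h0]; exact hy.1
  · by_contra hlt
    have := Nat.find_min hex (m := Nat.find hex - 1) (by omega)
    exact this ⟨by rw [Nat.sub_add_cancel (by omega)]; linarith, by
      have := (Nat.find_spec hex).2; omega⟩

theorem continuousOn_T (h : K.Ok) {a : ℝ → Fin 4 → ℝ} {α : Fin 4 → ℝ}
    (ha : ContinuousOn a (Icc (K.t 0) (K.t K.n))) (ht : K.Tube 1 a α) :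
    ContinuousOn (K.T a α) (Icc (K.t 0) (K.t K.n)) := by
  rw [continuousOn_pi]
  intro j
  have hle := K.t_le h (Nat.zero_le K.n) le_rfl
  have hf : ContinuousOn (fun z => K.G z (a z) j) (Icc (K.t 0) (K.t K.n)) :=
    (continuous_apply j).comp_continuousOn (h.cont a α ha ht)
  have hI : IntegrableOn (fun z => K.G z (a z) j) (uIcc (K.t 0) (K.t K.n)) volume := by
    rw [uIcc_of_le hle]; exact hf.integrableOn_Icc
  unfold T
  by_cases hj : isL j
  · simp only [if_pos hj]
    refine continuousOn_const.sub ?_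
    have hI' : IntegrableOn (fun z => K.G z (a z) j) (uIcc (K.t K.n) (K.t 0)) volume := by
      rwa [uIcc_comm]
    have := continuousOn_primitive_interval_left (μ := volume) hI
    rwa [uIcc_of_le hle] at this
  · simp only [if_neg hj]
    refine continuousOn_const.add ?_
    have := continuousOn_primitive_interval (μ := volume) hI
    rwa [uIcc_of_le hle] at this

theorem tube_T (h : K.Ok) {a : ℝ → Fin 4 → ℝ} {α : Fin 4 → ℝ}
    (ha : ContinuousOn a (Icc (K.t 0) (K.t K.n))) (ht : K.Tube 1 a α) :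
    K.Tube 1 (K.T a α) (K.B (a (K.t 0)) (a (K.t K.n)) α).2 := by
  have hB := h.bdSize (a (K.t 0)) (a (K.t K.n)) α (fun j => by simpa using ht.first j)
    (fun j => by simpa using ht.last j) (fun j => by simpa using ht.par j)
  have hI := fun j => K.integral_bound h (fun z => K.G z (a z) j) 1 zero_le_one j
    ((continuous_apply j).comp_continuousOn (h.cont a α ha ht))
    (fun i hi y hy => by
      simpa using h.size i hi y hy (a y) (fun l => by simpa using ht.piece i hi y hy l) j)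
  refine ⟨fun i hi y hy j => ?_, fun j => ?_, fun j => ?_, fun j => by simpa using (hB j).2⟩
  · have hs := (hB j).1
    unfold T fixedEnd cap at *
    by_cases hj : isL j
    · have := ((hI j).1 hj).1 i hi y hy
      simp only [if_pos hj, one_mul] at *
      exact (abs_sub _ _).trans (by linarith)
    · have := ((hI j).2 hj).1 i hi y hy
      simp only [if_neg hj, one_mul] at *
      exact (abs_add_le _ _).trans (by linarith)
  · have hs := (hB j).1
    unfold T fixedEnd at *
    by_cases hj : isL j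
    · have := ((hI j).1 hj).2
      simp only [if_pos hj, one_mul] at *
      exact (abs_sub _ _).trans (by linarith)
    · simp only [if_neg hj, integral_same, add_zero, one_mul] at *
      exact hs
  · have hs := (hB j).1
    unfold T fixedEnd at *
    by_cases hj : isL j
    · simp only [if_pos hj, integral_same, sub_zero, one_mul] at *
      exact hs
    · have := ((hI j).2 hj).2
      simp only [if_neg hj, one_mul] at *
      exact (abs_add_le _ _).trans (by linarith)

theorem contract (h : K.Ok) {a b : ℝ → Fin 4 → ℝ} {α β : Fin 4 → ℝ} {d : ℝ} (hd : 0 ≤ d)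
    (ha : ContinuousOn a (Icc (K.t 0) (K.t K.n))) (hta : K.Tube 1 a α)
    (hb : ContinuousOn b (Icc (K.t 0) (K.t K.n))) (htb : K.Tube 1 b β)
    (hab : K.Tube d (fun y j => a y j - b y j) (fun j => α j - β j)) :
    K.Tube (d / 2) (fun y j => K.T a α y j - K.T b β y j)
      (fun j => (K.B (a (K.t 0)) (a (K.t K.n)) α).2 j - (K.B (b (K.t 0)) (b (K.t K.n)) β).2 j) := by
  have hB := h.bdLip (a (K.t 0)) (a (K.t K.n)) α (b (K.t 0)) (b (K.t K.n)) β d hd
    (fun j => by simpa using hta.first j) (fun j => by simpa using hta.last j)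
    (fun j => by simpa using hta.par j)
    (fun j => by simpa using htb.first j) (fun j => by simpa using htb.last j)
    (fun j => by simpa using htb.par j) hab.first hab.last hab.par
  have hca := fun j : Fin 4 => (continuous_apply j).comp_continuousOn (h.cont a α ha hta)
  have hcb := fun j : Fin 4 => (continuous_apply j).comp_continuousOn (h.cont b β hb htb)
  have hI := fun j => K.integral_bound h (fun z => K.G z (a z) j - K.G z (b z) j) (d / 2)
    (by linarith) j ((hca j).sub (hcb j))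
    (fun i hi y hy => h.lip i hi y hy (a y) (b y) d hd
      (fun l => by simpa using hta.piece i hi y hy l)
      (fun l => by simpa using htb.piece i hi y hy l) (hab.piece i hi y hy) j)
  have hn := K.t_le h (Nat.zero_le K.n) le_rfl
  have hsub : ∀ j, ∀ x ∈ Icc (K.t 0) (K.t K.n), ∀ y ∈ Icc (K.t 0) (K.t K.n),
      (∫ z in x..y, (K.G z (a z) j - K.G z (b z) j)) =
        (∫ z in x..y, K.G z (a z) j) - ∫ z in x..y, K.G z (b z) j := fun j x hx y hy =>
    intervalIntegral.integral_sub ((hca j).mono (uIcc_subset_Icc hx hy)).intervalIntegrable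
      ((hcb j).mono (uIcc_subset_Icc hx hy)).intervalIntegrable
  have eL : ∀ (p q r s : ℝ), (p - q) - (r - s) = (p - r) - (q - s) := by intros; ring
  have eR : ∀ (p q r s : ℝ), (p + q) - (r + s) = (p - r) + (q - s) := by intros; ring
  refine ⟨fun i hi y hy j => ?_, fun j => ?_, fun j => ?_, fun j => (hB j).2⟩
  · have hs := (hB j).1
    have hy' := K.piece_mem h hi hy
    unfold T fixedEnd cap at *
    by_cases hj : isL j
    · have := ((hI j).1 hj).1 i hi y hy
      rw [hsub j y hy' _ (right_mem_Icc.2 hn)] at this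
      simp only [if_pos hj] at *
      rw [eL]; exact (abs_sub _ _).trans (by linarith)
    · have := ((hI j).2 hj).1 i hi y hy
      rw [hsub j _ (left_mem_Icc.2 hn) y hy'] at this
      simp only [if_neg hj] at *
      rw [eR]; exact (abs_add_le _ _).trans (by linarith)
  · have hs := (hB j).1
    unfold T fixedEnd at *
    by_cases hj : isL j
    · have := ((hI j).1 hj).2
      rw [hsub j _ (left_mem_Icc.2 hn) _ (right_mem_Icc.2 hn)] at this
      simp only [if_pos hj] at *
      rw [eL]; exact (abs_sub _ _).trans (by linarith)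
    · simp only [if_neg hj, integral_same, add_zero] at *
      exact hs
  · have hs := (hB j).1
    unfold T fixedEnd at *
    by_cases hj : isL j
    · simp only [if_pos hj, integral_same, sub_zero] at *
      exact hs
    · have := ((hI j).2 hj).2
      rw [hsub j _ (left_mem_Icc.2 hn) _ (right_mem_Icc.2 hn)] at this
      simp only [if_neg hj] at *
      rw [eR]; exact (abs_add_le _ _).trans (by linarith)

theorem iter_tube (h : K.Ok) : ∀ m, ContinuousOn (K.iter m).1 (Icc (K.t 0) (K.t K.n)) ∧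
    K.Tube 1 (K.iter m).1 (K.iter m).2 := by
  intro m
  induction m with
  | zero =>
    refine ⟨continuousOn_const, ?_, ?_, ?_, ?_⟩
    · intro i hi y _ j; simpa [iter] using K.cap_nonneg h hi j
    · intro j; simpa [iter] using h.nonneg 0 (Nat.zero_le _) j
    · intro j; simpa [iter] using h.nonneg K.n le_rfl j
    · intro j; simpa [iter] using h.nonnegA j
  | succ m ih => exact ⟨K.continuousOn_T h ih.1 ih.2, K.tube_T h ih.1 ih.2⟩

theorem iter_step (h : K.Ok) : ∀ m, K.Tube (2 * (1 / 2 : ℝ) ^ m)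
    (fun y j => (K.iter (m + 1)).1 y j - (K.iter m).1 y j)
    (fun j => (K.iter (m + 1)).2 j - (K.iter m).2 j) := by
  intro m
  induction m with
  | zero =>
    have h1 := (K.iter_tube h 1).2
    have h0 := (K.iter_tube h 0).2
    refine ⟨fun i hi y hy j => ?_, fun j => ?_, fun j => ?_, fun j => ?_⟩
    · have := h1.piece i hi y hy j; have := h0.piece i hi y hy j
      refine (abs_sub _ _).trans ?_; simp at *; linarith
    · have := h1.first j; have := h0.first j
      refine (abs_sub _ _).trans ?_; simp at *; linarith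
    · have := h1.last j; have := h0.last j
      refine (abs_sub _ _).trans ?_; simp at *; linarith
    · have := h1.par j; have := h0.par j
      refine (abs_sub _ _).trans ?_; simp at *; linarith
  | succ m ih =>
    have := K.contract h (d := 2 * (1 / 2 : ℝ) ^ m) (by positivity) (K.iter_tube h (m + 1)).1
      (K.iter_tube h (m + 1)).2 (K.iter_tube h m).1 (K.iter_tube h m).2 ih
    have e : 2 * (1 / 2 : ℝ) ^ (m + 1) = 2 * (1 / 2 : ℝ) ^ m / 2 := by ring
    rw [e]; exact this

/-- The iteration converges to a solution of the integral equation inside the tube. -/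
theorem exists_solution (hn : 0 < K.n) (h : K.Ok) :
    ∃ a α, ContinuousOn a (Icc (K.t 0) (K.t K.n)) ∧ K.Tube 1 a α ∧
      (∀ y ∈ Icc (K.t 0) (K.t K.n), ∀ j, a y j = K.T a α y j) ∧
      α = (K.B (a (K.t 0)) (a (K.t K.n)) α).2 := by
  set S := Icc (K.t 0) (K.t K.n) with hS
  have hle := K.t_le h (Nat.zero_le K.n) le_rfl
  -- geometric convergence of a single real sequence
  have key : ∀ (x : ℕ → ℝ) (M : ℝ), (∀ m, |x (m + 1) - x m| ≤ 2 * (1 / 2 : ℝ) ^ m * M) →
      ∃ l, Tendsto x atTop (𝓝 l) ∧ ∀ m, |x m - l| ≤ 4 * (1 / 2 : ℝ) ^ m * M := by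
    intro x M hx
    have hd : ∀ m, dist (x m) (x (m + 1)) ≤ 2 * M * (1 / 2 : ℝ) ^ m := fun m => by
      rw [Real.dist_eq, abs_sub_comm]; exact (hx m).trans (le_of_eq (by ring))
    obtain ⟨l, hl⟩ := cauchySeq_tendsto_of_complete
      (cauchySeq_of_le_geometric (1 / 2 : ℝ) (2 * M) (by norm_num) hd)
    refine ⟨l, hl, fun m => ?_⟩
    have := dist_le_of_le_geometric_of_tendsto (1 / 2 : ℝ) (2 * M) (by norm_num) hd hl m
    rw [Real.dist_eq] at this
    refine this.trans (le_of_eq ?_)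
    field_simp; ring
  classical
  have hlim : ∀ y ∈ S, ∀ j, ∃ l, Tendsto (fun m => (K.iter m).1 y j) atTop (𝓝 l) := by
    intro y hy j
    obtain ⟨i, hi, hiy⟩ := K.exists_piece hn y hy
    obtain ⟨l, hl, -⟩ := key (fun m => (K.iter m).1 y j) (K.cap i j)
      (fun m => (K.iter_step h m).piece i hi y hiy j)
    exact ⟨l, hl⟩
  choose! la hla using hlim
  have hlimA : ∀ j, ∃ l, Tendsto (fun m => (K.iter m).2 j) atTop (𝓝 l) := fun j =>
    (key (fun m => (K.iter m).2 j) (K.A j) (fun m => (K.iter_step h m).par j)).imp fun l hl => hl.1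
  choose lA hlA using hlimA
  have hdiff : ∀ m, K.Tube (4 * (1 / 2 : ℝ) ^ m) (fun y j => (K.iter m).1 y j - la y j)
      (fun j => (K.iter m).2 j - lA j) := by
    intro m
    refine ⟨fun i hi y hy j => ?_, fun j => ?_, fun j => ?_, fun j => ?_⟩
    · obtain ⟨l, hl, hb⟩ := key (fun m => (K.iter m).1 y j) (K.cap i j)
        (fun m => (K.iter_step h m).piece i hi y hy j)
      rw [tendsto_nhds_unique (hla y (K.piece_mem h hi hy) j) hl]; exact hb m
    · obtain ⟨l, hl, hb⟩ := key (fun m => (K.iter m).1 (K.t 0) j) (K.P 0 j)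
        (fun m => (K.iter_step h m).first j)
      rw [tendsto_nhds_unique (hla _ (left_mem_Icc.2 hle) j) hl]; exact hb m
    · obtain ⟨l, hl, hb⟩ := key (fun m => (K.iter m).1 (K.t K.n) j) (K.P K.n j)
        (fun m => (K.iter_step h m).last j)
      rw [tendsto_nhds_unique (hla _ (right_mem_Icc.2 hle) j) hl]; exact hb m
    · obtain ⟨l, hl, hb⟩ := key (fun m => (K.iter m).2 j) (K.A j)
        (fun m => (K.iter_step h m).par j)
      rw [tendsto_nhds_unique (hlA j) hl]; exact hb m
  have bnd : ∀ (x : ℕ → ℝ) (l M : ℝ), Tendsto x atTop (𝓝 l) → (∀ m, |x m| ≤ M) → |l| ≤ M :=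
    fun x l M hx hb => le_of_tendsto hx.abs (Eventually.of_forall hb)
  have htube : K.Tube 1 la lA := by
    refine ⟨fun i hi y hy j => ?_, fun j => ?_, fun j => ?_, fun j => ?_⟩
    · exact bnd _ _ _ (hla y (K.piece_mem h hi hy) j)
        fun m => (K.iter_tube h m).2.piece i hi y hy j
    · exact bnd _ _ _ (hla _ (left_mem_Icc.2 hle) j) fun m => (K.iter_tube h m).2.first j
    · exact bnd _ _ _ (hla _ (right_mem_Icc.2 hle) j) fun m => (K.iter_tube h m).2.last j
    · exact bnd _ _ _ (hlA j) fun m => (K.iter_tube h m).2.par j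
  have hgeo : ∀ C : ℝ, Tendsto (fun m : ℕ => C * (1 / 2 : ℝ) ^ m) atTop (𝓝 0) := fun C => by
    simpa using (tendsto_pow_atTop_nhds_zero_of_lt_one (by norm_num : (0 : ℝ) ≤ 1 / 2)
      (by norm_num)).const_mul C
  have hc : ContinuousOn la S := by
    rw [continuousOn_pi]
    intro j
    obtain ⟨M, hM⟩ : ∃ M, ∀ i < K.n, K.cap i j ≤ M := by
      refine ⟨∑ i ∈ Finset.range K.n, K.cap i j, fun i hi => ?_⟩
      exact Finset.single_le_sum (f := fun i => K.cap i j)
        (fun l hl => K.cap_nonneg h (Finset.mem_range.1 hl) j) (Finset.mem_range.2 hi)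
    refine TendstoUniformlyOn.continuousOn (F := fun m y => (K.iter m).1 y j) (p := atTop) ?_
      (Frequently.of_forall fun m => (continuous_apply j).comp_continuousOn (K.iter_tube h m).1)
    rw [Metric.tendstoUniformlyOn_iff]
    intro ε hε
    filter_upwards [(hgeo (4 * M)).eventually (gt_mem_nhds hε)] with m hm y hy
    obtain ⟨i, hi, hiy⟩ := K.exists_piece hn y hy
    rw [Real.dist_eq, abs_sub_comm]
    refine lt_of_le_of_lt ?_ hm
    have := (hdiff m).piece i hi y hiy j
    have h4 : (0:ℝ) ≤ 4 * (1 / 2 : ℝ) ^ m := by positivity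
    nlinarith [mul_le_mul_of_nonneg_left (hM i hi) h4]
  have hcon : ∀ m, K.Tube (4 * (1 / 2 : ℝ) ^ m / 2)
      (fun y j => (K.iter (m + 1)).1 y j - K.T la lA y j)
      (fun j => (K.iter (m + 1)).2 j - (K.B (la (K.t 0)) (la (K.t K.n)) lA).2 j) := fun m =>
    K.contract h (by positivity) (K.iter_tube h m).1 (K.iter_tube h m).2 hc htube (hdiff m)
  have lim0 : ∀ (x : ℕ → ℝ) (l l' M : ℝ), Tendsto x atTop (𝓝 l) →
      (∀ m, |x (m + 1) - l'| ≤ 4 * (1 / 2 : ℝ) ^ m / 2 * M) → l = l' := by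
    intro x l l' M hx hb
    have h1 : Tendsto (fun m => x (m + 1)) atTop (𝓝 l) := hx.comp (tendsto_add_atTop_nat 1)
    have h2 : Tendsto (fun m => x (m + 1)) atTop (𝓝 l') := by
      rw [tendsto_iff_dist_tendsto_zero]
      refine squeeze_zero (fun _ => dist_nonneg) (fun m => ?_) (hgeo (2 * M))
      rw [Real.dist_eq]; exact (hb m).trans (le_of_eq (by ring))
    exact tendsto_nhds_unique h1 h2
  refine ⟨la, lA, hc, htube, fun y hy j => ?_, funext fun j => ?_⟩
  · obtain ⟨i, hi, hiy⟩ := K.exists_piece hn y hy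
    exact lim0 _ _ _ (K.cap i j) (hla y hy j) fun m => (hcon m).piece i hi y hiy j
  · exact lim0 _ _ _ (K.A j) (hlA j) fun m => (hcon m).par j

/-- The solution is differentiable with derivative `G`. -/
theorem hasDerivWithinAt_solution (h : K.Ok) {a : ℝ → Fin 4 → ℝ} {α : Fin 4 → ℝ}
    (ha : ContinuousOn a (Icc (K.t 0) (K.t K.n))) (ht : K.Tube 1 a α)
    (he : ∀ y ∈ Icc (K.t 0) (K.t K.n), ∀ j, a y j = K.T a α y j)
    {y : ℝ} (hy : y ∈ Icc (K.t 0) (K.t K.n)) (j : Fin 4) :
    HasDerivWithinAt (fun z => a z j) (K.G y (a y) j) (Icc (K.t 0) (K.t K.n)) y := by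
  have hle := K.t_le h (Nat.zero_le K.n) le_rfl
  have hf : ContinuousOn (fun z => K.G z (a z) j) (Icc (K.t 0) (K.t K.n)) :=
    (continuous_apply j).comp_continuousOn (h.cont a α ha ht)
  haveI : Fact (y ∈ Icc (K.t 0) (K.t K.n)) := ⟨hy⟩
  have hR : HasDerivWithinAt (fun u => ∫ z in K.t 0..u, K.G z (a z) j) (K.G y (a y) j)
      (Icc (K.t 0) (K.t K.n)) y :=
    intervalIntegral.integral_hasDerivWithinAt_right
      (hf.mono (uIcc_subset_Icc (left_mem_Icc.2 hle) hy)).intervalIntegrable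
      (hf.stronglyMeasurableAtFilter_nhdsWithin measurableSet_Icc y) (hf y hy)
  by_cases hj : isL j
  · have hL : HasDerivWithinAt (fun u => (K.B (a (K.t 0)) (a (K.t K.n)) α).1 j -
        ∫ z in u..K.t K.n, K.G z (a z) j) (K.G y (a y) j) (Icc (K.t 0) (K.t K.n)) y := by
      have := ((hR.const_add ((K.B (a (K.t 0)) (a (K.t K.n)) α).1 j -
        ∫ z in K.t 0..K.t K.n, K.G z (a z) j)))
      refine this.congr (fun u hu => ?_) ?_
      all_goals
        rw [← integral_add_adjacent_intervals (a := K.t 0) (c := K.t K.n)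
          (hf.mono (uIcc_subset_Icc (left_mem_Icc.2 hle) (by assumption))).intervalIntegrable
          (hf.mono (uIcc_subset_Icc (by assumption) (right_mem_Icc.2 hle))).intervalIntegrable]
        ring
    refine hL.congr (fun u hu => ?_) ?_
    · rw [he u hu j]; simp [T, hj]
    · rw [he y hy j]; simp [T, hj]
  · refine (hR.const_add ((K.B (a (K.t 0)) (a (K.t K.n)) α).1 j)).congr (fun u hu => ?_) ?_
    · rw [he u hu j]; simp [T, hj]
    · rw [he y hy j]; simp [T, hj]

end Split

end Vale.Agent.P264.Soliton.Inner
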