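import Vale.Agent.P264.Soliton.Inner.Data0
import Vale.Agent.P264.Soliton.Inner.Data1

/-! Kernel evaluation of the checks on one block of pieces. -/

namespace Vale.Agent.P264.Soliton.Inner

def part0 : List Node :=
  [nd0, nd1, nd2, nd3, nd4, nd5, nd6, nd7, nd8]

theorem part0_ok : okList part0 = true := by decide +kernel

def part1 : List Node :=
  [nd8, nd9, nd10, nd11, nd12, nd13, nd14, nd15, nd16]

theorem part1_ok : okList part1 = true := by decide +kernel

def part2 : List Node :=
  [nd16, nd17, nd18, nd19, nd20, nd21, nd22, nd23, nd24]

theorem part2_ok : okList part2 = true := by decide +kernel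

def part3 : List Node :=
  [nd24, nd25, nd26, nd27, nd28, nd29, nd30, nd31, nd32]

theorem part3_ok : okList part3 = true := by decide +kernel

def part4 : List Node :=
  [nd32, nd33, nd34, nd35, nd36, nd37, nd38, nd39, nd40]

theorem part4_ok : okList part4 = true := by decide +kernel

end Vale.Agent.P264.Soliton.Inner
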