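import Vale.Agent.P264.Soliton.Inner.Data1
import Vale.Agent.P264.Soliton.Inner.Data2

/-! Kernel evaluation of the checks on one block of pieces. -/

namespace Vale.Agent.P264.Soliton.Inner

def part5 : List Node :=
  [nd40, nd41, nd42, nd43, nd44, nd45, nd46, nd47, nd48]

theorem part5_ok : okList part5 = true := by decide +kernel

def part6 : List Node :=
  [nd48, nd49, nd50, nd51, nd52, nd53, nd54, nd55, nd56]

theorem part6_ok : okList part6 = true := by decide +kernel

def part7 : List Node :=
  [nd56, nd57, nd58, nd59, nd60, nd61, nd62, nd63, nd64]

theorem part7_ok : okList part7 = true := by decide +kernel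

def part8 : List Node :=
  [nd64, nd65, nd66, nd67, nd68, nd69, nd70, nd71, nd72]

theorem part8_ok : okList part8 = true := by decide +kernel

def part9 : List Node :=
  [nd72, nd73, nd74, nd75, nd76, nd77, nd78, nd79, nd80]

theorem part9_ok : okList part9 = true := by decide +kernel

end Vale.Agent.P264.Soliton.Inner
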