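import Vale.Agent.P264.Soliton.Inner.Data2
import Vale.Agent.P264.Soliton.Inner.Data3

/-! Kernel evaluation of the checks on one block of pieces. -/

namespace Vale.Agent.P264.Soliton.Inner

def part10 : List Node :=
  [nd80, nd81, nd82, nd83, nd84, nd85, nd86, nd87, nd88]

theorem part10_ok : okList part10 = true := by decide +kernel

def part11 : List Node :=
  [nd88, nd89, nd90, nd91, nd92, nd93, nd94, nd95, nd96]

theorem part11_ok : okList part11 = true := by decide +kernel

def part12 : List Node :=
  [nd96, nd97, nd98, nd99, nd100, nd101, nd102, nd103, nd104]

theorem part12_ok : okList part12 = true := by decide +kernel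

def part13 : List Node :=
  [nd104, nd105, nd106, nd107, nd108, nd109, nd110, nd111, nd112]

theorem part13_ok : okList part13 = true := by decide +kernel

def part14 : List Node :=
  [nd112, nd113, nd114, nd115, nd116, nd117, nd118, nd119, nd120]

theorem part14_ok : okList part14 = true := by decide +kernel

end Vale.Agent.P264.Soliton.Inner
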