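import Vale.Agent.P264.Soliton.Inner.Data3
import Vale.Agent.P264.Soliton.Inner.Data4

/-! Kernel evaluation of the checks on one block of pieces. -/

namespace Vale.Agent.P264.Soliton.Inner

def part15 : List Node :=
  [nd120, nd121, nd122, nd123, nd124, nd125, nd126, nd127, nd128]

theorem part15_ok : okList part15 = true := by decide +kernel

def part16 : List Node :=
  [nd128, nd129, nd130, nd131, nd132, nd133, nd134, nd135, nd136]

theorem part16_ok : okList part16 = true := by decide +kernel

def part17 : List Node :=
  [nd136, nd137, nd138, nd139, nd140, nd141, nd142, nd143, nd144]

theorem part17_ok : okList part17 = true := by decide +kernel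

def part18 : List Node :=
  [nd144, nd145, nd146, nd147, nd148, nd149, nd150, nd151, nd152]

theorem part18_ok : okList part18 = true := by decide +kernel

def part19 : List Node :=
  [nd152, nd153, nd154, nd155, nd156, nd157, nd158, nd159, nd160]

theorem part19_ok : okList part19 = true := by decide +kernel

end Vale.Agent.P264.Soliton.Inner
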