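import Vale.Agent.P264.Soliton.Inner.Data4
import Vale.Agent.P264.Soliton.Inner.Data5

/-! Kernel evaluation of the checks on one block of pieces. -/

namespace Vale.Agent.P264.Soliton.Inner

def part20 : List Node :=
  [nd160, nd161, nd162, nd163, nd164, nd165, nd166, nd167, nd168]

theorem part20_ok : okList part20 = true := by decide +kernel

def part21 : List Node :=
  [nd168, nd169, nd170, nd171, nd172, nd173, nd174, nd175, nd176]

theorem part21_ok : okList part21 = true := by decide +kernel

def part22 : List Node :=
  [nd176, nd177, nd178, nd179, nd180, nd181, nd182, nd183, nd184]

theorem part22_ok : okList part22 = true := by decide +kernel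

def part23 : List Node :=
  [nd184, nd185, nd186, nd187, nd188, nd189, nd190, nd191, nd192]

theorem part23_ok : okList part23 = true := by decide +kernel

def part24 : List Node :=
  [nd192, nd193, nd194, nd195, nd196, nd197, nd198, nd199, nd200]

theorem part24_ok : okList part24 = true := by decide +kernel

end Vale.Agent.P264.Soliton.Inner
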