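import Vale.Agent.P264.Soliton.Inner.Data5
import Vale.Agent.P264.Soliton.Inner.Data6

/-! Kernel evaluation of the checks on one block of pieces. -/

namespace Vale.Agent.P264.Soliton.Inner

def part25 : List Node :=
  [nd200, nd201, nd202, nd203, nd204, nd205, nd206, nd207, nd208]

theorem part25_ok : okList part25 = true := by decide +kernel

def part26 : List Node :=
  [nd208, nd209, nd210, nd211, nd212, nd213, nd214, nd215, nd216]

theorem part26_ok : okList part26 = true := by decide +kernel

def part27 : List Node :=
  [nd216, nd217, nd218, nd219, nd220, nd221, nd222, nd223, nd224]

theorem part27_ok : okList part27 = true := by decide +kernel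

def part28 : List Node :=
  [nd224, nd225, nd226, nd227, nd228, nd229, nd230, nd231, nd232]

theorem part28_ok : okList part28 = true := by decide +kernel

def part29 : List Node :=
  [nd232, nd233, nd234, nd235, nd236, nd237, nd238, nd239, nd240]

theorem part29_ok : okList part29 = true := by decide +kernel

end Vale.Agent.P264.Soliton.Inner
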