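import Vale.Agent.P264.Soliton.Inner.Data6
import Vale.Agent.P264.Soliton.Inner.Data7

/-! Kernel evaluation of the checks on one block of pieces. -/

namespace Vale.Agent.P264.Soliton.Inner

def part30 : List Node :=
  [nd240, nd241, nd242, nd243, nd244, nd245, nd246, nd247, nd248]

theorem part30_ok : okList part30 = true := by decide +kernel

def part31 : List Node :=
  [nd248, nd249, nd250, nd251, nd252, nd253, nd254, nd255, nd256]

theorem part31_ok : okList part31 = true := by decide +kernel

def part32 : List Node :=
  [nd256, nd257, nd258, nd259, nd260, nd261, nd262, nd263, nd264]

theorem part32_ok : okList part32 = true := by decide +kernel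

def part33 : List Node :=
  [nd264, nd265, nd266, nd267, nd268, nd269, nd270, nd271, nd272]

theorem part33_ok : okList part33 = true := by decide +kernel

def part34 : List Node :=
  [nd272, nd273, nd274, nd275, nd276, nd277, nd278, nd279, nd280]

theorem part34_ok : okList part34 = true := by decide +kernel

end Vale.Agent.P264.Soliton.Inner
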