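import Vale.Agent.P264.Soliton.Inner.Data7

/-! Kernel evaluation of the checks on one block of pieces. -/

namespace Vale.Agent.P264.Soliton.Inner

def part35 : List Node :=
  [nd280, nd281, nd282, nd283, nd284, nd285, nd286, nd287, nd288]

theorem part35_ok : okList part35 = true := by decide +kernel

def part36 : List Node :=
  [nd288, nd289, nd290, nd291, nd292, nd293, nd294, nd295, nd296]

theorem part36_ok : okList part36 = true := by decide +kernel

def part37 : List Node :=
  [nd296, nd297, nd298, nd299, nd300, nd301, nd302, nd303, nd304]

theorem part37_ok : okList part37 = true := by decide +kernel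

def part38 : List Node :=
  [nd304, nd305, nd306, nd307, nd308, nd309, nd310, nd311]

theorem part38_ok : okList part38 = true := by decide +kernel

end Vale.Agent.P264.Soliton.Inner
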