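import Mathlib
import Vale.Agent.P264.Soliton.Inner.Nodes
import Vale.Agent.P264.Soliton.Inner.Run0
import Vale.Agent.P264.Soliton.Inner.Run1
import Vale.Agent.P264.Soliton.Inner.Run2
import Vale.Agent.P264.Soliton.Inner.Run3
import Vale.Agent.P264.Soliton.Inner.Run4
import Vale.Agent.P264.Soliton.Inner.Run5
import Vale.Agent.P264.Soliton.Inner.Run6
import Vale.Agent.P264.Soliton.Inner.Run7

/-! All pieces of the certificate pass the check. -/

namespace Vale.Agent.P264.Soliton.Inner

def joinNodes (a b : List Node) : List Node := a ++ b.tail

theorem okList_joinNodes : ∀ (a b : List Node), okList a = true → okList b = true →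
    a.getLast? = b.head? → okList (joinNodes a b) = true
  | [], b, _, hb, h => by
      cases b with
      | nil => rfl
      | cons x b => simp at h
  | [x], b, _, hb, h => by
      cases b with
      | nil => simp at h
      | cons z b =>
        simp at h
        subst h
        simpa [joinNodes] using hb
  | x :: z :: a, b, ha, hb, h => by
      simp only [okList, Bool.and_eq_true] at ha
      have ih := okList_joinNodes (z :: a) b ha.2 hb (by simpa using h)
      simp only [joinNodes, List.cons_append] at ih ⊢
      simp only [okList, Bool.and_eq_true]
      exact ⟨ha.1, ih⟩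

theorem ok0 : okList part0 = true := part0_ok

def upto1 : List Node := joinNodes part0 part1

theorem ok1 : okList upto1 = true :=
  okList_joinNodes _ _ ok0 part1_ok rfl

def upto2 : List Node := joinNodes upto1 part2

theorem ok2 : okList upto2 = true :=
  okList_joinNodes _ _ ok1 part2_ok rfl

def upto3 : List Node := joinNodes upto2 part3

theorem ok3 : okList upto3 = true :=
  okList_joinNodes _ _ ok2 part3_ok rfl

def upto4 : List Node := joinNodes upto3 part4

theorem ok4 : okList upto4 = true :=
  okList_joinNodes _ _ ok3 part4_ok rfl

def upto5 : List Node := joinNodes upto4 part5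

theorem ok5 : okList upto5 = true :=
  okList_joinNodes _ _ ok4 part5_ok rfl

def upto6 : List Node := joinNodes upto5 part6

theorem ok6 : okList upto6 = true :=
  okList_joinNodes _ _ ok5 part6_ok rfl

def upto7 : List Node := joinNodes upto6 part7

theorem ok7 : okList upto7 = true :=
  okList_joinNodes _ _ ok6 part7_ok rfl

def upto8 : List Node := joinNodes upto7 part8

theorem ok8 : okList upto8 = true :=
  okList_joinNodes _ _ ok7 part8_ok rfl

def upto9 : List Node := joinNodes upto8 part9

theorem ok9 : okList upto9 = true :=
  okList_joinNodes _ _ ok8 part9_ok rfl

def upto10 : List Node := joinNodes upto9 part10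

theorem ok10 : okList upto10 = true :=
  okList_joinNodes _ _ ok9 part10_ok rfl

def upto11 : List Node := joinNodes upto10 part11

theorem ok11 : okList upto11 = true :=
  okList_joinNodes _ _ ok10 part11_ok rfl

def upto12 : List Node := joinNodes upto11 part12

theorem ok12 : okList upto12 = true :=
  okList_joinNodes _ _ ok11 part12_ok rfl

def upto13 : List Node := joinNodes upto12 part13

theorem ok13 : okList upto13 = true :=
  okList_joinNodes _ _ ok12 part13_ok rfl

def upto14 : List Node := joinNodes upto13 part14

theorem ok14 : okList upto14 = true :=
  okList_joinNodes _ _ ok13 part14_ok rfl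

def upto15 : List Node := joinNodes upto14 part15

theorem ok15 : okList upto15 = true :=
  okList_joinNodes _ _ ok14 part15_ok rfl

def upto16 : List Node := joinNodes upto15 part16

theorem ok16 : okList upto16 = true :=
  okList_joinNodes _ _ ok15 part16_ok rfl

def upto17 : List Node := joinNodes upto16 part17

theorem ok17 : okList upto17 = true :=
  okList_joinNodes _ _ ok16 part17_ok rfl

def upto18 : List Node := joinNodes upto17 part18

theorem ok18 : okList upto18 = true :=
  okList_joinNodes _ _ ok17 part18_ok rfl

def upto19 : List Node := joinNodes upto18 part19

theorem ok19 : okList upto19 = true :=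
  okList_joinNodes _ _ ok18 part19_ok rfl

def upto20 : List Node := joinNodes upto19 part20

theorem ok20 : okList upto20 = true :=
  okList_joinNodes _ _ ok19 part20_ok rfl

def upto21 : List Node := joinNodes upto20 part21

theorem ok21 : okList upto21 = true :=
  okList_joinNodes _ _ ok20 part21_ok rfl

def upto22 : List Node := joinNodes upto21 part22

theorem ok22 : okList upto22 = true :=
  okList_joinNodes _ _ ok21 part22_ok rfl

def upto23 : List Node := joinNodes upto22 part23

theorem ok23 : okList upto23 = true :=
  okList_joinNodes _ _ ok22 part23_ok rfl

def upto24 : List Node := joinNodes upto23 part24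

theorem ok24 : okList upto24 = true :=
  okList_joinNodes _ _ ok23 part24_ok rfl

def upto25 : List Node := joinNodes upto24 part25

theorem ok25 : okList upto25 = true :=
  okList_joinNodes _ _ ok24 part25_ok rfl

def upto26 : List Node := joinNodes upto25 part26

theorem ok26 : okList upto26 = true :=
  okList_joinNodes _ _ ok25 part26_ok rfl

def upto27 : List Node := joinNodes upto26 part27

theorem ok27 : okList upto27 = true :=
  okList_joinNodes _ _ ok26 part27_ok rfl

def upto28 : List Node := joinNodes upto27 part28

theorem ok28 : okList upto28 = true :=
  okList_joinNodes _ _ ok27 part28_ok rfl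

def upto29 : List Node := joinNodes upto28 part29

theorem ok29 : okList upto29 = true :=
  okList_joinNodes _ _ ok28 part29_ok rfl

def upto30 : List Node := joinNodes upto29 part30

theorem ok30 : okList upto30 = true :=
  okList_joinNodes _ _ ok29 part30_ok rfl

def upto31 : List Node := joinNodes upto30 part31

theorem ok31 : okList upto31 = true :=
  okList_joinNodes _ _ ok30 part31_ok rfl

def upto32 : List Node := joinNodes upto31 part32

theorem ok32 : okList upto32 = true :=
  okList_joinNodes _ _ ok31 part32_ok rfl

def upto33 : List Node := joinNodes upto32 part33

theorem ok33 : okList upto33 = true :=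
  okList_joinNodes _ _ ok32 part33_ok rfl

def upto34 : List Node := joinNodes upto33 part34

theorem ok34 : okList upto34 = true :=
  okList_joinNodes _ _ ok33 part34_ok rfl

def upto35 : List Node := joinNodes upto34 part35

theorem ok35 : okList upto35 = true :=
  okList_joinNodes _ _ ok34 part35_ok rfl

def upto36 : List Node := joinNodes upto35 part36

theorem ok36 : okList upto36 = true :=
  okList_joinNodes _ _ ok35 part36_ok rfl

def upto37 : List Node := joinNodes upto36 part37

theorem ok37 : okList upto37 = true :=
  okList_joinNodes _ _ ok36 part37_ok rfl

def upto38 : List Node := joinNodes upto37 part38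

theorem ok38 : okList upto38 = true :=
  okList_joinNodes _ _ ok37 part38_ok rfl

set_option maxRecDepth 20000 in
theorem nodes_eq : upto38 = nodes := rfl

theorem nodes_ok : okList nodes = true := nodes_eq ▸ ok38

end Vale.Agent.P264.Soliton.Inner
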