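import Mathlib
import Vale.Agent.P264.Soliton.Inner.Picard
import Vale.Agent.P264.Soliton.Inner.Targets
import Vale.Agent.P264.Soliton.Inner.RunAll

/-!
The connection on `[3/2, 64]`: the certificate instance of the contraction and the resulting
solution of the third order equation.
-/

namespace Vale.Agent.P264.Soliton.Inner

open Set Filter Topology

theorem glue_contOn (f : Fin 5) {k : ℕ} (hk : k ≤ 3) : ∀ {l : List Node}, Chain l →
    ∀ (hl : 1 < l.length),
      ContinuousOn (glue f k l)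
        (Icc (l[0]'(by omega)).pos (l[l.length - 1]'(by omega)).pos)
  | [], _, hl => absurd hl (by simp)
  | [_], _, hl => absurd hl (by simp)
  | A :: B :: [], h, _ => by
      show ContinuousOn (glue f k [A, B]) (Icc A.pos B.pos)
      have hc : Continuous (piece A B f k) :=
        continuous_iff_continuousAt.2 fun y => (hasDerivAt_piece A B f k y).continuousAt
      exact hc.continuousOn.congr fun z hz => by rw [glue, if_pos hz.2]
  | A :: B :: C :: l, h, _ => by
      have ih := glue_contOn f hk h.2 (by simp)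
      simp only [List.length_cons, List.getElem_cons_zero, add_tsub_cancel_right,
        List.getElem_cons_succ] at ih ⊢
      set e := ((C :: l)[l.length]'(by simp)).pos with he
      have hBe : B.pos ≤ e := chain_mono h.2 0 (l.length + 1) (by simp) (by simp) (Nat.zero_le _)
      have hc : Continuous (piece A B f k) :=
        continuous_iff_continuousAt.2 fun y => (hasDerivAt_piece A B f k y).continuousAt
      rw [← Icc_union_Icc_eq_Icc h.1.lt.le hBe]
      refine ContinuousOn.union_of_isClosed (hc.continuousOn.congr fun z hz => ?_)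
        (ih.congr fun z hz => ?_) isClosed_Icc isClosed_Icc
      · rw [glue, if_pos hz.2]
      · by_cases hzB : z ≤ B.pos
        · rw [glue, if_pos hzB, le_antisymm hzB hz.1, piece_right h.1 f hk, glue_head h.2 f hk]
        · rw [glue, if_neg hzB]

theorem okList_get : ∀ {l : List Node}, okList l = true → ∀ i (hi : i + 1 < l.length),
    okPiece l[i] l[i + 1] = true
  | [], _, i, hi => absurd hi (by simp)
  | [_], _, i, hi => absurd hi (by simp)
  | A :: B :: l, h, 0, _ => by
      simp only [okList, Bool.and_eq_true] at h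
      exact h.1
  | A :: B :: l, h, i + 1, hi => by
      simp only [okList, Bool.and_eq_true] at h
      exact okList_get h.2 i (by simpa using hi)

theorem nodes_length : nodes.length = 312 := by decide +kernel

/-- The node with index `i`. -/
def nth (i : ℕ) : Node := nodes.getD i nd0

theorem nth_eq {i : ℕ} (hi : i < nodes.length) : nth i = nodes[i] :=
  List.getD_eq_getElem nodes nd0 hi

theorem nth_ok {i : ℕ} (hi : i < 311) : okPiece (nth i) (nth (i + 1)) = true := by
  have hn := nodes_length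
  rw [nth_eq (by omega), nth_eq (by omega)]
  exact okList_get nodes_ok i (by omega)

theorem nth_first : nth 0 = nd0 := rfl

theorem nth_last : nth 311 = nd311 := rfl

theorem pos_first : nd0.pos = 3 / 2 := by norm_num [Node.pos, nd0]

theorem pos_last : nd311.pos = 64 := by norm_num [Node.pos, nd311]

/-- The approximate solution. -/
noncomputable def Qg (y : ℝ) (k : Fin 4) : ℝ := glue 0 k nodes y

/-- The frame. -/
noncomputable def Vg (y : ℝ) (i : Fin 4) (k : Fin 4) : ℝ := glue i.succ k nodes y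

theorem onPiece {i : ℕ} (hi : i < 311) {y : ℝ} (hy : y ∈ Icc (nth i).pos (nth (i + 1)).pos) :
    Qg y = pieceQ (nth i) (nth (i + 1)) y ∧ Vg y = pieceV (nth i) (nth (i + 1)) y := by
  have hn := nodes_length
  rw [nth_eq (by omega), nth_eq (by omega)] at hy ⊢
  refine ⟨funext fun k => ?_, funext fun j => funext fun k => ?_⟩
  · exact glue_piece 0 (by omega) (chain_of_ok nodes_ok) i (by omega) y hy
  · exact glue_piece j.succ (by omega) (chain_of_ok nodes_ok) i (by omega) y hy

theorem glue_cont_nodes (f : Fin 5) {k : ℕ} (hk : k ≤ 3) :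
    ContinuousOn (glue f k nodes) (Icc (3 / 2 : ℝ) 64) := by
  have h := glue_contOn f hk (chain_of_ok nodes_ok) (by rw [nodes_length]; norm_num)
  rw [← pos_first, ← pos_last, ← nth_first, ← nth_last, nth_eq (by rw [nodes_length]; norm_num),
    nth_eq (by rw [nodes_length]; norm_num)]
  convert h using 4
  rw [nodes_length]

theorem glue_deriv_nodes (f : Fin 5) {k : ℕ} (hk : k ≤ 2) {y : ℝ} (hy : y ∈ Icc (3 / 2 : ℝ) 64) :
    HasDerivWithinAt (glue f k nodes) (glue f (k + 1) nodes y) (Icc (3 / 2 : ℝ) 64) y := by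
  have h := glue_hasDeriv f hk (chain_of_ok nodes_ok) (by rw [nodes_length]; norm_num)
  have e : Icc (nodes[0]'(by rw [nodes_length]; norm_num)).pos
      (nodes[nodes.length - 1]'(by rw [nodes_length]; norm_num)).pos = Icc (3 / 2 : ℝ) 64 := by
    rw [← pos_first, ← pos_last, ← nth_first, ← nth_last, nth_eq (by rw [nodes_length]; norm_num),
      nth_eq (by rw [nodes_length]; norm_num)]
    simp only [nodes_length]
  have := h y (e ▸ hy)
  rwa [e] at this

theorem glue_end0 (f : Fin 5) {k : ℕ} (hk : k ≤ 3) : glue f k nodes (3 / 2) = nd0.val f k := by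
  have hn := nodes_length
  have hs : Shape nodes[0] nodes[1] :=
    shape_of_ok (by
      have := okList_get nodes_ok 0 (by omega)
      simp only [okPiece, Bool.and_eq_true] at this; exact this.1)
  have e : nodes[0] = nd0 := (nth_eq (by omega)).symm
  rw [← pos_first, ← e, glue_piece f hk (chain_of_ok nodes_ok) 0 (by omega) _
    (left_mem_Icc.2 hs.lt.le), piece_left hs f hk]

theorem glue_end1 (f : Fin 5) {k : ℕ} (hk : k ≤ 3) : glue f k nodes 64 = nd311.val f k := by
  have hn := nodes_length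
  have hs : Shape nodes[310] nodes[311] :=
    shape_of_ok (by
      have := okList_get nodes_ok 310 (by omega)
      simp only [okPiece, Bool.and_eq_true] at this; exact this.1)
  have e : nodes[311] = nd311 := (nth_eq (by omega)).symm
  rw [← pos_last, ← e, glue_piece f hk (chain_of_ok nodes_ok) 310 (by omega) _
    (right_mem_Icc.2 hs.lt.le), piece_right hs f hk]

theorem rad_nonneg (N : Node) (j : Fin 4) : 0 ≤ N.rad j := by
  have h : ∀ (a b c d : ℕ) (M : ℝ), 0 ≤ M →
      0 ≤ (![(a : ℝ) / M, (b : ℝ) / M, (c : ℝ) / M, (d : ℝ) / M] : Fin 4 → ℝ) j := by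
    intro a b c d M hM
    fin_cases j <;> simp <;> positivity
  exact h N.p0 N.p1 N.p2 N.p3 _ (by positivity)

theorem nth_neck : nth 43 = nd43 := rfl

theorem neck_pos : nd43.pos ∈ Icc (3 / 2 : ℝ) 64 := by
  constructor <;> norm_num [Node.pos, nd43]

theorem neck_val : nd43.val 0 0 ≤ 1 / 20 := by
  show ((nd43.sol 0).v0 : ℝ) / 2 ^ 150 ≤ 1 / 20
  rw [show (nd43.sol 0).v0 = nd43.q.v0 from rfl, div_le_iff₀ (by positivity)]
  norm_num [nd43]

variable (A : Fin 4 → ℝ) (B : (Fin 4 → ℝ) → (Fin 4 → ℝ) → (Fin 4 → ℝ) → (Fin 4 → ℝ) × (Fin 4 → ℝ))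

/-- The contraction data of the certificate. -/
noncomputable def sys : Split where
  n := 311
  t i := (nth i).pos
  P i := (nth i).rad
  A := A
  g i j := drop (nth i) (nth (i + 1)) j / ((nth (i + 1)).pos - (nth i).pos)
  G y x j := coef (Vg y) j * forcing y (Qg y) (Vg y) x
  B := B

theorem isL_split (r r' : Fin 4 → ℝ) (j : Fin 4) :
    (if Split.isL j then r j else r' j) = ![r 0, r 1, r' 2, r' 3] j := by
  fin_cases j <;> simp [Split.isL]

theorem cap_eq (i : ℕ) (j : Fin 4) : (sys A B).cap i j = capP (nth i) (nth (i + 1)) j := by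
  unfold Split.cap capP
  exact isL_split (nth i).rad (nth (i + 1)).rad j

theorem drop_eq (N M : Node) (j : Fin 4) :
    drop N M j = if Split.isL j then N.rad j - M.rad j else M.rad j - N.rad j := by
  unfold drop
  exact (isL_split (fun k => N.rad k - M.rad k) (fun k => M.rad k - N.rad k) j).symm

theorem fixedEnd_eq (j : Fin 4) : (sys A B).fixedEnd j = endRad j := rfl

/-- Pointwise facts along the tube. -/
theorem tube_point (hS : PieceSound) {a : ℝ → Fin 4 → ℝ} {α : Fin 4 → ℝ}
    (ht : (sys A B).Tube 1 a α) {y : ℝ} (hy : y ∈ Icc (3 / 2 : ℝ) 64) :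
    0 < Qg y 0 ∧ |∑ i, a y i * Vg y i 0| < Qg y 0 ∧ |∑ i, kap i * a y i| < ctil ∧
      wronsk (Vg y) ≠ 0 := by
  have hy' : y ∈ Icc ((sys A B).t 0) ((sys A B).t (sys A B).n) := by
    show y ∈ Icc (nth 0).pos (nth 311).pos
    rwa [nth_first, nth_last, pos_first, pos_last]
  obtain ⟨i, hi, hiy⟩ := (sys A B).exists_piece (by show 0 < 311; norm_num) y hy'
  obtain ⟨hw, -, hx⟩ := hS _ _ (nth_ok hi) y hiy
  have hcap : ∀ l, |a y l| ≤ capP (nth i) (nth (i + 1)) l := fun l => by
    have := ht.piece i hi y hiy l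
    rwa [one_mul, cap_eq] at this
  obtain ⟨eQ, eV⟩ := onPiece hi hiy
  obtain ⟨⟨h1, h2, h3⟩, -⟩ := hx (a y) hcap
  rw [eQ, eV]
  exact ⟨h1, h2, h3, hw⟩

theorem ctil_pos : 0 < ctil := by norm_num [ctil, cNum]

theorem sys_ok (hS : PieceSound) (hB : BdOk A B) : (sys A B).Ok := by
  have hlt : ∀ i < 311, (nth i).pos < (nth (i + 1)).pos := fun i hi =>
    (shape_of_ok (by
      have := nth_ok hi
      simp only [okPiece, Bool.and_eq_true] at this; exact this.1)).lt
  refine
    { step := fun i hi => (hlt i hi).le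
      gstepL := fun i hi j hj => ?_
      gstepR := fun i hi j hj => ?_
      nonneg := fun i _ j => ?_
      nonnegA := hB.nonneg
      cont := fun a α ha ht => ?_
      size := fun i hi y hy x hx j => ?_
      lip := fun i hi y hy x x' d hd hx hx' hxx j => ?_
      bdSize := hB.size
      bdLip := hB.lip }
  · have h := hlt i hi
    show ((nth (i + 1)).pos - (nth i).pos) *
      (drop (nth i) (nth (i + 1)) j / ((nth (i + 1)).pos - (nth i).pos)) ≤ _
    rw [mul_div_cancel₀ _ (by linarith), drop_eq, if_pos hj]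
    exact le_refl ((nth i).rad j - (nth (i + 1)).rad j)
  · have h := hlt i hi
    show ((nth (i + 1)).pos - (nth i).pos) *
      (drop (nth i) (nth (i + 1)) j / ((nth (i + 1)).pos - (nth i).pos)) ≤ _
    rw [mul_div_cancel₀ _ (by linarith), drop_eq, if_neg hj]
    exact le_refl ((nth (i + 1)).rad j - (nth i).rad j)
  · show 0 ≤ (nth i).rad j
    exact rad_nonneg (nth i) j
  · have hI : Icc ((sys A B).t 0) ((sys A B).t (sys A B).n) = Icc (3 / 2 : ℝ) 64 := by
      show Icc (nth 0).pos (nth 311).pos = _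
      rw [nth_first, nth_last, pos_first, pos_last]
    rw [hI] at ha ⊢
    have hQ : ∀ k : Fin 4, ContinuousOn (fun y => Qg y k) (Icc (3 / 2 : ℝ) 64) := fun k =>
      glue_cont_nodes 0 (by omega)
    have hV : ∀ i k : Fin 4, ContinuousOn (fun y => Vg y i k) (Icc (3 / 2 : ℝ) 64) := fun i k =>
      glue_cont_nodes i.succ (by omega)
    have hae : ∀ i : Fin 4, ContinuousOn (fun y => a y i) (Icc (3 / 2 : ℝ) 64) := fun i =>
      (continuous_apply i).comp_continuousOn ha
    have hid : ContinuousOn (fun y : ℝ => y) (Icc (3 / 2 : ℝ) 64) := continuousOn_id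
    have hy0 : ∀ y ∈ Icc (3 / 2 : ℝ) 64, y ≠ 0 := fun y hy => by linarith [hy.1]
    have hy2 : ∀ y ∈ Icc (3 / 2 : ℝ) 64, y ^ 2 ≠ 0 := fun y hy => pow_ne_zero 2 (hy0 y hy)
    have hq : ∀ y ∈ Icc (3 / 2 : ℝ) 64, Qg y 0 ≠ 0 := fun y hy =>
      (tube_point A B hS ht hy).1.ne'
    have hw : ∀ y ∈ Icc (3 / 2 : ℝ) 64, wronsk (Vg y) ≠ 0 := fun y hy =>
      (tube_point A B hS ht hy).2.2.2
    have hqd : ∀ y ∈ Icc (3 / 2 : ℝ) 64, Qg y 0 + ∑ i, a y i * Vg y i 0 ≠ 0 := fun y hy => by
      have h := tube_point A B hS ht hy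
      have := (abs_lt.1 h.2.1).1
      intro h0; linarith
    have hcd : ∀ y ∈ Icc (3 / 2 : ℝ) 64, ctil + ∑ i, kap i * a y i ≠ 0 := fun y hy => by
      have h := tube_point A B hS ht hy
      have := (abs_lt.1 h.2.2.1).1
      intro h0; linarith
    have hres : ContinuousOn (fun y => residual y (Qg y)) (Icc (3 / 2 : ℝ) 64) := by
      unfold residual
      exact ((((hid.mul (hQ 3)).add (continuousOn_const.mul (hQ 2))).add
        ((continuousOn_const.mul (hQ 1)).div hid hy0)).add
        ((continuousOn_const.mul (continuousOn_const.sub (hQ 0))).div (hid.pow 2) hy2)).add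
        (continuousOn_const.sub (continuousOn_const.div (continuousOn_const.mul (hQ 0))
          fun y hy => mul_ne_zero two_ne_zero (hq y hy)))
    have hlin : ∀ i, ContinuousOn (fun y => linResidual y (Qg y) (kap i) (Vg y i))
        (Icc (3 / 2 : ℝ) 64) := fun i => by
      unfold linResidual
      exact (((((hid.mul (hV i 3)).add (continuousOn_const.mul (hV i 2))).add
        ((continuousOn_const.mul (hV i 1)).div hid hy0)).sub
        ((continuousOn_const.mul (hV i 0)).div (hid.pow 2) hy2)).add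
        ((hV i 0).div (continuousOn_const.mul ((hQ 0).pow 2))
          fun y hy => mul_ne_zero two_ne_zero (pow_ne_zero 2 (hq y hy)))).sub continuousOn_const
    have hdc : ContinuousOn (fun y => ∑ i, kap i * a y i) (Icc (3 / 2 : ℝ) 64) :=
      continuousOn_finsetSum _ fun i _ => continuousOn_const.mul (hae i)
    have hdel : ContinuousOn (fun y => ∑ i, a y i * Vg y i 0) (Icc (3 / 2 : ℝ) 64) :=
      continuousOn_finsetSum _ fun i _ => (hae i).mul (hV i 0)
    have hph : ContinuousOn (fun y => phc (∑ i, kap i * a y i)) (Icc (3 / 2 : ℝ) 64) := by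
      unfold phc
      exact (hdc.pow 2).div (continuousOn_const.mul (continuousOn_const.add hdc)) fun y hy =>
        mul_ne_zero (by have := ctil_pos; positivity) (hcd y hy)
    have hps : ContinuousOn (fun y => psi (Qg y 0) (∑ i, a y i * Vg y i 0))
        (Icc (3 / 2 : ℝ) 64) := by
      unfold psi
      exact ((hdel.pow 2).div ((continuousOn_const.mul ((hQ 0).pow 2)).mul ((hQ 0).add hdel))
        fun y hy => mul_ne_zero (mul_ne_zero two_ne_zero (pow_ne_zero 2 (hq y hy))) (hqd y hy)).neg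
    have hfor : ContinuousOn (fun y => forcing y (Qg y) (Vg y) (a y)) (Icc (3 / 2 : ℝ) 64) := by
      unfold forcing
      exact ((((hres.add (continuousOn_finsetSum _ fun i _ => (hae i).mul (hlin i))).add hph).add
        hps).neg).div hid hy0
    have hhom : ∀ k, ContinuousOn (fun y => homSol (Vg y) k) (Icc (3 / 2 : ℝ) 64) := fun k => by
      unfold homSol
      exact (hV 1 k).sub (continuousOn_const.mul (hV 3 k))
    have hm : ∀ (f g : Fin 4 → ℝ → ℝ), (∀ k, ContinuousOn (f k) (Icc (3 / 2 : ℝ) 64)) →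
        (∀ k, ContinuousOn (g k) (Icc (3 / 2 : ℝ) 64)) →
        ContinuousOn (fun y => mnr (fun k => f k y) (fun k => g k y)) (Icc (3 / 2 : ℝ) 64) :=
      fun f g hf hg => by unfold mnr; exact ((hf 0).mul (hg 1)).sub ((hg 0).mul (hf 1))
    have m0 := hm (fun k y => homSol (Vg y) k) (fun k y => Vg y 2 k) hhom (hV 2)
    have m1 := hm (fun k y => Vg y 2 k) (fun k y => Vg y 0 k) (hV 2) (hV 0)
    have m2 := hm (fun k y => Vg y 0 k) (fun k y => homSol (Vg y) k) (hV 0) hhom
    have hdet : ContinuousOn (fun y => wronsk (Vg y)) (Icc (3 / 2 : ℝ) 64) := by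
      unfold wronsk
      exact ((m0.mul (hV 0 2)).add (m1.mul (hhom 2))).add (m2.mul (hV 2 2))
    rw [continuousOn_pi]
    intro j
    show ContinuousOn (fun y => coef (Vg y) j * forcing y (Qg y) (Vg y) (a y)) _
    refine ContinuousOn.mul ?_ hfor
    fin_cases j
    · exact m0.div hdet hw
    · exact m1.div hdet hw
    · exact m2.div hdet hw
    · exact continuousOn_const.mul (m1.div hdet hw)
  · obtain ⟨eQ, eV⟩ := onPiece hi hy
    obtain ⟨-, -, hx'⟩ := hS _ _ (nth_ok hi) y hy
    obtain ⟨-, h2, -⟩ := hx' x (fun l => by rw [← cap_eq A B]; exact hx l)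
    show |coef (Vg y) j * forcing y (Qg y) (Vg y) x| ≤ _ / _
    rw [eQ, eV, le_div_iff₀ (by linarith [hlt i hi]), mul_comm]
    exact h2 j
  · obtain ⟨eQ, eV⟩ := onPiece hi hy
    obtain ⟨-, -, hx0⟩ := hS _ _ (nth_ok hi) y hy
    obtain ⟨-, -, h3⟩ := hx0 x (fun l => by rw [← cap_eq A B]; exact hx l)
    show |coef (Vg y) j * forcing y (Qg y) (Vg y) x - coef (Vg y) j * forcing y (Qg y) (Vg y) x'| ≤
      d / 2 * (_ / _)
    rw [eQ, eV, mul_div_assoc', le_div_iff₀ (by linarith [hlt i hi]), mul_comm]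
    exact h3 x' d hd (fun l => by rw [← cap_eq A B]; exact hx' l)
      (fun l => by rw [← cap_eq A B]; exact hxx l) j

/-- The algebra behind the equation of the perturbed solution. -/
theorem ode_algebra {y q0 q1 q2 q3 c d δ0 δ1 δ2 δ3 : ℝ} (hy : y ≠ 0) (hq : q0 ≠ 0)
    (hqd : q0 + δ0 ≠ 0) (hc : c ≠ 0) (hcd : c + d ≠ 0) :
    let S := y * δ3 + 17 * δ2 + 56 * δ1 / y - 56 * δ0 / y ^ 2 + δ0 / (2 * q0 ^ 2) - d / (2 * c ^ 2)
    let r := y * q3 + 17 * q2 + 56 * q1 / y + 56 * (1 - q0) / y ^ 2 + (1 / (2 * c) - 1 / (2 * q0))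
    let f := -(r + S + d ^ 2 / (2 * c ^ 2 * (c + d)) + -(δ0 ^ 2 / (2 * q0 ^ 2 * (q0 + δ0)))) / y
    y * (q3 + δ3 + f) + 17 * (q2 + δ2) + 56 * (q1 + δ1) / y + 56 * (1 - (q0 + δ0)) / y ^ 2
      + (1 / (2 * (c + d)) - 1 / (2 * (q0 + δ0))) = 0 := by
  intro S r f
  have e1 : y * f = -(r + S + d ^ 2 / (2 * c ^ 2 * (c + d)) +
      -(δ0 ^ 2 / (2 * q0 ^ 2 * (q0 + δ0)))) := mul_div_cancel₀ _ hy
  have e2 : 1 / (2 * (c + d)) = 1 / (2 * c) - d / (2 * c ^ 2) + d ^ 2 / (2 * c ^ 2 * (c + d)) := by
    field_simp; ring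
  have e3 : 1 / (2 * (q0 + δ0)) =
      1 / (2 * q0) - δ0 / (2 * q0 ^ 2) + δ0 ^ 2 / (2 * q0 ^ 2 * (q0 + δ0)) := by
    field_simp; ring
  rw [e2, e3]
  linear_combination e1

theorem middle_of_sound (hS : PieceSound) : MiddleTarget := by
  intro A B hB
  have hK := sys_ok A B hS hB
  obtain ⟨a, α, hac, ht, he, hα⟩ := (sys A B).exists_solution (by show 0 < 311; norm_num) hK
  have e0 : (sys A B).t 0 = 3 / 2 := by show (nth 0).pos = _; rw [nth_first, pos_first]
  have e1 : (sys A B).t (sys A B).n = 64 := by show (nth 311).pos = _; rw [nth_last, pos_last]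
  set I := Icc (3 / 2 : ℝ) 64 with hI
  have hL : (3 / 2 : ℝ) ∈ I := ⟨le_rfl, by norm_num⟩
  have hR : (64 : ℝ) ∈ I := ⟨by norm_num, le_rfl⟩
  have hd : ∀ y ∈ I, ∀ j, HasDerivWithinAt (fun z => a z j)
      (coef (Vg y) j * forcing y (Qg y) (Vg y) (a y)) I y := fun y hy j => by
    have := (sys A B).hasDerivWithinAt_solution hK hac ht he (y := y)
      (by rw [e0, e1]; exact hy) j
    rwa [e0, e1] at this
  have hP := fun y (hy : y ∈ I) => tube_point A B hS ht hy
  set F : ℝ → ℝ := fun y => forcing y (Qg y) (Vg y) (a y) with hF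
  set s : Fin 4 → ℝ → ℝ := fun k y => Qg y k + ∑ i, a y i * Vg y i k with hs
  have hterm : ∀ (k : Fin 3), ∀ y ∈ I, HasDerivWithinAt (s k.castSucc)
      (s k.succ y + F y * ∑ i, coef (Vg y) i * Vg y i k.castSucc) I y := by
    intro k y hy
    have hq := glue_deriv_nodes 0 (k := k.val) (by omega) hy
    have hsum := HasDerivWithinAt.fun_sum (u := (Finset.univ : Finset (Fin 4)))
      fun i _ => (hd y hy i).mul (glue_deriv_nodes i.succ (k := k.val) (by omega) hy)
    refine ((hq.add hsum).congr_deriv ?_).congr (fun z _ => ?_) ?_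
    · simp only [hs, hF, Qg, Vg, Fin.val_succ, Fin.val_castSucc, Finset.mul_sum, add_assoc,
        ← Finset.sum_add_distrib]
      congr 1
      exact Finset.sum_congr rfl fun i _ => by ring
    · simp [hs, Qg, Vg]
    · simp [hs, Qg, Vg]
  have hdc : ∀ y ∈ I, HasDerivWithinAt (fun z => ∑ i, kap i * a z i) 0 I y := by
    intro y hy
    refine (HasDerivWithinAt.fun_sum (u := (Finset.univ : Finset (Fin 4)))
      fun i _ => (hd y hy i).const_mul (kap i)).congr_deriv ?_
    calc ∑ i, kap i * (coef (Vg y) i * forcing y (Qg y) (Vg y) (a y))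
        = forcing y (Qg y) (Vg y) (a y) * ∑ i, kap i * coef (Vg y) i := by
          rw [Finset.mul_sum]; exact Finset.sum_congr rfl fun i _ => by ring
      _ = 0 := by rw [coef_kap, mul_zero]
  have hconst : ∀ y ∈ I, (∑ i, kap i * a y i) = ∑ i, kap i * a (3 / 2) i :=
    constant_of_has_deriv_right_zero (fun y hy => (hdc y hy).continuousWithinAt) fun y hy =>
      (hdc y (Ico_subset_Icc_self hy)).mono_of_mem_nhdsWithin
        (mem_of_superset (inter_mem (mem_nhdsWithin_of_mem_nhds (Iio_mem_nhds hy.2))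
          self_mem_nhdsWithin) fun z hz => ⟨hy.1.trans hz.2, (le_of_lt hz.1)⟩)
  have hfin : ∀ j, (j : Fin 4).val < 2 → a 64 j = (B (a (3 / 2)) (a 64) α).1 j := fun j hj => by
    have hj' : Split.isL j := hj
    have := he 64 (by rw [e0, e1]; exact hR) j
    simp only [Split.T, if_pos hj', e0, e1, intervalIntegral.integral_same, sub_zero] at this
    exact this
  have hini : ∀ j, 2 ≤ (j : Fin 4).val → a (3 / 2) j = (B (a (3 / 2)) (a 64) α).1 j := fun j hj => by
    have hj' : ¬ Split.isL j := fun h => absurd (show j.val < 2 from h) (by omega)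
    have := he (3 / 2) (by rw [e0, e1]; exact hL) j
    simp only [Split.T, if_neg hj', e0, e1, intervalIntegral.integral_same, add_zero] at this
    exact this
  have hb0 : ∀ j, |a (3 / 2) j| ≤ nd0.rad j := fun j => by
    have := ht.first j; rw [e0, one_mul] at this; exact this
  have hb1 : ∀ j, |a 64 j| ≤ nd311.rad j := fun j => by
    have := ht.last j; rw [e1, one_mul] at this; exact this
  refine ⟨a (3 / 2), a 64, α, ctil + ∑ i, kap i * a (3 / 2) i, s 0, s 1, s 2,
    fun y => s 3 y + F y, hb0, hb1, fun j => by have h := ht.par j; rw [one_mul] at h; exact h, hini, hfin,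
    by simpa only [sys, nth_first, nth_last, pos_first, pos_last] using hα, rfl,
    by rw [← hconst 64 hR], ?_, ?_, ?_, ?_, ?_, ?_, ?_, ?_, ?_, ?_, ?_, ?_, ?_⟩
  · have := (abs_lt.1 (hP _ hL).2.2.1).1; linarith
  · simp [hs, endData, Qg, Vg, glue_end0]
  · simp [hs, endData, Qg, Vg, glue_end0]
  · simp [hs, endData, Qg, Vg, glue_end0]
  · simp [hs, endData, Qg, Vg, glue_end1]
  · simp [hs, endData, Qg, Vg, glue_end1]
  · simp [hs, endData, Qg, Vg, glue_end1]
  · intro y hy
    have := (abs_lt.1 (hP y hy).2.1).1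
    simp only [hs]; linarith
  · intro y hy
    refine (hterm 0 y hy).congr_deriv ?_
    show s 1 y + F y * ∑ i, coef (Vg y) i * Vg y i 0 = s 1 y
    rw [coef_zero, mul_zero, add_zero]
  · intro y hy
    refine (hterm 1 y hy).congr_deriv ?_
    show s 2 y + F y * ∑ i, coef (Vg y) i * Vg y i 1 = s 2 y
    rw [coef_one, mul_zero, add_zero]
  · intro y hy
    refine (hterm 2 y hy).congr_deriv ?_
    show s 3 y + F y * ∑ i, coef (Vg y) i * Vg y i 2 = s 3 y + F y
    rw [coef_two _ (hP y hy).2.2.2, mul_one]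
  · intro y hy
    obtain ⟨h1, h2, h3, -⟩ := hP y hy
    have hy0 : y ≠ 0 := by linarith [hy.1]
    have hqd : Qg y 0 + ∑ i, a y i * Vg y i 0 ≠ 0 := by
      have := (abs_lt.1 h2).1; intro h0; linarith
    have hcd : ctil + ∑ i, kap i * a y i ≠ 0 := by
      have := (abs_lt.1 h3).1; intro h0; linarith
    rw [← hconst y hy]
    have key := ode_algebra (q1 := Qg y 1) (q2 := Qg y 2) (q3 := Qg y 3)
      (δ1 := ∑ i, a y i * Vg y i 1) (δ2 := ∑ i, a y i * Vg y i 2) (δ3 := ∑ i, a y i * Vg y i 3)
      hy0 h1.ne' hqd ctil_pos.ne' hcd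
    have e : ∑ i, a y i * linResidual y (Qg y) (kap i) (Vg y i) =
        y * (∑ i, a y i * Vg y i 3) + 17 * (∑ i, a y i * Vg y i 2) +
          56 * (∑ i, a y i * Vg y i 1) / y - 56 * (∑ i, a y i * Vg y i 0) / y ^ 2 +
          (∑ i, a y i * Vg y i 0) / (2 * Qg y 0 ^ 2) -
          (∑ i, kap i * a y i) / (2 * ctil ^ 2) := by
      simp only [Fin.sum_univ_four, linResidual]; ring
    simp only [hs, hF, forcing, e, residual, phc, psi]
    linear_combination key
  · have hm : nd43.pos ∈ I := neck_pos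
    have hok := nth_ok (i := 43) (by norm_num)
    rw [nth_neck] at hok
    have hsh : Shape nd43 (nth 44) := shape_of_ok (by
      simp only [okPiece, Bool.and_eq_true] at hok; exact hok.1)
    obtain ⟨eQ, -⟩ := onPiece (i := 43) (y := nd43.pos) (by norm_num)
      (by rw [nth_neck]; exact left_mem_Icc.2 hsh.lt.le)
    have h2 := (abs_lt.1 (hP _ hm).2.1).2
    have hv : Qg nd43.pos 0 ≤ 1 / 20 := by
      rw [eQ, nth_neck]
      show piece nd43 (nth 44) 0 0 nd43.pos ≤ _
      rw [piece_left hsh 0 (by norm_num)]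
      exact neck_val
    refine ⟨nd43.pos, hm, ?_⟩
    show Qg nd43.pos 0 + ∑ i, a nd43.pos i * Vg nd43.pos i 0 ≤ 1 / 10
    linarith

end Vale.Agent.P264.Soliton.Inner
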