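import Mathlib

/-!
Real power series with geometric coefficient bounds: termwise derivatives and smoothness.
-/

namespace Vale.Agent.P264.Soliton.Inner

open Set Filter Topology
open scoped ContDiff

/-- The value of a power series. -/
noncomputable def ser (a : ℕ → ℝ) (y : ℝ) : ℝ := ∑' k, a k * y ^ k

/-- Coefficients of the derivative. -/
def dco (a : ℕ → ℝ) (k : ℕ) : ℝ := ((k : ℝ) + 1) * a (k + 1)

/-- Geometric growth up to a polynomial factor. -/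
def Geo (ρ : ℝ) (a : ℕ → ℝ) : Prop :=
  ∃ B : ℝ, ∃ m : ℕ, 0 ≤ B ∧ ∀ k : ℕ, |a k| ≤ B * ((k : ℝ) + 1) ^ m * ρ ^ k

theorem Geo.dco {ρ : ℝ} (hρ : 0 ≤ ρ) {a : ℕ → ℝ} (h : Geo ρ a) : Geo ρ (dco a) := by
  obtain ⟨B, m, hB, hb⟩ := h
  refine ⟨B * ρ * 2 ^ (m + 1), m + 1, by positivity, fun k => ?_⟩
  unfold Inner.dco
  rw [abs_mul, abs_of_nonneg (by positivity)]
  have h1 := hb (k + 1)
  push_cast at h1
  have h2 : ((k : ℝ) + 1 + 1) ≤ 2 * ((k : ℝ) + 1) := by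
    have := Nat.cast_nonneg (α := ℝ) k; linarith
  calc ((k : ℝ) + 1) * |a (k + 1)| ≤ ((k : ℝ) + 1 + 1) * (B * ((k : ℝ) + 1 + 1) ^ m * ρ ^ (k + 1)) :=
        mul_le_mul (by linarith) h1 (abs_nonneg _) (by positivity)
    _ = B * ρ * ((k : ℝ) + 1 + 1) ^ (m + 1) * ρ ^ k := by ring
    _ ≤ B * ρ * (2 * ((k : ℝ) + 1)) ^ (m + 1) * ρ ^ k := by gcongr
    _ = _ := by rw [mul_pow]; ring

theorem Geo.summable_bound {ρ : ℝ} (hρ : 0 ≤ ρ) {x : ℝ} (hx : ρ * |x| < 1) (B : ℝ) (m : ℕ) :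
    Summable fun k : ℕ => B * ((k : ℝ) + 1) ^ m * (ρ * |x|) ^ k := by
  have hn : ‖ρ * |x|‖ < 1 := by rwa [Real.norm_eq_abs, abs_of_nonneg (by positivity)]
  have hs : ∀ j : ℕ, Summable fun k : ℕ => (k : ℝ) ^ j * (ρ * |x|) ^ k := fun j =>
    summable_pow_mul_geometric_of_norm_lt_one j hn
  have h2 : Summable fun k : ℕ => |B| * 2 ^ m * ((k : ℝ) ^ m * (ρ * |x|) ^ k + (ρ * |x|) ^ k) :=
    ((hs m).add ((hs 0).congr fun k => by simp)).mul_left _
  refine h2.of_norm_bounded fun k => ?_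
  rw [Real.norm_eq_abs, abs_mul, abs_mul, abs_of_nonneg (pow_nonneg (mul_nonneg hρ (abs_nonneg x)) k),
    abs_of_nonneg (by positivity : (0:ℝ) ≤ ((k : ℝ) + 1) ^ m)]
  have : ((k : ℝ) + 1) ^ m ≤ 2 ^ m * ((k : ℝ) ^ m + 1) := by
    rcases Nat.eq_zero_or_pos k with h0 | h0
    · subst h0
      have h1 : (1:ℝ) ≤ 2 ^ m := one_le_pow₀ (by norm_num)
      have h2 : (0:ℝ) ≤ (0:ℝ) ^ m := by positivity
      have h3 := mul_le_mul h1 (le_add_of_nonneg_left h2) zero_le_one (by positivity)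
      simpa using h3
    · have hk : (1 : ℝ) ≤ k := by exact_mod_cast h0
      calc ((k : ℝ) + 1) ^ m ≤ (2 * (k : ℝ)) ^ m := by gcongr; linarith
        _ = 2 ^ m * (k : ℝ) ^ m := mul_pow _ _ _
        _ ≤ _ := by gcongr; linarith
  calc |B| * ((k : ℝ) + 1) ^ m * (ρ * |x|) ^ k
      ≤ |B| * (2 ^ m * ((k : ℝ) ^ m + 1)) * (ρ * |x|) ^ k := by gcongr
    _ = _ := by ring

theorem Geo.summable_norm {ρ : ℝ} (hρ : 0 ≤ ρ) {a : ℕ → ℝ} (h : Geo ρ a) {y : ℝ}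
    (hy : ρ * |y| < 1) : Summable fun k => ‖a k * y ^ k‖ := by
  obtain ⟨B, m, hB, hb⟩ := h
  refine Summable.of_nonneg_of_le (fun k => norm_nonneg _) (fun k => ?_)
    (Geo.summable_bound hρ hy B m)
  rw [Real.norm_eq_abs, abs_mul, abs_pow, mul_pow]
  calc |a k| * |y| ^ k ≤ (B * ((k : ℝ) + 1) ^ m * ρ ^ k) * |y| ^ k :=
        mul_le_mul_of_nonneg_right (hb k) (by positivity)
    _ = _ := by ring

theorem Geo.summable {ρ : ℝ} (hρ : 0 ≤ ρ) {a : ℕ → ℝ} (h : Geo ρ a) {y : ℝ}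
    (hy : ρ * |y| < 1) : Summable fun k => a k * y ^ k :=
  (h.summable_norm hρ hy).of_norm

theorem hasDerivAt_ser {ρ : ℝ} (hρ : 0 ≤ ρ) {a : ℕ → ℝ} (h : Geo ρ a) {y : ℝ}
    (hy : ρ * |y| < 1) : HasDerivAt (ser a) (ser (dco a) y) y := by
  obtain ⟨r, hr, hr'⟩ : ∃ r, |y| < r ∧ ρ * r < 1 := by
    rcases hρ.eq_or_lt with h0 | h0
    · exact ⟨|y| + 1, by linarith, by rw [← h0]; simp⟩
    · obtain ⟨r, h1, h2⟩ := exists_between (show |y| < 1 / ρ by
        rw [lt_div_iff₀ h0, mul_comm]; exact hy)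
      exact ⟨r, h1, by rw [lt_div_iff₀ h0] at h2; linarith⟩
  have hr0 : 0 ≤ r := (abs_nonneg y).trans hr.le
  have hd := h.dco hρ
  obtain ⟨B, m, hB, hb⟩ := hd
  let g : ℕ → ℝ → ℝ := fun k z => a (k + 1) * z ^ (k + 1)
  let g' : ℕ → ℝ → ℝ := fun k z => Inner.dco a k * z ^ k
  have hu := Geo.summable_bound hρ (x := r) (by rwa [abs_of_nonneg hr0]) B m
  rw [abs_of_nonneg hr0] at hu
  have key := hasDerivAt_tsum_of_isPreconnected (g := g) (g' := g') (y₀ := 0) (y := y) hu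
    (isOpen_Ioo (a := -r) (b := r)) (convex_Ioo _ _).isPreconnected
    (fun k z _ => by
      have := (hasDerivAt_pow (k + 1) z).const_mul (a (k + 1))
      refine this.congr_deriv ?_
      simp only [g', Inner.dco, add_tsub_cancel_right]; push_cast; ring)
    (fun k z hz => by
      rw [Real.norm_eq_abs]
      simp only [g', abs_mul, abs_pow]
      calc |Inner.dco a k| * |z| ^ k ≤ (B * ((k : ℝ) + 1) ^ m * ρ ^ k) * r ^ k := by
            refine mul_le_mul (hb k) (pow_le_pow_left₀ (abs_nonneg _) ?_ _) (by positivity)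
              (by positivity)
            exact (abs_lt.2 hz).le
        _ = _ := by rw [mul_pow]; ring)
    (⟨by linarith [abs_nonneg y], by linarith [abs_nonneg y]⟩)
    (summable_zero.congr fun k => by simp [g]) (abs_lt.1 hr)
  refine (key.const_add (a 0)).congr_of_eventuallyEq ?_
  filter_upwards [(isOpen_Ioo (a := -r) (b := r)).mem_nhds (abs_lt.1 hr)] with z hz
  have hz' : ρ * |z| < 1 :=
    lt_of_le_of_lt (mul_le_mul_of_nonneg_left (abs_lt.2 hz).le hρ) hr'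
  unfold ser
  rw [(h.summable hρ hz').tsum_eq_zero_add]
  simp [g]

theorem isOpen_disc (ρ : ℝ) : IsOpen {y : ℝ | ρ * |y| < 1} :=
  isOpen_lt (by fun_prop) continuous_const

theorem contDiffOn_ser {ρ : ℝ} (hρ : 0 ≤ ρ) :
    ∀ {a : ℕ → ℝ}, Geo ρ a → ContDiffOn ℝ ∞ (ser a) {y : ℝ | ρ * |y| < 1} := by
  suffices H : ∀ n : ℕ, ∀ a : ℕ → ℝ, Geo ρ a →
      ContDiffOn ℝ n (ser a) {y : ℝ | ρ * |y| < 1} by
    exact fun {a} h => contDiffOn_infty.2 fun n => H n a h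
  intro n
  induction n with
  | zero =>
    intro a h
    rw [Nat.cast_zero, contDiffOn_zero]
    exact fun y hy => (hasDerivAt_ser hρ h hy).continuousAt.continuousWithinAt
  | succ n ih =>
    intro a h
    rw [show ((n + 1 : ℕ) : WithTop ℕ∞) = (n : WithTop ℕ∞) + 1 by norm_num,
      contDiffOn_succ_iff_deriv_of_isOpen (isOpen_disc ρ)]
    refine ⟨fun y hy => (hasDerivAt_ser hρ h hy).differentiableAt.differentiableWithinAt,
      fun hw => absurd hw (by simp), ?_⟩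
    exact (ih (dco a) (h.dco hρ)).congr fun y hy => (hasDerivAt_ser hρ h hy).deriv

theorem ser_mul_id {ρ : ℝ} (hρ : 0 ≤ ρ) {a : ℕ → ℝ} (h : Geo ρ a) {y : ℝ} (hy : ρ * |y| < 1) :
    y * ser (dco a) y = ser (fun k => (k : ℝ) * a k) y := by
  unfold ser
  have h1 : Summable fun k : ℕ => ((k + 1 : ℕ) : ℝ) * a (k + 1) * y ^ (k + 1) := by
    refine (((h.dco hρ).summable hρ hy).mul_left y).congr fun k => ?_
    unfold dco; push_cast; ring
  have h2 : Summable fun k : ℕ => (k : ℝ) * a k * y ^ k :=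
    (summable_nat_add_iff (f := fun k : ℕ => (k : ℝ) * a k * y ^ k) 1).1 h1
  rw [h2.tsum_eq_zero_add, ← tsum_mul_left]
  simp only [Nat.cast_zero, zero_mul, zero_add]
  exact tsum_congr fun k => by unfold dco; push_cast; ring

theorem Geo.mul_nat {ρ : ℝ} (hρ : 0 ≤ ρ) {a : ℕ → ℝ} (h : Geo ρ a) :
    Geo ρ (fun k => (k : ℝ) * a k) := by
  obtain ⟨B, m, hB, hb⟩ := h
  refine ⟨B, m + 1, hB, fun k => ?_⟩
  rw [abs_mul, Nat.abs_cast]
  calc (k : ℝ) * |a k| ≤ ((k : ℝ) + 1) * (B * ((k : ℝ) + 1) ^ m * ρ ^ k) :=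
        mul_le_mul (by linarith) (hb k) (abs_nonneg _) (by positivity)
    _ = _ := by ring

theorem Geo.shift {ρ : ℝ} (hρ : 0 ≤ ρ) {a : ℕ → ℝ} (h : Geo ρ a) :
    Geo ρ (fun k => a (k + 1)) := by
  obtain ⟨B, m, hB, hb⟩ := h.dco hρ
  refine ⟨B, m, hB, fun k => le_trans ?_ (hb k)⟩
  unfold Inner.dco
  rw [abs_mul, abs_of_nonneg (by positivity : (0:ℝ) ≤ (k : ℝ) + 1)]
  exact le_mul_of_one_le_left (abs_nonneg _) (by linarith [Nat.cast_nonneg (α := ℝ) k])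

/-- A bound for a tail of the series. -/
theorem tail_le {a : ℕ → ℝ} {y x C : ℝ} (hx0 : 0 ≤ x) (hx : x < 1) (N : ℕ)
    (hs : Summable fun k => a k * y ^ k)
    (hb : ∀ k, |a (k + N) * y ^ (k + N)| ≤ C * x ^ k) :
    |ser a y - ∑ k ∈ Finset.range N, a k * y ^ k| ≤ C / (1 - x) := by
  unfold ser
  rw [← hs.sum_add_tsum_nat_add N, add_sub_cancel_left]
  have hg : Summable fun k : ℕ => C * x ^ k := (summable_geometric_of_lt_one hx0 hx).mul_left C
  rw [← Real.norm_eq_abs]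
  refine (tsum_of_norm_bounded (g := fun k => C * x ^ k) hg.hasSum fun k => ?_).trans (le_of_eq ?_)
  · rw [Real.norm_eq_abs]; exact hb k
  · rw [tsum_mul_left, tsum_geometric_of_lt_one hx0 hx, div_eq_mul_inv]

end Vale.Agent.P264.Soliton.Inner
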