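import Vale.Agent.P264.Soliton.Inner.SeriesCoef
import Vale.Agent.P264.Soliton.Inner.Ser
import Vale.Agent.P264.Soliton.Inner.LeftDefs

/-!
The series family at the origin: it solves the shrinker equation on `(0, 2)` and has the certified
data at `3/2`.
-/

namespace Vale.Agent.P264.Soliton.Inner.Series

open Finset Filter Topology
open scoped ContDiff

theorem scale_pos : (0:ℝ) < scale := by simp [scale]

theorem scale_one : Mem (scale : ℝ) 1 ((scale : Int), (scale : Int)) := by simp [Mem]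

theorem box_main : chkMain boxTabA boxTabR = true := by decide +kernel
theorem centre_main : chkMain centreTabA centreTabR = true := by decide +kernel
theorem du_lin : chkLin duTabA duTabR boxTabA boxTabR = true := by decide +kernel
theorem dv_lin : chkLin dvTabA dvTabR boxTabA boxTabR = true := by decide +kernel
theorem box_rho : msum wRho boxTabA depth * 1000 ≤ 914 * scale * 19 ^ depth := by decide +kernel
theorem box_sig : msum wSig boxTabA depth * 1000 ≤ 763 * scale * 9 ^ depth := by decide +kernel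
theorem du_sig : msum wSig duTabA depth * 10 ≤ 51 * scale * 9 ^ depth := by decide +kernel
theorem dv_sig : msum wSig dvTabA depth * 10 ≤ 51 * scale * 9 ^ depth := by decide +kernel

/-- The first parameter of the family. -/
noncomputable def px (p : ℝ × ℝ) : ℝ := G0 + p.1

/-- The second parameter of the family. -/
noncomputable def py (p : ℝ × ℝ) : ℝ := G1 + p.2

theorem mem_of_rat {x : ℝ} {lo hi : Int} {n m : Int} {d : ℕ} (hd : 0 < d)
    (h1 : (n : ℝ) / d ≤ x) (h2 : x ≤ (m : ℝ) / d)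
    (h : lo * (d : Int) ≤ n * (scale : Int) ∧ m * (scale : Int) ≤ hi * (d : Int)) :
    Mem (scale : ℝ) x (lo, hi) := by
  have hdR : (0:ℝ) < d := by exact_mod_cast hd
  have hS := scale_pos
  have e1 : (lo : ℝ) * d ≤ (n : ℝ) * scale := by exact_mod_cast h.1
  have e2 : (m : ℝ) * scale ≤ (hi : ℝ) * d := by exact_mod_cast h.2
  rw [div_le_iff₀ hdR] at h1
  rw [le_div_iff₀ hdR] at h2
  constructor <;> refine le_of_mul_le_mul_right ?_ hdR <;> nlinarith

theorem box_mem {p : ℝ × ℝ} (hp : p ∈ pSet) :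
    (∀ k, k < depth → Mem (scale : ℝ) (aco (px p) (py p) k) (get boxTabA k)) ∧
      (∀ m, m < depth - 1 → Mem (scale : ℝ) (rco (px p) (py p) m) (get boxTabR m)) := by
  obtain ⟨h1, h2⟩ := hp
  rw [abs_le] at h1 h2
  refine main_mem box_main (by decide +kernel) ?_ ?_
  · exact mem_of_rat (n := 335327670288442897 - 250000000000) (m := 335327670288442897 + 250000000000)
      (d := 10 ^ 18) (by norm_num) (by simp [px, G0]; linarith [h1.1]) (by simp [px, G0]; linarith [h1.2])
      (by decide +kernel)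
  · exact mem_of_rat (n := 60280401746544981 - 40000000000000) (m := 60280401746544981 + 40000000000000)
      (d := 10 ^ 22) (by norm_num) (by simp [py, G1]; linarith [h2.1]) (by simp [py, G1]; linarith [h2.2])
      (by decide +kernel)

theorem centre_mem :
    ∀ k, k < depth → Mem (scale : ℝ) (aco (px (0, 0)) (py (0, 0)) k) (get centreTabA k) := by
  refine (main_mem centre_main (by decide +kernel) ?_ ?_).1
  · exact mem_of_rat (n := 335327670288442897) (m := 335327670288442897) (d := 10 ^ 18) (by norm_num)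
      (by simp [px, G0]) (by simp [px, G0]) (by decide +kernel)
  · exact mem_of_rat (n := 60280401746544981) (m := 60280401746544981) (d := 10 ^ 22) (by norm_num)
      (by simp [py, G1]) (by simp [py, G1]) (by decide +kernel)

theorem head_rho {f : ℕ → ℝ} {A : List (Int × Int)} {N D : ℕ} (hD : 0 < D)
    (hb : msum wRho A depth * D ≤ N * scale * 19 ^ depth)
    (hf : ∀ k, k < depth → Mem (scale : ℝ) (f k) (get A k)) :
    ∑ i ∈ range depth, |f i| / (19 / 50 : ℝ) ^ (i + 1) ≤ (N : ℝ) / D := by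
  have h := msum_sound (w := wRho) scale_pos depth hf
  have hb' : (msum wRho A depth : ℝ) * D ≤ (N : ℝ) * scale * 19 ^ depth := by exact_mod_cast hb
  have hDR : (0:ℝ) < D := by exact_mod_cast hD
  have e : (∑ i ∈ range depth, |f i| / (19 / 50 : ℝ) ^ (i + 1)) * 19 ^ depth
      = ∑ i ∈ range depth, (wRho i : ℝ) * |f i| := by
    rw [sum_mul]
    refine sum_congr rfl fun i hi => ?_
    have hi' := mem_range.1 hi
    have : (19:ℝ) ^ depth = 19 ^ (i + 1) * 19 ^ (depth - 1 - i) := by
      rw [← pow_add]; congr 1; omega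
    rw [this, wRho, div_pow]
    push_cast
    field_simp
  rw [← e] at h
  rw [le_div_iff₀ hDR]
  have hpos : (0:ℝ) < 19 ^ depth * scale := mul_pos (by positivity) scale_pos
  refine le_of_mul_le_mul_right ?_ hpos
  nlinarith [mul_le_mul_of_nonneg_right h hDR.le]

theorem head_sig {f : ℕ → ℝ} {A : List (Int × Int)} {N D : ℕ} (hD : 0 < D)
    (hb : msum wSig A depth * D ≤ N * scale * 9 ^ depth)
    (hf : ∀ k, k < depth → Mem (scale : ℝ) (f k) (get A k)) :
    ∑ i ∈ range depth, |f i| / (9 / 20 : ℝ) ^ (i + 1) ≤ (N : ℝ) / D := by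
  have h := msum_sound (w := wSig) scale_pos depth hf
  have hb' : (msum wSig A depth : ℝ) * D ≤ (N : ℝ) * scale * 9 ^ depth := by exact_mod_cast hb
  have hDR : (0:ℝ) < D := by exact_mod_cast hD
  have e : (∑ i ∈ range depth, |f i| / (9 / 20 : ℝ) ^ (i + 1)) * 9 ^ depth
      = ∑ i ∈ range depth, (wSig i : ℝ) * |f i| := by
    rw [sum_mul]
    refine sum_congr rfl fun i hi => ?_
    have hi' := mem_range.1 hi
    have : (9:ℝ) ^ depth = 9 ^ (i + 1) * 9 ^ (depth - 1 - i) := by
      rw [← pow_add]; congr 1; omega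
    rw [this, wSig, div_pow]
    push_cast
    field_simp
  rw [← e] at h
  rw [le_div_iff₀ hDR]
  have hpos : (0:ℝ) < 9 ^ depth * scale := mul_pos (by positivity) scale_pos
  refine le_of_mul_le_mul_right ?_ hpos
  nlinarith [mul_le_mul_of_nonneg_right h hDR.le]

theorem a_bound {p : ℝ × ℝ} (hp : p ∈ pSet) :
    (∀ m, |rco (px p) (py p) m| ≤ (19 / 50 : ℝ) ^ m) ∧
      ∀ n, ∑ i ∈ range n, |aco (px p) (py p) i| / (19 / 50 : ℝ) ^ (i + 1) ≤ 1 :=
  rco_le (by norm_num) (head_rho (N := 914) (D := 1000) (by norm_num) box_rho (box_mem hp).1)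
    (by norm_num [depth])

theorem a_tail {p : ℝ × ℝ} (hp : p ∈ pSet) {i : ℕ} (hi : 2 ≤ i) :
    |aco (px p) (py p) i| ≤ 1 * (19 / 50 : ℝ) ^ (i - 1) / (den i : ℝ) :=
  aco_abs_of (a_bound hp).1 hi

theorem a_sig {p : ℝ × ℝ} (hp : p ∈ pSet) (n : ℕ) :
    ∑ i ∈ range n, |aco (px p) (py p) i| / (9 / 20 : ℝ) ^ (i + 1)
      ≤ 763 / 1000 + 1 / (2 * (9 / 20 : ℝ) ^ 2 * (depth : ℝ) ^ 2) := by
  have h := head_sig (N := 763) (D := 1000) (by norm_num) box_sig (box_mem hp).1
  refine wsum_bound (by norm_num) zero_le_one (by exact_mod_cast h) fun i h1 _ => ?_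
  refine (a_tail hp ((by decide : 2 ≤ depth).trans h1)).trans ?_
  exact div_le_div_of_nonneg_right (mul_le_mul_of_nonneg_left
    (pow_le_pow_left₀ (by norm_num) (by norm_num) _) zero_le_one) (Nat.cast_nonneg _)

theorem lin_bound {p p' : ℝ × ℝ} (hp : p ∈ pSet) (hp' : p' ∈ pSet) {x y : ℝ}
    {A R : List (Int × Int)} (hc : chkLin A R boxTabA boxTabR = true) (hR0 : get R 0 = (0, 0))
    (hs : msum wSig A depth * 10 ≤ 51 * scale * 9 ^ depth)
    (hx : Mem (scale : ℝ) x (get A 0)) (hy : Mem (scale : ℝ) y (get A 1)) :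
    (∀ k, k < depth → Mem (scale : ℝ) (la (aco (px p) (py p)) (rco (px p') (py p')) x y k) (get A k)) ∧
      ∀ i, 2 ≤ i → |la (aco (px p) (py p)) (rco (px p') (py p')) x y i|
        ≤ 22 * (9 / 20 : ℝ) ^ (i - 1) / (den i : ℝ) := by
  have hm := lin_mem hc hR0 (box_mem hp).1 (box_mem hp').2 hx hy
  exact ⟨hm, (lr_le (ρ := 19 / 50) (σ := 9 / 20) (H := 51 / 10) (by norm_num) (by norm_num) (by norm_num)
    (by norm_num) (a_bound hp').1 (a_sig hp)
    (by exact_mod_cast head_sig (N := 51) (D := 10) (by norm_num) hs hm)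
    (by norm_num [depth])).2⟩

/-- The weights of the value and the two derivatives at `3/2`. -/
noncomputable def wy : Fin 3 → ℕ → ℝ
  | 0, k => (3 / 2) ^ (k + 1)
  | 1, k => ((k : ℝ) + 1) * (3 / 2) ^ k
  | 2, k => ((k : ℝ) + 1) * k * (3 / 2) ^ (k - 1)

/-- The functionals. -/
noncomputable def phi (i : Fin 3) (f : ℕ → ℝ) : ℝ := ∑' k, f k * wy i k

theorem wt_eq (i : Fin 3) {k : ℕ} (hk : k < depth) :
    (wt i k : ℝ) = 2 ^ (depth + 1) * wy i k := by
  fin_cases i
  · simp only [wt, wy, Nat.cast_mul, Nat.cast_pow, Nat.cast_ofNat, div_pow]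
    have : (2:ℝ) ^ (depth + 1) = 2 ^ (k + 1) * 2 ^ (depth - k) := by rw [← pow_add]; congr 1; omega
    rw [this]; field_simp
  · simp only [wt, wy, Nat.cast_mul, Nat.cast_pow, Nat.cast_ofNat, div_pow, Nat.cast_add, Nat.cast_one]
    have : (2:ℝ) ^ (depth + 1) = 2 ^ k * 2 ^ (depth + 1 - k) := by rw [← pow_add]; congr 1; omega
    rw [this]; field_simp
  · match k with
    | 0 => simp [wt, wy]
    | j + 1 =>
      simp only [wt, wy, Nat.cast_mul, Nat.cast_pow, Nat.cast_ofNat, div_pow, Nat.cast_add,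
        Nat.cast_one, add_tsub_cancel_right]
      have : (2:ℝ) ^ (depth + 1) = 2 ^ j * 2 ^ (depth + 2 - (j + 1)) := by
        rw [← pow_add]; congr 1; omega
      rw [this]; field_simp

theorem wy_le (i : Fin 3) {k : ℕ} (hk : 2 ≤ k) :
    0 ≤ wy i k ∧ wy i k ≤ ((k : ℝ) + 1) * k * (3 / 2) ^ (k - 1) := by
  obtain ⟨j, rfl⟩ : ∃ j, k = j + 2 := ⟨k - 2, by omega⟩
  have hj : (0:ℝ) ≤ j := Nat.cast_nonneg j
  have hp : (0:ℝ) < (3 / 2) ^ (j + 1) := by positivity
  fin_cases i <;> simp only [wy, show j + 2 - 1 = j + 1 by omega] <;> push_cast <;>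
    refine ⟨by positivity, ?_⟩
  · rw [show j + 2 + 1 = (j + 1) + 2 by omega, pow_add]
    nlinarith [mul_le_mul_of_nonneg_left
      (show (3 / 2 : ℝ) ^ 2 ≤ ((j : ℝ) + 2 + 1) * ((j : ℝ) + 2) by nlinarith) hp.le]
  · rw [show j + 2 = (j + 1) + 1 by omega, pow_succ]
    nlinarith [mul_le_mul_of_nonneg_left (show (3 / 2 : ℝ) * ((j : ℝ) + 2 + 1)
      ≤ ((j : ℝ) + 2 + 1) * ((j : ℝ) + 2) by nlinarith) hp.le]
  · exact le_rfl

theorem phi_term {f : ℕ → ℝ} {B w : ℝ} (hw : 0 ≤ w)
    (hf : ∀ k, 2 ≤ k → |f k| ≤ B * w ^ (k - 1) / (den k : ℝ)) (i : Fin 3) (k : ℕ) :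
    |f (k + depth) * wy i (k + depth)|
      ≤ B / 80 * (w * (3 / 2)) ^ (depth - 1) * (w * (3 / 2)) ^ k := by
  set n := k + depth with hn
  have hd : depth = 40 := rfl
  have hn2 : 2 ≤ n := by omega
  have hb := hf n hn2
  obtain ⟨h0, h1⟩ := wy_le i hn2
  have hden := den_pos (show 1 ≤ n by omega)
  have hB : 0 ≤ B * w ^ (n - 1) := by
    have := (abs_nonneg _).trans hb
    rwa [le_div_iff₀ hden, zero_mul] at this
  have hratio : ((n : ℝ) + 1) * n / (den n : ℝ) ≤ 1 / 80 := by
    rw [div_le_div_iff₀ hden (by norm_num)]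
    have h40 : (40:ℝ) ≤ n := by
      have : 40 ≤ n := by omega
      exact_mod_cast this
    simp only [den, Nat.cast_mul, Nat.cast_ofNat, Nat.cast_add]
    nlinarith [mul_nonneg (mul_nonneg (by linarith : (0:ℝ) ≤ n) (by linarith : (0:ℝ) ≤ n))
      (by linarith : (0:ℝ) ≤ (n : ℝ) - 40)]
  have e : w ^ (n - 1) * (3 / 2) ^ (n - 1) = (w * (3 / 2)) ^ (depth - 1) * (w * (3 / 2)) ^ k := by
    rw [← mul_pow, ← pow_add]; congr 1; omega
  rw [abs_mul, abs_of_nonneg h0]
  calc |f n| * wy i n ≤ B * w ^ (n - 1) / (den n : ℝ) * (((n : ℝ) + 1) * n * (3 / 2) ^ (n - 1)) :=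
        mul_le_mul hb h1 h0 (by positivity)
    _ = (B * w ^ (n - 1)) * (3 / 2) ^ (n - 1) * (((n : ℝ) + 1) * n / (den n : ℝ)) := by ring
    _ ≤ (B * w ^ (n - 1)) * (3 / 2) ^ (n - 1) * (1 / 80) :=
        mul_le_mul_of_nonneg_left hratio (by positivity)
    _ = B / 80 * (w ^ (n - 1) * (3 / 2) ^ (n - 1)) := by ring
    _ = _ := by rw [e]; ring

theorem phi_summable {f : ℕ → ℝ} {B w : ℝ} (hw : 0 ≤ w) (hw1 : w * (3 / 2) < 1)
    (hf : ∀ k, 2 ≤ k → |f k| ≤ B * w ^ (k - 1) / (den k : ℝ)) (i : Fin 3) :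
    Summable fun k => f k * wy i k := by
  refine (summable_nat_add_iff depth).1 ?_
  refine ((summable_geometric_of_lt_one (by positivity) hw1).mul_left
    (B / 80 * (w * (3 / 2)) ^ (depth - 1))).of_norm_bounded fun k => ?_
  rw [Real.norm_eq_abs]
  exact phi_term hw hf i k

/-- A tabulated functional. -/
theorem phi_within {f : ℕ → ℝ} {B w : ℝ} (hw : 0 ≤ w) (hw1 : w * (3 / 2) < 1)
    (hf : ∀ k, 2 ≤ k → |f k| ≤ B * w ^ (k - 1) / (den k : ℝ)) {i : Fin 3} {A : List (Int × Int)}
    {c z : Int} {d e1 e2 : ℕ} (hd : 0 < d) (he : 0 < e2) (h : within i A c z d e1 e2 = true)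
    (hm : ∀ k, k < depth → Mem (scale : ℝ) (f k) (get A k)) :
    |(c : ℝ) - phi i f - (z : ℝ) / d|
      ≤ (e1 : ℝ) / e2 + B / 80 * (w * (3 / 2)) ^ (depth - 1) / (1 - w * (3 / 2)) := by
  have h1 := within_sound hd he h hm
  have e : (∑ k ∈ range depth, (wt i k : ℝ) * f k) / 2 ^ (depth + 1)
      = ∑ k ∈ range depth, f k * wy i k := by
    rw [sum_div]
    refine sum_congr rfl fun k hk => ?_
    rw [wt_eq i (mem_range.1 hk)]
    field_simp
  rw [e] at h1
  have h2 : |phi i f - ∑ k ∈ range depth, f k * wy i k|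
      ≤ B / 80 * (w * (3 / 2)) ^ (depth - 1) / (1 - w * (3 / 2)) := by
    have := tail_le (a := fun k => f k * wy i k) (y := 1) (x := w * (3 / 2))
      (C := B / 80 * (w * (3 / 2)) ^ (depth - 1)) (by positivity) hw1 depth
      ((phi_summable hw hw1 hf i).congr fun k => by simp)
      (fun k => by simpa using phi_term hw hf i k)
    simpa [ser, phi] using this
  calc |(c : ℝ) - phi i f - (z : ℝ) / d|
      = |((c : ℝ) - (∑ k ∈ range depth, f k * wy i k) - (z : ℝ) / d)
          - (phi i f - ∑ k ∈ range depth, f k * wy i k)| := by congr 1; ring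
    _ ≤ _ := (abs_sub _ _).trans (add_le_add h1 h2)

/-- The series. -/
noncomputable def gs (p : ℝ × ℝ) : ℝ → ℝ := ser (aco (px p) (py p))

theorem a_geo {p : ℝ × ℝ} (hp : p ∈ pSet) : Geo (19 / 50) (aco (px p) (py p)) := by
  refine ⟨1, 0, zero_le_one, fun k => ?_⟩
  have h1 : |aco (px p) (py p) k| / (19 / 50 : ℝ) ^ (k + 1) ≤ 1 :=
    (single_le_sum (f := fun i => |aco (px p) (py p) i| / (19 / 50 : ℝ) ^ (i + 1))
      (fun i _ => by positivity) (self_mem_range_succ k)).trans ((a_bound hp).2 (k + 1))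
  rw [div_le_one (by positivity)] at h1
  refine h1.trans ?_
  rw [pow_succ]
  simpa using mul_le_of_le_one_right (by positivity) (by norm_num)

theorem r_geo {p : ℝ × ℝ} (hp : p ∈ pSet) : Geo (19 / 50) (rco (px p) (py p)) :=
  ⟨1, 0, zero_le_one, fun k => by simpa using (a_bound hp).1 k⟩

theorem q_pos {p : ℝ × ℝ} (hp : p ∈ pSet) {y : ℝ} (hy : (19 / 50 : ℝ) * |y| < 1) :
    0 < 1 - y * gs p y := by
  have hs := (a_geo hp).summable_norm (by norm_num) hy
  have h1 : |gs p y| ≤ ∑' k, ‖aco (px p) (py p) k * y ^ k‖ := by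
    rw [← Real.norm_eq_abs]; exact norm_tsum_le_tsum_norm hs
  have h2 : |y| * ∑' k, ‖aco (px p) (py p) k * y ^ k‖ ≤ (19 / 50 : ℝ) * |y| := by
    rw [← tsum_mul_left]
    refine Real.tsum_le_of_sum_range_le (fun k => by positivity) fun n => ?_
    calc ∑ k ∈ range n, |y| * ‖aco (px p) (py p) k * y ^ k‖
        ≤ ∑ k ∈ range n, (19 / 50 : ℝ) * |y| * (|aco (px p) (py p) k| / (19 / 50 : ℝ) ^ (k + 1)) := by
          refine sum_le_sum fun k _ => ?_
          rw [Real.norm_eq_abs, abs_mul, abs_pow]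
          have e : (19 / 50 : ℝ) * |y| * (|aco (px p) (py p) k| / (19 / 50 : ℝ) ^ (k + 1))
              = |y| * (|aco (px p) (py p) k| * (1 / (19 / 50 : ℝ)) ^ k) := by
            rw [pow_succ, one_div (19 / 50 : ℝ), inv_pow]; field_simp
          rw [e]
          gcongr
          rw [le_div_iff₀ (by norm_num : (0:ℝ) < 19 / 50)]
          linarith
      _ ≤ (19 / 50 : ℝ) * |y| * 1 := by
          rw [← mul_sum]; exact mul_le_mul_of_nonneg_left ((a_bound hp).2 n) (by positivity)
      _ = _ := mul_one _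
  have : |y * gs p y| < 1 := by
    rw [abs_mul]
    exact ((mul_le_mul_of_nonneg_left h1 (abs_nonneg y)).trans h2).trans_lt hy
  linarith [(abs_lt.1 this).2]

theorem recip {p : ℝ × ℝ} (hp : p ∈ pSet) {y : ℝ} (hy : (19 / 50 : ℝ) * |y| < 1) :
    ser (rco (px p) (py p)) y = 1 / (1 - y * gs p y) := by
  have ha := (a_geo hp).summable_norm (by norm_num) hy
  have hr := (r_geo hp).summable_norm (by norm_num) hy
  have hc : gs p y * ser (rco (px p) (py p)) y = ∑' n, rco (px p) (py p) (n + 1) * y ^ n := by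
    unfold gs ser
    rw [tsum_mul_tsum_eq_tsum_sum_range_of_summable_norm ha hr]
    refine tsum_congr fun n => ?_
    rw [rco_succ, sum_mul]
    refine sum_congr rfl fun i hi => ?_
    have := mem_range.1 hi
    have e : y ^ n = y ^ i * y ^ (n - i) := by rw [← pow_add]; congr 1; omega
    rw [e]; ring
  have hs : Summable fun n => rco (px p) (py p) n * y ^ n := hr.of_norm
  have h0 : ser (rco (px p) (py p)) y = 1 + y * ∑' n, rco (px p) (py p) (n + 1) * y ^ n := by
    unfold ser
    rw [hs.tsum_eq_zero_add, rco_zero, ← tsum_mul_left]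
    simp [pow_succ']
    exact tsum_congr fun n => by ring
  rw [← hc] at h0
  rw [eq_div_iff (q_pos hp hy).ne']
  linear_combination h0

/-- The first three derivatives of `1 - y g`. -/
theorem q_derivs {p : ℝ × ℝ} (hp : p ∈ pSet) {y : ℝ} (hy : (19 / 50 : ℝ) * |y| < 1) :
    deriv (fun z => 1 - z * gs p z) y
        = -(gs p y + y * ser (dco (aco (px p) (py p))) y) ∧
      deriv (deriv (fun z => 1 - z * gs p z)) y
        = -(2 * ser (dco (aco (px p) (py p))) y + y * ser (dco (dco (aco (px p) (py p)))) y) ∧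
      deriv (deriv (deriv (fun z => 1 - z * gs p z))) y
        = -(3 * ser (dco (dco (aco (px p) (py p)))) y
            + y * ser (dco (dco (dco (aco (px p) (py p))))) y) := by
  have h0 := a_geo hp
  set a := aco (px p) (py p) with hadef
  have hρ : (0:ℝ) ≤ 19 / 50 := by norm_num
  have g0 : ∀ z : ℝ, (19 / 50 : ℝ) * |z| < 1 → HasDerivAt (fun z => 1 - z * gs p z)
      (-(gs p z + z * ser (dco a) z)) z := fun z hz =>
    (((hasDerivAt_id z).mul (hasDerivAt_ser hρ h0 hz)).const_sub 1).congr_deriv (by simp [gs, ← hadef])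
  have g1 : ∀ z : ℝ, (19 / 50 : ℝ) * |z| < 1 → HasDerivAt (deriv fun z => 1 - z * gs p z)
      (-(2 * ser (dco a) z + z * ser (dco (dco a)) z)) z := fun z hz => by
    have h : HasDerivAt (fun x => -(gs p x + x * ser (dco a) x))
        (-(ser (dco a) z + (1 * ser (dco a) z + z * ser (dco (dco a)) z))) z :=
      ((hasDerivAt_ser hρ h0 hz).add
        ((hasDerivAt_id z).mul (hasDerivAt_ser hρ (h0.dco hρ) hz))).neg
    refine (h.congr_of_eventuallyEq ?_).congr_deriv (by ring)
    filter_upwards [(isOpen_disc (19 / 50 : ℝ)).mem_nhds hz] with x hx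
    exact (g0 x hx).deriv
  have g2 : HasDerivAt (deriv (deriv fun z => 1 - z * gs p z))
      (-(3 * ser (dco (dco a)) y + y * ser (dco (dco (dco a))) y)) y := by
    have h : HasDerivAt (fun x => -(2 * ser (dco a) x + x * ser (dco (dco a)) x))
        (-(2 * ser (dco (dco a)) y + (1 * ser (dco (dco a)) y + y * ser (dco (dco (dco a))) y))) y :=
      (((hasDerivAt_ser hρ (h0.dco hρ) hy).const_mul 2).add
        ((hasDerivAt_id y).mul (hasDerivAt_ser hρ ((h0.dco hρ).dco hρ) hy))).neg
    refine (h.congr_of_eventuallyEq ?_).congr_deriv (by ring)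
    filter_upwards [(isOpen_disc (19 / 50 : ℝ)).mem_nhds hy] with x hx
    exact (g1 x hx).deriv
  exact ⟨(g0 y hy).deriv, (g1 y hy).deriv, g2.deriv⟩

theorem geo_pred {ρ : ℝ} {a : ℕ → ℝ} (h : Geo ρ a) : Geo ρ (fun k => ((k : ℝ) - 1) * a k) := by
  obtain ⟨B, m, hB, hb⟩ := h
  refine ⟨B, m + 1, hB, fun k => ?_⟩
  rw [abs_mul]
  have : |(k : ℝ) - 1| ≤ (k : ℝ) + 1 := by
    rw [abs_le]; constructor <;> linarith [Nat.cast_nonneg (α := ℝ) k]
  calc |(k : ℝ) - 1| * |a k| ≤ ((k : ℝ) + 1) * (B * ((k : ℝ) + 1) ^ m * ρ ^ k) :=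
        mul_le_mul this (hb k) (abs_nonneg _) (by positivity)
    _ = _ := by ring

theorem eqn_series {p : ℝ × ℝ} (hp : p ∈ pSet) {y : ℝ} (hy : (19 / 50 : ℝ) * |y| < 1) :
    y * (y * ser (dco (dco (dco (aco (px p) (py p))))) y)
        + 20 * (y * ser (dco (dco (aco (px p) (py p)))) y)
        + 90 * ser (dco (aco (px p) (py p))) y
      = (1 / 2 + 90 * py p) - ser (rco (px p) (py p)) y / 2 := by
  have hρ : (0:ℝ) ≤ 19 / 50 := by norm_num
  have hb := (a_geo hp).dco hρ
  set a := aco (px p) (py p) with hadef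
  set b := dco a with hbdef
  have hc := geo_pred hb
  have e1 : (fun k : ℕ => (k : ℝ) * dco b k) = dco (fun k => ((k : ℝ) - 1) * b k) := by
    funext k; simp only [dco]; push_cast; ring
  have s1 : y * (y * ser (dco (dco b)) y) = ser (fun k : ℕ => (k : ℝ) * (((k : ℝ) - 1) * b k)) y := by
    rw [ser_mul_id hρ (hb.dco hρ) hy, e1, ser_mul_id hρ hc hy]
  have s2 := ser_mul_id hρ hb hy
  rw [s1, s2]
  have h1 := ((hc.mul_nat hρ).summable hρ hy).hasSum
  have h2 := (((hb.mul_nat hρ).summable hρ hy).hasSum).mul_left 20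
  have h3 := ((hb.summable hρ hy).hasSum).mul_left 90
  have hL := (h1.add h2).add h3
  have hR := (hasSum_ite_eq (0 : ℕ) (1 / 2 + 90 * py p : ℝ)).sub
    (((r_geo hp).summable hρ hy).hasSum.div_const 2)
  refine (hL.congr_fun fun k => ?_).unique hR
  match k with
  | 0 => simp [hbdef, dco, hadef, aco_one, rco_zero]
  | j + 1 =>
    simp only [hbdef, dco, hadef, aco_succ _ _ (show 1 ≤ j + 1 by omega), den,
      if_neg (Nat.succ_ne_zero j), Nat.cast_mul, Nat.cast_add, Nat.cast_one, Nat.cast_ofNat]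
    have : ((j : ℝ) + 1 + 1) ≠ 0 := by positivity
    have : ((j : ℝ) + 1 + 1 + 8) ≠ 0 := by positivity
    have : ((j : ℝ) + 1 + 1 + 9) ≠ 0 := by positivity
    field_simp
    ring

theorem series_ode {p : ℝ × ℝ} (hp : p ∈ pSet) {y : ℝ} (hy : y ∈ Set.Ioo (0 : ℝ) 2) :
    ode (cOf p) (fun z => 1 - z * gs p z) y = 0 := by
  have hy' : (19 / 50 : ℝ) * |y| < 1 := by rw [abs_of_pos hy.1]; linarith [hy.2]
  obtain ⟨d1, d2, d3⟩ := q_derivs hp hy'
  have h := eqn_series hp hy'
  rw [recip hp hy'] at h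
  have hc : 1 / (2 * cOf p) = 1 / 2 + 90 * py p := by
    rw [cOf, py, mul_one_div, one_div_div]; ring
  have hq : (1 : ℝ) / (2 * (1 - y * gs p y)) = 1 / (1 - y * gs p y) / 2 := by
    rw [div_div, mul_comm]
  unfold ode
  rw [d1, d2, d3, hc, hq]
  have hy0 := hy.1.ne'
  field_simp at h ⊢
  linear_combination -(y ^ 2) * h

/-- Value and two derivatives at `3/2`. -/
noncomputable def dataS (p : ℝ × ℝ) : Fin 3 → ℝ :=
  ![1 - 3 / 2 * gs p (3 / 2), deriv (fun z => 1 - z * gs p z) (3 / 2),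
    deriv (deriv (fun z => 1 - z * gs p z)) (3 / 2)]

/-- The constant part of the data. -/
def cst : Fin 3 → Int := ![1, 0, 0]

theorem data_eq {p : ℝ × ℝ} (hp : p ∈ pSet) (i : Fin 3) :
    dataS p i = (cst i : ℝ) - phi i (aco (px p) (py p)) := by
  have hρ : (0:ℝ) ≤ 19 / 50 := by norm_num
  have hy : (19 / 50 : ℝ) * |(3 / 2 : ℝ)| < 1 := by norm_num
  obtain ⟨d1, d2, -⟩ := q_derivs hp hy
  have ha := a_geo hp
  set a := aco (px p) (py p) with hadef
  have sa := ha.summable hρ hy
  have sna := (ha.mul_nat hρ).summable hρ hy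
  fin_cases i
  · simp only [dataS, cst, Fin.zero_eta, Matrix.cons_val_zero, gs, ser, phi, wy, ← hadef,
      Int.cast_one]
    rw [← tsum_mul_left]
    exact congrArg _ (tsum_congr fun k => by ring)
  · simp only [dataS, cst, Fin.mk_one, Matrix.cons_val_one, Matrix.cons_val_zero, Int.cast_zero]
    rw [d1, ser_mul_id hρ ha hy, gs, ← hadef, zero_sub]
    simp only [ser, phi, wy]
    rw [← sa.tsum_add sna]
    exact congrArg _ (tsum_congr fun k => by ring)
  · have hb := ha.dco hρ
    simp only [dataS, cst, Fin.reduceFinMk, Matrix.cons_val_two, Matrix.tail_cons, Matrix.head_cons,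
      Int.cast_zero]
    rw [d2, ser_mul_id hρ hb hy, zero_sub]
    have hf : Summable fun k => a k * wy 2 k :=
      phi_summable (B := 1) (w := 19 / 50) hρ (by norm_num) (fun k hk => a_tail hp hk) 2
    simp only [ser, phi]
    rw [← tsum_mul_left, ← ((hb.summable hρ hy).mul_left 2).tsum_add ((hb.mul_nat hρ).summable hρ hy),
      hf.tsum_eq_zero_add]
    simp only [wy, Nat.cast_zero, mul_zero, zero_mul, zero_add]
    exact congrArg _ (tsum_congr fun k => by simp only [dco, add_tsub_cancel_right]; push_cast; ring)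

/-- Target numerators of the centre. -/
def zC : Fin 3 → Int := ![5006268565009976, -3270271243019640, 146099539314831]

/-- Target numerators of the first difference quotient. -/
def zU : Fin 3 → Int := ![-14843667662, -9590380844, 908894265]

/-- Target numerators of the second difference quotient. -/
def zV : Fin 3 → Int := ![-22355864569, -29513617470, -18568730756]

theorem chk_centre : ∀ i, within i centreTabA (cst i) (zC i) (10 ^ 16) 5 (10 ^ 11) = true := by
  decide +kernel
theorem chk_du : ∀ i, within i duTabA 0 (zU i) (10 ^ 10) 5 (10 ^ 6) = true := by decide +kernel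
theorem chk_dv : ∀ i, within i dvTabA 0 (zV i) (10 ^ 10) 5 (10 ^ 6) = true := by decide +kernel

theorem zero_mem_pSet : ((0, 0) : ℝ × ℝ) ∈ pSet := by simp [pSet]

theorem centre_bound (i : Fin 3) : |dataS (0, 0) i - leftZ i| ≤ 1 / 10000000000 := by
  have h := phi_within (B := 1) (w := 19 / 50) (by norm_num) (by norm_num)
    (fun k hk => a_tail zero_mem_pSet hk) (by norm_num) (by norm_num) (chk_centre i) centre_mem
  rw [data_eq zero_mem_pSet]
  have e : leftZ i = (zC i : ℝ) / ((10 ^ 16 : ℕ) : ℝ) := by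
    fin_cases i <;> simp [leftZ, zC] <;> norm_num
  rw [e]
  refine h.trans ?_
  norm_num [depth]

theorem lip_bound {p p' : ℝ × ℝ} (hp : p ∈ pSet) (hp' : p' ∈ pSet) (i : Fin 3) :
    |dataS p i - dataS p' i - leftD0 i * (p.1 - p'.1) - leftD1 i * (p.2 - p'.2)| ≤
      1 / 100000 * (|p.1 - p'.1| + |p.2 - p'.2|) := by
  obtain ⟨hmU, htU⟩ := lin_bound hp hp' (x := 1) (y := 0) du_lin (by decide +kernel) du_sig
    (by rw [show get duTabA 0 = ((scale : Int), (scale : Int)) by decide +kernel]; exact scale_one)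
    (by rw [show get duTabA 1 = (0, 0) by decide +kernel]; exact mem_zero _)
  obtain ⟨hmV, htV⟩ := lin_bound hp hp' (x := 0) (y := 1) dv_lin (by decide +kernel) dv_sig
    (by rw [show get dvTabA 0 = (0, 0) by decide +kernel]; exact mem_zero _)
    (by rw [show get dvTabA 1 = ((scale : Int), (scale : Int)) by decide +kernel]; exact scale_one)
  set U := la (aco (px p) (py p)) (rco (px p') (py p')) 1 0
  set V := la (aco (px p) (py p)) (rco (px p') (py p')) 0 1
  have hU := phi_within (i := i) (by norm_num) (by norm_num) htU (by norm_num) (by norm_num)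
    (chk_du i) hmU
  have hV := phi_within (i := i) (by norm_num) (by norm_num) htV (by norm_num) (by norm_num)
    (chk_dv i) hmV
  have hd : phi i (aco (px p) (py p)) - phi i (aco (px p') (py p'))
      = (p.1 - p'.1) * phi i U + (p.2 - p'.2) * phi i V := by
    have sU := phi_summable (i := i) (by norm_num) (by norm_num) htU
    have sV := phi_summable (i := i) (by norm_num) (by norm_num) htV
    have s0 := phi_summable (B := 1) (w := 19 / 50) (i := i) (by norm_num) (by norm_num)
      (fun k hk => a_tail hp hk)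
    have s1 := phi_summable (B := 1) (w := 19 / 50) (i := i) (by norm_num) (by norm_num)
      (fun k hk => a_tail hp' hk)
    unfold phi
    rw [← s0.tsum_sub s1, ← tsum_mul_left, ← tsum_mul_left,
      ← (sU.mul_left _).tsum_add (sV.mul_left _)]
    refine tsum_congr fun k => ?_
    have := (diff_eq (px p) (py p) (px p') (py p')).2 k
    rw [show px p - px p' = p.1 - p'.1 by unfold px; ring,
      show py p - py p' = p.2 - p'.2 by unfold py; ring] at this
    linear_combination wy i k * this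
  rw [data_eq hp, data_eq hp']
  have e0 : leftD0 i = (zU i : ℝ) / ((10 ^ 10 : ℕ) : ℝ) := by
    fin_cases i <;> simp [leftD0, zU] <;> norm_num
  have e1 : leftD1 i = (zV i : ℝ) / ((10 ^ 10 : ℕ) : ℝ) := by
    fin_cases i <;> simp [leftD1, zV] <;> norm_num
  rw [← e0] at hU
  rw [← e1] at hV
  have hcU : |((0 : Int) : ℝ) - phi i U - leftD0 i| ≤ 1 / 100000 := hU.trans (by norm_num [depth])
  have hcV : |((0 : Int) : ℝ) - phi i V - leftD1 i| ≤ 1 / 100000 := hV.trans (by norm_num [depth])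
  calc |(cst i : ℝ) - phi i (aco (px p) (py p)) - ((cst i : ℝ) - phi i (aco (px p') (py p')))
        - leftD0 i * (p.1 - p'.1) - leftD1 i * (p.2 - p'.2)|
      = |(p.1 - p'.1) * (((0 : Int) : ℝ) - phi i U - leftD0 i)
          + (p.2 - p'.2) * (((0 : Int) : ℝ) - phi i V - leftD1 i)| := by
        congr 1; push_cast; linear_combination -hd
    _ ≤ |p.1 - p'.1| * (1 / 100000) + |p.2 - p'.2| * (1 / 100000) := by
        refine (abs_add_le _ _).trans (add_le_add ?_ ?_) <;> rw [abs_mul] <;> gcongr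
    _ = _ := by ring

end Series


open Series in
/-- The series family at the origin exists. -/
theorem left_map : LeftTarget :=
  ⟨{ g := gs
     data := dataS
     smooth := fun p hp => (contDiffOn_ser (by norm_num) (a_geo hp)).mono fun y hy => by
       simp only [Set.mem_ofPred_eq]
       linarith [abs_lt.2 ⟨hy.1, hy.2⟩]
     pos := fun p hp y hy => q_pos hp (by rw [abs_of_nonneg hy.1]; linarith [hy.2])
     eqn := fun p hp y hy => series_ode hp hy
     data0 := fun p _ => rfl
     data1 := fun p _ => rfl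
     data2 := fun p _ => rfl
     centre := centre_bound
     lip := fun p hp p' hp' i => lip_bound hp hp' i }⟩

end Vale.Agent.P264.Soliton.Inner
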