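import Vale.Agent.P264.Soliton.Inner.SoundLemmas
import Vale.Agent.P264.Soliton.Inner.Targets

/-!
Soundness of the integer check of one piece.
-/

namespace Vale.Agent.P264.Soliton.Inner

open Set

/-- The polynomial of one function on a piece. -/
def poly (A B : Node) (f : Fin 5) : IPoly := jetPoly A.e (A.sol f) (B.sol f)

variable {A B : Node} {y : ℝ}

theorem abs_lvar (h : Shape A B) (hy : y ∈ Icc A.pos B.pos) : |lvar A B y| ≤ 1 := by
  have hE : (0:ℝ) < 2 ^ A.e := by positivity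
  have hl := h.left
  have hr := h.right
  simp only [lvar] at hl hr ⊢
  rw [abs_le]
  constructor <;> nlinarith [mul_le_mul_of_nonneg_left hy.1 hE.le, mul_le_mul_of_nonneg_left hy.2 hE.le]

theorem width (h : Shape A B) : (B.pos - A.pos) * 2 ^ A.e = 2 := by
  have hl := h.left
  have hr := h.right
  simp only [lvar] at hl hr
  linarith

theorem scaled_y (A B : Node) (y : ℝ) :
    ev (lin A B) (lvar A B y) = 2 ^ A.e * y := by
  simp [lin, lvar]

theorem scaled_ge (h : Shape A B) (hy : y ∈ Icc A.pos B.pos) :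
    ((centre A B - 1 : ℕ) : ℝ) ≤ 2 ^ A.e * y ∧ 0 < ((centre A B - 1 : ℕ) : ℝ) ∧ 0 < y := by
  have h1 := (abs_le.1 (abs_lvar h hy)).1
  have hc : 0 < centre A B - 1 := Nat.sub_pos_of_lt h.centre_gt
  have hcR : (0:ℝ) < ((centre A B - 1 : ℕ) : ℝ) := by exact_mod_cast hc
  have hsub : ((centre A B - 1 : ℕ) : ℝ) = (centre A B : ℝ) - 1 := by
    rw [Nat.cast_sub h.centre_gt.le]; simp
  have hle : ((centre A B - 1 : ℕ) : ℝ) ≤ 2 ^ A.e * y := by
    simp only [lvar] at h1; rw [hsub]; linarith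
  refine ⟨hle, hcR, pos_of_mul_pos_right (hcR.trans_le hle) (by positivity)⟩

theorem piece_eqs (A B : Node) (f : Fin 5) (y : ℝ) :
    piece A B f 0 y = ev (poly A B f) (lvar A B y) / 2 ^ sc A.e ∧
    piece A B f 1 y = 2 ^ A.e * ev (pdiff (poly A B f)) (lvar A B y) / 2 ^ sc A.e ∧
    piece A B f 2 y = (2 ^ A.e) ^ 2 * ev (pdiff (pdiff (poly A B f))) (lvar A B y) / 2 ^ sc A.e ∧
    piece A B f 3 y
      = (2 ^ A.e) ^ 3 * ev (pdiff (pdiff (pdiff (poly A B f)))) (lvar A B y) / 2 ^ sc A.e := by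
  refine ⟨?_, ?_, ?_, ?_⟩ <;>
    simp [piece, poly, pow_mul, Function.iterate_succ_apply']

theorem q_low (h : Shape A B) (hy : y ∈ Icc A.pos B.pos) :
    (0:ℝ) < ((lowB (poly A B 0)).toNat : ℝ) ∧
      ((lowB (poly A B 0)).toNat : ℝ) ≤ piece A B 0 0 y * 2 ^ sc A.e := by
  have hp : 0 < lowB (poly A B 0) := h.qpos
  have e : (((lowB (poly A B 0)).toNat : ℕ) : ℝ) = (lowB (poly A B 0) : ℝ) := by
    exact_mod_cast Int.toNat_of_nonneg hp.le
  rw [(piece_eqs A B 0 y).1, div_mul_cancel₀ _ (by positivity), e]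
  exact ⟨by exact_mod_cast hp, lowB_le _ _ (abs_lvar h hy)⟩

theorem qlo_le (h : Shape A B) (hy : y ∈ Icc A.pos B.pos) :
    ((bounds A B).qlo : ℝ) / 2 ^ 200 ≤ pieceQ A B y 0 := by
  have h1 := (q_low h hy).2
  show (((lowB (poly A B 0)).toNat * 2 ^ 200 / 2 ^ sc A.e : ℕ) : ℝ) / 2 ^ 200 ≤ piece A B 0 0 y
  rw [div_le_iff₀ (by positivity)]
  refine Nat.cast_div_le.trans ?_
  rw [Nat.cast_pow, Nat.cast_ofNat, Nat.cast_mul, Nat.cast_pow, Nat.cast_ofNat,
    div_le_iff₀ (by positivity)]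
  nlinarith [mul_le_mul_of_nonneg_right h1 (by positivity : (0:ℝ) ≤ 2 ^ 200)]

theorem val_bound (h : Shape A B) (hy : y ∈ Icc A.pos B.pos) (f : Fin 5) :
    |piece A B f 0 y| ≤ (cdiv (absSum (poly A B f) * 2 ^ 200) (2 ^ sc A.e) : ℝ) / 2 ^ 200 := by
  refine div_le_scaled _ (by positivity) ?_
  rw [(piece_eqs A B f y).1, abs_div, abs_of_pos (by positivity : (0:ℝ) < 2 ^ sc A.e)]
  push_cast
  gcongr
  exact abs_ev_le _ _ (abs_lvar h hy)

theorem res_bound (h : Shape A B) (hy : y ∈ Icc A.pos B.pos) :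
    |residual y (pieceQ A B y)| ≤ ((bounds A B).res : ℝ) / 2 ^ 200 := by
  obtain ⟨hA, hA0, hy0⟩ := scaled_ge h hy
  obtain ⟨hl0, hl⟩ := q_low h hy
  obtain ⟨e0, e1, e2, e3⟩ := piece_eqs A B 0 y
  set u := lvar A B y
  set q := pieceQ A B y with hqd
  set E := (2:ℝ) ^ A.e
  set S := (2:ℝ) ^ sc A.e
  have hE : 0 < E := by positivity
  have hS : 0 < S := by positivity
  have hq : 0 < q 0 := pos_of_mul_pos_left (hl0.trans_le hl) hS.le
  have hev : ev (resPoly A.e (lin A B) (poly A B 0)) u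
      = 2 * (cNum : ℝ) * S ^ 2 * (E * y) ^ 2 * q 0 * residual y q := by
    have c0 : q 0 = ev (poly A B 0) u / S := e0
    have c1 : q 1 = E * ev (pdiff (poly A B 0)) u / S := e1
    have c2 : q 2 = E ^ 2 * ev (pdiff (pdiff (poly A B 0))) u / S := e2
    have c3 : q 3 = E ^ 3 * ev (pdiff (pdiff (pdiff (poly A B 0)))) u / S := e3
    have hq0 : ev (poly A B 0) u ≠ 0 := fun hh => by rw [hh, zero_div] at c0; exact hq.ne' c0
    simp only [resPoly, ev_padd, ev_psmul, ev_pmul, ev_opY, ev_cons, ev_nil]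
    rw [scaled_y, residual, ctil, c0, c1, c2, c3]
    push_cast
    rw [show (2:ℝ) ^ (2 * A.e) = E ^ 2 by rw [pow_mul'], show (2:ℝ) ^ (2 * sc A.e) = S ^ 2 by rw [pow_mul'],
      show (2:ℝ) ^ (64 + sc A.e) = 2 ^ 64 * S by rw [pow_add]]
    have hc : (cNum : ℝ) ≠ 0 := by norm_num [cNum]
    field_simp
    ring
  refine div_le_scaled (absSum (resPoly A.e (lin A B) (poly A B 0)))
    (d := 2 * cNum * (centre A B - 1) ^ 2 * (lowB (poly A B 0)).toNat * 2 ^ sc A.e) ?_ ?_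
  · have := Nat.sub_pos_of_lt h.centre_gt
    have : 0 < (lowB (poly A B 0)).toNat := by exact_mod_cast hl0
    have : 0 < cNum := by decide
    positivity
  · have hc : (0:ℝ) < cNum := by norm_num [cNum]
    have hd : 0 < 2 * (cNum : ℝ) * ((centre A B - 1 : ℕ) : ℝ) ^ 2 * (lowB (poly A B 0)).toNat * S := by
      positivity
    simp only [Nat.cast_mul, Nat.cast_pow, Nat.cast_ofNat]
    rw [le_div_iff₀ hd]
    refine le_trans ?_ (abs_ev_le _ u (abs_lvar h hy))
    rw [hev, abs_mul, abs_of_pos (by positivity : 0 < 2 * (cNum : ℝ) * S ^ 2 * (E * y) ^ 2 * q 0)]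
    calc |residual y q| * (2 * (cNum : ℝ) * ((centre A B - 1 : ℕ) : ℝ) ^ 2
          * (lowB (poly A B 0)).toNat * S)
        ≤ |residual y q| * (2 * (cNum : ℝ) * (E * y) ^ 2 * (q 0 * S) * S) := by
          refine mul_le_mul_of_nonneg_left (mul_le_mul_of_nonneg_right (mul_le_mul
            (mul_le_mul_of_nonneg_left (pow_le_pow_left₀ hA0.le hA 2) (by positivity)) hl
            hl0.le (by positivity)) hS.le) (abs_nonneg _)
      _ = _ := by ring

theorem rv_bound (h : Shape A B) (hy : y ∈ Icc A.pos B.pos) (f : Fin 5) (k : Int) :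
    |linResidual y (pieceQ A B y) ((k : ℝ) / 2 ^ 20) (fun j => piece A B f j y)| ≤
      (cdiv (absSum (rvPoly A.e k (lin A B) (poly A B 0) (poly A B f)) * 2 ^ 200)
        (2 * cNum ^ 2 * 2 ^ 20 * (centre A B - 1) ^ 2 * (lowB (poly A B 0)).toNat ^ 2 * 2 ^ sc A.e)
          : ℝ) / 2 ^ 200 := by
  obtain ⟨hA, hA0, hy0⟩ := scaled_ge h hy
  obtain ⟨hl0, hl⟩ := q_low h hy
  obtain ⟨e0, e1, e2, e3⟩ := piece_eqs A B f y
  set u := lvar A B y
  set q := pieceQ A B y with hqd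
  set E := (2:ℝ) ^ A.e
  set S := (2:ℝ) ^ sc A.e
  set L := linResidual y q ((k : ℝ) / 2 ^ 20) (fun j => piece A B f j y) with hLd
  have hE : 0 < E := by positivity
  have hS : 0 < S := by positivity
  have hq : 0 < q 0 := pos_of_mul_pos_left (hl0.trans_le hl) hS.le
  have hc : (0:ℝ) < cNum := by norm_num [cNum]
  have hev : ev (rvPoly A.e k (lin A B) (poly A B 0) (poly A B f)) u
      = 2 * (cNum : ℝ) ^ 2 * 2 ^ 20 * S ^ 3 * (E * y) ^ 2 * q 0 ^ 2 * L := by
    have c0 : q 0 = ev (poly A B 0) u / S := (piece_eqs A B 0 y).1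
    have hq0 : ev (poly A B 0) u ≠ 0 := fun hh => by rw [hh, zero_div] at c0; exact hq.ne' c0
    simp only [rvPoly, ev_padd, ev_psmul, ev_pmul, ev_opY]
    rw [scaled_y, hLd, linResidual, ctil, c0]
    simp only [Fin.val_zero, Fin.val_one, Fin.val_two, show ((3 : Fin 4) : ℕ) = 3 from rfl,
      e0, e1, e2, e3]
    push_cast
    rw [show (2:ℝ) ^ (2 * A.e) = E ^ 2 by rw [pow_mul'], show (2:ℝ) ^ (2 * sc A.e) = S ^ 2 by rw [pow_mul'],
      show (2:ℝ) ^ (128 + sc A.e) = 2 ^ 128 * S by rw [pow_add]]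
    field_simp
    ring
  refine div_le_scaled (absSum (rvPoly A.e k (lin A B) (poly A B 0) (poly A B f))) ?_ ?_
  · have := Nat.sub_pos_of_lt h.centre_gt
    have : 0 < (lowB (poly A B 0)).toNat := by exact_mod_cast hl0
    have : 0 < cNum := by decide
    positivity
  · have hd : 0 < 2 * (cNum : ℝ) ^ 2 * 2 ^ 20 * ((centre A B - 1 : ℕ) : ℝ) ^ 2
        * ((lowB (poly A B 0)).toNat : ℝ) ^ 2 * S := by positivity
    simp only [Nat.cast_mul, Nat.cast_pow, Nat.cast_ofNat]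
    rw [le_div_iff₀ hd]
    refine le_trans ?_ (abs_ev_le _ u (abs_lvar h hy))
    rw [hev, abs_mul, abs_of_pos (by positivity :
      0 < 2 * (cNum : ℝ) ^ 2 * 2 ^ 20 * S ^ 3 * (E * y) ^ 2 * q 0 ^ 2)]
    calc |L| * (2 * (cNum : ℝ) ^ 2 * 2 ^ 20 * ((centre A B - 1 : ℕ) : ℝ) ^ 2
          * ((lowB (poly A B 0)).toNat : ℝ) ^ 2 * S)
        ≤ |L| * (2 * (cNum : ℝ) ^ 2 * 2 ^ 20 * (E * y) ^ 2 * (q 0 * S) ^ 2 * S) := by
          refine mul_le_mul_of_nonneg_left (mul_le_mul_of_nonneg_right (mul_le_mul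
            (mul_le_mul_of_nonneg_left (pow_le_pow_left₀ hA0.le hA 2) (by positivity))
            (pow_le_pow_left₀ hl0.le hl 2) (by positivity) (by positivity)) hS.le) (abs_nonneg _)
      _ = _ := by ring

/-- The Wronskian polynomial of the piece. -/
def detP (A B : Node) : IPoly :=
  detPoly (poly A B 1) (homPoly (poly A B 2) (poly A B 4)) (poly A B 3)

theorem pieceV_apply (A B : Node) (y : ℝ) :
    (∀ k, pieceV A B y 0 k = piece A B 1 k y) ∧ (∀ k, pieceV A B y 1 k = piece A B 2 k y) ∧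
      (∀ k, pieceV A B y 2 k = piece A B 3 k y) ∧ (∀ k, pieceV A B y 3 k = piece A B 4 k y) :=
  ⟨fun _ => rfl, fun _ => rfl, fun _ => rfl, fun _ => rfl⟩

theorem wronsk_facts (A B : Node) (y : ℝ) :
    let v := pieceV A B y
    let u := lvar A B y
    let E := (2:ℝ) ^ A.e
    let S := (2:ℝ) ^ sc A.e
    let H := homPoly (poly A B 2) (poly A B 4)
    wronsk v = E ^ 3 * ev (detP A B) u / (2 ^ 20 * S ^ 3) ∧
      mnr (homSol v) (v 2) = E * ev (minor H (poly A B 3)) u / (2 ^ 20 * S ^ 2) ∧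
      mnr (v 2) (v 0) = E * ev (minor (poly A B 3) (poly A B 1)) u / S ^ 2 ∧
      mnr (v 0) (homSol v) = E * ev (minor (poly A B 1) H) u / (2 ^ 20 * S ^ 2) := by
  intro v u E S H
  obtain ⟨p0, p1, p2, p3⟩ := pieceV_apply A B y
  obtain ⟨a0, a1, a2, -⟩ := piece_eqs A B 1 y
  obtain ⟨b0, b1, b2, -⟩ := piece_eqs A B 2 y
  obtain ⟨r0, r1, r2, -⟩ := piece_eqs A B 3 y
  obtain ⟨d0, d1, d2, -⟩ := piece_eqs A B 4 y
  have hS : S ≠ 0 := by positivity
  refine ⟨?_, ?_, ?_, ?_⟩ <;>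
  · simp only [wronsk, mnr, homSol, v, p0, p1, p2, p3, detP, detPoly, H, ev_padd, ev_pmul, ev_minor,
      homPoly, pdiff2_padd_ev, pdiff2_psmul_ev, pdiff_padd_ev, pdiff_psmul_ev, ev_psmul,
      Fin.val_zero, Fin.val_one, Fin.val_two, a0, a1, a2, b0, b1, b2, r0, r1, r2, d0, d1, d2]
    push_cast
    simp only [u, E, S]
    field_simp
    try ring

theorem det_pos (h : Shape A B) (hy : y ∈ Icc A.pos B.pos) :
    0 < absLow (detP A B) ∧ 0 < |ev (detP A B) (lvar A B y)| ∧ wronsk (pieceV A B y) ≠ 0 := by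
  have h1 : 0 < absLow (detP A B) := h.det
  have h2 : 0 < |ev (detP A B) (lvar A B y)| :=
    (by exact_mod_cast h1 : (0:ℝ) < absLow (detP A B)).trans_le (absLow_le _ _ (abs_lvar h hy))
  refine ⟨h1, h2, ?_⟩
  have he : ev (detP A B) (lvar A B y) ≠ 0 := abs_pos.1 h2
  rw [(wronsk_facts A B y).1]
  exact div_ne_zero (mul_ne_zero (by positivity) he) (by positivity)

section

attribute [local irreducible] absLow absSum detP cdiv centre sc

theorem coef_step (h : Shape A B) (hy : y ∈ Icc A.pos B.pos) (M : IPoly) (t : ℕ) :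
    (B.pos - A.pos) * |ev M (lvar A B y) * t * 2 ^ sc A.e
      / ((2 ^ A.e) ^ 2 * ev (detP A B) (lvar A B y))| / y ≤
    (cdiv (absSum M * 2 ^ sc A.e * 2 * t * 2 ^ 200)
      (absLow (detP A B) * (centre A B - 1) * 2 ^ (2 * A.e)) : ℝ) / 2 ^ 200 := by
  obtain ⟨hA, hA0, hy0⟩ := scaled_ge h hy
  obtain ⟨hd, hd', -⟩ := det_pos h hy
  have hE : (0:ℝ) < 2 ^ A.e := by positivity
  refine div_le_scaled (absSum M * 2 ^ sc A.e * 2 * t)
    (d := absLow (detP A B) * (centre A B - 1) * 2 ^ (2 * A.e))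
    (Nat.mul_pos (Nat.mul_pos hd (Nat.sub_pos_of_lt h.centre_gt)) (Nat.two_pow_pos _)) ?_
  have hw := width h
  have hwe : B.pos - A.pos = 2 / 2 ^ A.e := by rw [eq_div_iff hE.ne']; exact hw
  rw [hwe, abs_div, abs_mul, abs_mul, abs_mul, Nat.abs_cast,
    abs_of_pos (by positivity : (0:ℝ) < ((2:ℝ) ^ A.e) ^ 2),
    abs_of_pos (by positivity : (0:ℝ) < (2:ℝ) ^ sc A.e)]
  simp only [Nat.cast_mul, Nat.cast_pow, Nat.cast_ofNat]
  rw [show (2:ℝ) ^ (2 * A.e) = (2 ^ A.e) ^ 2 by rw [pow_mul']]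
  have e : 2 / 2 ^ A.e * (|ev M (lvar A B y)| * t * 2 ^ sc A.e
        / ((2 ^ A.e) ^ 2 * |ev (detP A B) (lvar A B y)|)) / y
      = |ev M (lvar A B y)| * 2 ^ sc A.e * 2 * t
        / (|ev (detP A B) (lvar A B y)| * (2 ^ A.e * y) * (2 ^ A.e) ^ 2) := by
    field_simp
  rw [e]
  have hdR : (0:ℝ) < absLow (detP A B) := by exact_mod_cast hd
  refine div_le_div₀ (by positivity) ?_ (by positivity) ?_
  · gcongr; exact abs_ev_le _ _ (abs_lvar h hy)
  · exact mul_le_mul_of_nonneg_right (mul_le_mul (absLow_le _ _ (abs_lvar h hy)) hA hA0.le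
      (abs_nonneg _)) (by positivity)

end

/-- Bounds of the four coefficients, times the width over `y`. -/
noncomputable def coefCap (A B : Node) : Fin 4 → ℝ :=
  ![(bounds A B).ca / 2 ^ 200, (bounds A B).cb / 2 ^ 200, (bounds A B).cr / 2 ^ 200,
    (cdiv (kNum.natAbs * (bounds A B).cb) (2 ^ 20) : ℝ) / 2 ^ 200]

theorem coef_bound (h : Shape A B) (hy : y ∈ Icc A.pos B.pos) (j : Fin 4) :
    (B.pos - A.pos) * |coef (pieceV A B y) j| / y ≤ coefCap A B j := by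
  obtain ⟨w, m0, m1, m2⟩ := wronsk_facts A B y
  obtain ⟨-, hd', -⟩ := det_pos h hy
  have he : ev (detP A B) (lvar A B y) ≠ 0 := abs_pos.1 hd'
  set v := pieceV A B y
  set u := lvar A B y
  set H := homPoly (poly A B 2) (poly A B 4)
  have hE : ((2:ℝ) ^ A.e) ≠ 0 := by positivity
  have hS : ((2:ℝ) ^ sc A.e) ≠ 0 := by positivity
  have q0 : coef v 0 = ev (minor H (poly A B 3)) u * ((1:ℕ) : ℝ) * 2 ^ sc A.e
      / ((2 ^ A.e) ^ 2 * ev (detP A B) u) := by
    show mnr (homSol v) (v 2) / wronsk v = _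
    rw [m0, w]; field_simp; push_cast; ring
  have q1 : mnr (v 2) (v 0) / wronsk v = ev (minor (poly A B 3) (poly A B 1)) u * ((2 ^ 20 : ℕ) : ℝ)
      * 2 ^ sc A.e / ((2 ^ A.e) ^ 2 * ev (detP A B) u) := by
    rw [m1, w]; field_simp; push_cast; ring
  have q2 : coef v 2 = ev (minor (poly A B 1) H) u * ((1:ℕ) : ℝ) * 2 ^ sc A.e
      / ((2 ^ A.e) ^ 2 * ev (detP A B) u) := by
    show mnr (v 0) (homSol v) / wronsk v = _
    rw [m2, w]; field_simp; push_cast; ring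
  have s0 := coef_step h hy (minor H (poly A B 3)) 1
  have s1 := coef_step h hy (minor (poly A B 3) (poly A B 1)) (2 ^ 20)
  have s2 := coef_step h hy (minor (poly A B 1) H) 1
  rw [← q0] at s0
  rw [← q1] at s1
  rw [← q2] at s2
  rw [Nat.mul_one] at s0 s2
  fin_cases j
  · exact s0
  · exact s1
  · exact s2
  · have c3 : coef v 3 = -((kNum : ℝ) / 2 ^ 20) * (mnr (v 2) (v 0) / wronsk v) := rfl
    show (B.pos - A.pos) * |coef v 3| / y
      ≤ (cdiv (kNum.natAbs * (bounds A B).cb) (2 ^ 20) : ℝ) / 2 ^ 200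
    rw [c3, abs_mul, abs_neg, abs_div, abs_of_pos (by positivity : (0:ℝ) < 2 ^ 20)]
    have hk : ((kNum.natAbs : ℕ) : ℝ) = |(kNum : ℝ)| := by rw [Nat.cast_natAbs, Int.cast_abs]
    rw [← hk]
    calc (B.pos - A.pos) * ((kNum.natAbs : ℝ) / 2 ^ 20 * |mnr (v 2) (v 0) / wronsk v|) / y
        = (kNum.natAbs : ℝ) / 2 ^ 20 * ((B.pos - A.pos) * |mnr (v 2) (v 0) / wronsk v| / y) := by ring
      _ ≤ (kNum.natAbs : ℝ) / 2 ^ 20 * (((bounds A B).cb : ℝ) / 2 ^ 200) :=
          mul_le_mul_of_nonneg_left s1 (by positivity)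
      _ = ((kNum.natAbs * (bounds A B).cb : ℕ) : ℝ) / ((2 ^ 20 : ℕ) : ℝ) / 2 ^ 200 := by
          simp only [Nat.cast_mul, Nat.cast_pow, Nat.cast_ofNat]
          ring
      _ ≤ _ := div_le_div_of_nonneg_right (le_cdiv _ (by positivity)) (by positivity)

/-- Bound of the change of `q`. -/
noncomputable def dQ (A B : Node) : ℝ := (devQ A B (bounds A B) : ℝ) / 2 ^ 200

theorem weighted_le {a : Fin 4 → ℕ} {g : Fin 4 → ℝ} {x : Fin 4 → ℝ} {d : ℝ} (hd : 0 ≤ d)
    (hx : ∀ i, |x i| ≤ d * capP A B i) (hg : ∀ i, |g i| ≤ (a i : ℝ) / 2 ^ 200) :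
    |∑ i, x i * g i| ≤
      d * ((cdiv (A.p0 * a 0 + A.p1 * a 1 + B.p2 * a 2 + B.p3 * a 3) (2 ^ 200) : ℝ) / 2 ^ 200) := by
  have hb := le_cdiv (A.p0 * a 0 + A.p1 * a 1 + B.p2 * a 2 + B.p3 * a 3) (b := 2 ^ 200) (by positivity)
  simp only [Nat.cast_mul, Nat.cast_pow, Nat.cast_ofNat, Nat.cast_add] at hb
  have hcap : ∀ i, 0 ≤ capP A B i := by
    intro i; fin_cases i <;> simp [capP, Node.rad] <;> positivity
  calc |∑ i, x i * g i| ≤ ∑ i, |x i * g i| := Finset.abs_sum_le_sum_abs _ _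
    _ ≤ ∑ i, d * capP A B i * ((a i : ℝ) / 2 ^ 200) := Finset.sum_le_sum fun i _ => by
        rw [abs_mul]; exact mul_le_mul (hx i) (hg i) (abs_nonneg _) (mul_nonneg hd (hcap i))
    _ = d * (((A.p0 : ℝ) * a 0 + A.p1 * a 1 + B.p2 * a 2 + B.p3 * a 3) / 2 ^ 200 / 2 ^ 200) := by
        simp [Fin.sum_univ_four, capP, Node.rad]; ring
    _ ≤ _ := by gcongr

theorem quad_le {D q : ℕ} (h : D < q) :
    2 * ((D : ℝ) / 2 ^ 200) ^ 2 / ((q : ℝ) / 2 ^ 200 - (D : ℝ) / 2 ^ 200) ^ 3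
      ≤ (quadTerm D q : ℝ) / 2 ^ 200 := by
  have hb := le_cdiv (2 * D ^ 2 * 2 ^ 400) (b := (q - D) ^ 3) (pow_pos (Nat.sub_pos_of_lt h) 3)
  rw [le_div_iff₀ (by positivity)]
  refine le_trans (le_of_eq ?_) hb
  have : (0:ℝ) < (q : ℝ) - D := by
    have : (D : ℝ) < q := by exact_mod_cast h
    linarith
  have e : (q : ℝ) / 2 ^ 200 - (D : ℝ) / 2 ^ 200 = ((q : ℝ) - D) / 2 ^ 200 := by ring
  rw [e, Nat.cast_pow, Nat.cast_sub h.le, Nat.cast_mul, Nat.cast_mul, Nat.cast_pow, Nat.cast_pow]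
  push_cast
  field_simp

theorem linRes_bound (h : Shape A B) (hy : y ∈ Icc A.pos B.pos) (i : Fin 4) :
    |linResidual y (pieceQ A B y) (kap i) (pieceV A B y i)| ≤
      ((![(bounds A B).ra, (bounds A B).rb, (bounds A B).rr, (bounds A B).rd] i : ℕ) : ℝ) / 2 ^ 200 := by
  fin_cases i
  · have := rv_bound h hy 1 0
    rw [Int.cast_zero, zero_div] at this
    exact this
  · exact rv_bound h hy 2 kNum
  · have := rv_bound h hy 3 0
    rw [Int.cast_zero, zero_div] at this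
    exact this
  · have := rv_bound h hy 4 (2 ^ 20)
    rw [Int.cast_pow, Int.cast_ofNat, div_self (by positivity)] at this
    exact this

theorem kap_le {x : Fin 4 → ℝ} {d : ℝ} (hd : 0 ≤ d) (hx : ∀ i, |x i| ≤ d * capP A B i) :
    |∑ i, kap i * x i| ≤ d * ((devC A B : ℝ) / 2 ^ 200) := by
  have hb := le_cdiv (kNum.natAbs * A.p1 + 2 ^ 20 * B.p3) (b := 2 ^ 20) (by positivity)
  simp only [Nat.cast_mul, Nat.cast_pow, Nat.cast_ofNat, Nat.cast_add] at hb
  have hk : ((kNum.natAbs : ℕ) : ℝ) = |(kNum : ℝ)| := by rw [Nat.cast_natAbs, Int.cast_abs]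
  have h1 := hx 1
  have h3 := hx 3
  simp only [capP, Node.rad, Matrix.cons_val_one, Matrix.cons_val_zero, Matrix.cons_val_three,
    Matrix.tail_cons, Matrix.head_cons, Matrix.cons_val] at h1 h3
  calc |∑ i, kap i * x i| = |(kNum : ℝ) / 2 ^ 20 * x 1 + x 3| := by simp [Fin.sum_univ_four, kap]
    _ ≤ (kNum.natAbs : ℝ) / 2 ^ 20 * (d * ((A.p1 : ℝ) / 2 ^ 200)) + d * ((B.p3 : ℝ) / 2 ^ 200) := by
        refine (abs_add_le _ _).trans (add_le_add ?_ h3)
        rw [abs_mul, abs_div, abs_of_pos (by positivity : (0:ℝ) < 2 ^ 20), hk]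
        gcongr
    _ = d * (((kNum.natAbs : ℝ) * A.p1 + 2 ^ 20 * B.p3) / 2 ^ 20 / 2 ^ 200) := by ring
    _ ≤ _ := by gcongr; exact hb

theorem val_bounds (h : Shape A B) (hy : y ∈ Icc A.pos B.pos) (i : Fin 4) :
    |pieceV A B y i 0| ≤
      ((![(bounds A B).va, (bounds A B).vb, (bounds A B).vr, (bounds A B).vd] i : ℕ) : ℝ) / 2 ^ 200 := by
  fin_cases i
  · exact val_bound h hy 1
  · exact val_bound h hy 2
  · exact val_bound h hy 3
  · exact val_bound h hy 4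

section

attribute [local irreducible] bounds devQ devC force quadTerm linTerm cdiv centre sc absLow absSum

theorem sum_val_le (h : Shape A B) (hy : y ∈ Icc A.pos B.pos) {z : Fin 4 → ℝ} {d : ℝ} (hd : 0 ≤ d)
    (hz : ∀ i, |z i| ≤ d * capP A B i) : |∑ i, z i * pieceV A B y i 0| ≤ d * dQ A B := by
  have hw := weighted_le hd hz (val_bounds h hy)
  simp only [Matrix.cons_val_zero, Matrix.cons_val_one, Matrix.cons_val] at hw
  rw [dQ, devQ]
  exact hw

theorem sum_lin_le (h : Shape A B) (hy : y ∈ Icc A.pos B.pos) {z : Fin 4 → ℝ} {d : ℝ} (hd : 0 ≤ d)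
    (hz : ∀ i, |z i| ≤ d * capP A B i) :
    |∑ i, z i * linResidual y (pieceQ A B y) (kap i) (pieceV A B y i)|
      ≤ d * ((linTerm A B (bounds A B) : ℝ) / 2 ^ 200) := by
  have hw := weighted_le hd hz (linRes_bound h hy)
  simp only [Matrix.cons_val_zero, Matrix.cons_val_one, Matrix.cons_val] at hw
  rw [linTerm]
  exact hw

theorem piece_sound : PieceSound := by
  intro A B hok y hy
  simp only [okPiece, Bool.and_eq_true] at hok
  have h := shape_of_ok hok.1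
  have hr := hok.2
  simp only [okRadii, Bool.and_eq_true, decide_eq_true_eq] at hr
  obtain ⟨⟨⟨⟨⟨hdq, hdc⟩, h0⟩, h1⟩, h2⟩, h3⟩ := hr
  obtain ⟨hA, hA0, hy0⟩ := scaled_ge h hy
  set q := pieceQ A B y with hqd
  set v := pieceV A B y with hvd
  set F := force A B (bounds A B) with hF
  set qlo := ((bounds A B).qlo : ℝ) / 2 ^ 200
  set Dc := (devC A B : ℝ) / 2 ^ 200
  have hqlo : qlo ≤ q 0 := qlo_le h hy
  have hDq : dQ A B < qlo := by
    exact div_lt_div_of_pos_right (by exact_mod_cast hdq) (by positivity)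
  have hct : ((cNum * 2 ^ 136 : ℕ) : ℝ) / 2 ^ 200 = ctil := by
    rw [ctil]; push_cast; field_simp; ring
  have hDc : Dc < ctil := by
    rw [← hct]
    exact div_lt_div_of_pos_right (by exact_mod_cast hdc) (by positivity)
  have hcoef : ∀ j : Fin 4, coefCap A B j * ((F : ℝ) / 2 ^ 200) ≤ drop A B j := by
    have key : ∀ (a b c : ℕ), a + cdiv (c * F) (2 ^ 200) ≤ b →
        (c : ℝ) / 2 ^ 200 * ((F : ℝ) / 2 ^ 200) ≤ (b : ℝ) / 2 ^ 200 - (a : ℝ) / 2 ^ 200 := by
      intro a b c hh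
      have hb := le_cdiv (c * F) (b := 2 ^ 200) (by positivity)
      have hh' : (a : ℝ) + (cdiv (c * F) (2 ^ 200) : ℝ) ≤ b := by exact_mod_cast hh
      simp only [Nat.cast_mul, Nat.cast_pow, Nat.cast_ofNat] at hb
      rw [← sub_div, div_mul_div_comm, ← div_div]
      exact div_le_div_of_nonneg_right (hb.trans (le_sub_iff_add_le'.2 hh')) (by positivity)
    intro j
    fin_cases j
    · exact key _ _ _ h0
    · exact key _ _ _ h1
    · exact key _ _ _ h2
    · exact key _ _ _ h3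
  refine ⟨(det_pos h hy).2.2, fun j => ?_, fun x hx => ?_⟩
  · refine le_trans ?_ (hcoef j)
    have : 0 ≤ coefCap A B j := by fin_cases j <;> simp [coefCap] <;> positivity
    positivity
  have hx1 : ∀ i, |x i| ≤ 1 * capP A B i := fun i => by rw [one_mul]; exact hx i
  have sumv : ∀ z : Fin 4 → ℝ, ∀ d : ℝ, 0 ≤ d → (∀ i, |z i| ≤ d * capP A B i) →
      |∑ i, z i * v i 0| ≤ d * dQ A B := fun z d hd hz => sum_val_le h hy hd hz
  have suml : ∀ z : Fin 4 → ℝ, ∀ d : ℝ, 0 ≤ d → (∀ i, |z i| ≤ d * capP A B i) →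
      |∑ i, z i * linResidual y q (kap i) (v i)|
        ≤ d * ((linTerm A B (bounds A B) : ℝ) / 2 ^ 200) :=
    fun z d hd hz => sum_lin_le h hy hd hz
  have Qv := quad_le hdq
  have Qc := quad_le hdc
  rw [hct] at Qc
  have hFr : (F : ℝ) / 2 ^ 200 = (bounds A B).res / 2 ^ 200
      + 2 * ((linTerm A B (bounds A B) : ℝ) / 2 ^ 200
        + (quadTerm (devQ A B (bounds A B)) (bounds A B).qlo : ℝ) / 2 ^ 200
        + (quadTerm (devC A B) (cNum * 2 ^ 136) : ℝ) / 2 ^ 200) := by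
    rw [hF, force]
    simp only [Nat.cast_mul, Nat.cast_ofNat, Nat.cast_add]
    ring
  have sv := (sumv x 1 zero_le_one hx1).trans_eq (one_mul _)
  have sk := (kap_le (A := A) (B := B) zero_le_one hx1).trans_eq (one_mul _)
  have nonnegL : (0:ℝ) ≤ (linTerm A B (bounds A B) : ℝ) / 2 ^ 200 := by positivity
  have nonnegQ : (0:ℝ) ≤ (quadTerm (devQ A B (bounds A B)) (bounds A B).qlo : ℝ) / 2 ^ 200 := by
    positivity
  have nonnegC : (0:ℝ) ≤ (quadTerm (devC A B) (cNum * 2 ^ 136) : ℝ) / 2 ^ 200 := by positivity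
  have nonnegR : (0:ℝ) ≤ ((bounds A B).res : ℝ) / 2 ^ 200 := by positivity
  have hcy : ∀ j, 0 ≤ (B.pos - A.pos) * |coef v j| / y := fun j => by
    have := h.lt
    positivity
  have scaled : ∀ (j : Fin 4) (r b : ℝ), |r| ≤ b →
      (B.pos - A.pos) * |coef v j * (-r / y)| ≤ coefCap A B j * b := by
    intro j r b hrb
    calc (B.pos - A.pos) * |coef v j * (-r / y)|
        = (B.pos - A.pos) * |coef v j| / y * |r| := by
          rw [abs_mul, abs_div, abs_neg, abs_of_pos hy0]; ring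
      _ ≤ _ := mul_le_mul (coef_bound h hy j) hrb (abs_nonneg _) ((hcy j).trans (coef_bound h hy j))
  refine ⟨⟨lt_of_lt_of_le (lt_of_le_of_lt ((abs_nonneg _).trans sv) hDq) hqlo,
    (sv.trans_lt hDq).trans_le hqlo, sk.trans_lt hDc⟩, fun j => ?_, fun x' d hd hx' hxx j => ?_⟩
  · refine (scaled j _ ((F : ℝ) / 2 ^ 200) ?_).trans (hcoef j)
    have b1 := res_bound h hy
    have b2 := (suml x 1 zero_le_one hx1).trans_eq (one_mul _)
    have b3 : |phc (∑ i, kap i * x i)| ≤ (quadTerm (devC A B) (cNum * 2 ^ 136) : ℝ) / 2 ^ 200 := by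
      rw [phc_eq, abs_neg]
      exact (psi_abs sk hDc le_rfl).trans Qc
    have b4 : |psi (q 0) (∑ i, x i * v i 0)|
        ≤ (quadTerm (devQ A B (bounds A B)) (bounds A B).qlo : ℝ) / 2 ^ 200 :=
      (psi_abs sv hDq hqlo).trans Qv
    rw [hFr, abs_le]
    obtain ⟨p1, p2⟩ := abs_le.1 b1
    obtain ⟨p3, p4⟩ := abs_le.1 b2
    obtain ⟨p5, p6⟩ := abs_le.1 b3
    obtain ⟨p7, p8⟩ := abs_le.1 b4
    constructor <;> linarith
  · have hx1' : ∀ i, |x' i| ≤ 1 * capP A B i := fun i => by rw [one_mul]; exact hx' i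
    have sv' := (sumv x' 1 zero_le_one hx1').trans_eq (one_mul _)
    have sk' := (kap_le (A := A) (B := B) zero_le_one hx1').trans_eq (one_mul _)
    have dv : |(∑ i, x i * v i 0) - ∑ i, x' i * v i 0| ≤ d * dQ A B := by
      rw [← Finset.sum_sub_distrib]
      simpa [sub_mul] using sumv (fun i => x i - x' i) d hd hxx
    have dk : |(∑ i, kap i * x i) - ∑ i, kap i * x' i| ≤ d * Dc := by
      rw [← Finset.sum_sub_distrib]
      simpa [mul_sub] using kap_le (A := A) (B := B) (x := fun i => x i - x' i) hd hxx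
    have dl : |(∑ i, x i * linResidual y q (kap i) (v i)) - ∑ i, x' i * linResidual y q (kap i) (v i)|
        ≤ d * ((linTerm A B (bounds A B) : ℝ) / 2 ^ 200) := by
      rw [← Finset.sum_sub_distrib]
      simpa [sub_mul] using suml (fun i => x i - x' i) d hd hxx
    have b3 : |phc (∑ i, kap i * x i) - phc (∑ i, kap i * x' i)|
        ≤ d * ((quadTerm (devC A B) (cNum * 2 ^ 136) : ℝ) / 2 ^ 200) := by
      rw [phc_eq, phc_eq, ← abs_neg, neg_sub, neg_sub_neg]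
      exact (psi_lip hd sk sk' dk hDc le_rfl).trans (mul_le_mul_of_nonneg_left Qc hd)
    have b4 : |psi (q 0) (∑ i, x i * v i 0) - psi (q 0) (∑ i, x' i * v i 0)|
        ≤ d * ((quadTerm (devQ A B (bounds A B)) (bounds A B).qlo : ℝ) / 2 ^ 200) :=
      (psi_lip hd sv sv' dv hDq hqlo).trans (mul_le_mul_of_nonneg_left Qv hd)
    have tot := scaled j ((residual y q + ∑ i, x i * linResidual y q (kap i) (v i)
          + phc (∑ i, kap i * x i) + psi (q 0) (∑ i, x i * v i 0))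
        - (residual y q + ∑ i, x' i * linResidual y q (kap i) (v i)
          + phc (∑ i, kap i * x' i) + psi (q 0) (∑ i, x' i * v i 0))) (d / 2 * ((F : ℝ) / 2 ^ 200)) (by
      rw [hFr, abs_le]
      obtain ⟨p3, p4⟩ := abs_le.1 dl
      obtain ⟨p5, p6⟩ := abs_le.1 b3
      obtain ⟨p7, p8⟩ := abs_le.1 b4
      have := mul_nonneg hd nonnegR
      constructor <;> linarith)
    have e : coef v j * forcing y q v x - coef v j * forcing y q v x'
        = coef v j * (-((residual y q + ∑ i, x i * linResidual y q (kap i) (v i)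
          + phc (∑ i, kap i * x i) + psi (q 0) (∑ i, x i * v i 0))
        - (residual y q + ∑ i, x' i * linResidual y q (kap i) (v i)
          + phc (∑ i, kap i * x' i) + psi (q 0) (∑ i, x' i * v i 0))) / y) := by
      rw [forcing, forcing]; ring
    rw [e]
    refine tot.trans ?_
    calc coefCap A B j * (d / 2 * ((F : ℝ) / 2 ^ 200))
        = d / 2 * (coefCap A B j * ((F : ℝ) / 2 ^ 200)) := by ring
      _ ≤ _ := mul_le_mul_of_nonneg_left (hcoef j) (by positivity)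

end

end Vale.Agent.P264.Soliton.Inner
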