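import Vale.Agent.P264.Soliton.Glue
import Vale.Agent.P264.Soliton.Inner.Connect
import Vale.Agent.P264.Soliton.Inner.Match
import Vale.Agent.P264.Soliton.Inner.SeriesMap
import Vale.Agent.P264.Soliton.Inner.Sound

/-!
Soliton A assembled: the certified connection of the shrinker on `[0, 64]`, hence the shrinker.
-/

namespace Vale.Agent.P264.Soliton

/-- The inner connection exists. -/
theorem inner_target : InnerTarget :=
  Inner.inner_of_middle (Inner.middle_of_sound Inner.piece_sound) Inner.left_map

/-- The self-similar shrinker exists. -/
theorem exists_shrinker : Nonempty Shrinker :=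
  exists_shrinker_of_inner inner_target

end Vale.Agent.P264.Soliton
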