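import Mathlib

/-!
Integer interval certificates for the Taylor coefficients of the series at the origin.
Intervals are pairs of integers in units of `2 ^ -128`.
-/

namespace Vale.Agent.P264.Soliton.Inner.Series

open Finset

/-- The scale of the fixed point intervals. -/
def scale : ℕ := 2 ^ 128

/-- Number of coefficients in the tables. -/
def depth : ℕ := 40

/-- `2 k (k+8) (k+9)`, the divisor of the recursion. -/
def den (k : ℕ) : ℕ := 2 * k * (k + 8) * (k + 9)

def get (A : List (Int × Int)) (i : ℕ) : Int × Int := A.getD i (0, 0)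

def addI (a b : Int × Int) : Int × Int := (a.1 + b.1, a.2 + b.2)

def mulI (a b : Int × Int) : Int × Int :=
  (min (min (a.1 * b.1) (a.1 * b.2)) (min (a.2 * b.1) (a.2 * b.2)),
    max (max (a.1 * b.1) (a.1 * b.2)) (max (a.2 * b.1) (a.2 * b.2)))

def mag (a : Int × Int) : ℕ := max a.1.natAbs a.2.natAbs

/-- `x` lies in the interval, in units of `1/S`. -/
def Mem (S : ℝ) (x : ℝ) (a : Int × Int) : Prop := (a.1 : ℝ) ≤ x * S ∧ x * S ≤ (a.2 : ℝ)

theorem Mem.add {S x y : ℝ} {a b : Int × Int} (ha : Mem S x a) (hb : Mem S y b) :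
    Mem S (x + y) (addI a b) := by
  simp only [Mem, addI, add_mul, Int.cast_add]
  exact ⟨add_le_add ha.1 hb.1, add_le_add ha.2 hb.2⟩

theorem mem_zero (S : ℝ) : Mem S 0 (0, 0) := by simp [Mem]

theorem mul_between {x lo hi y : ℝ} (h1 : lo ≤ y) (h2 : y ≤ hi) :
    min (x * lo) (x * hi) ≤ x * y ∧ x * y ≤ max (x * lo) (x * hi) := by
  rcases le_total 0 x with hx | hx
  · exact ⟨(min_le_left _ _).trans (mul_le_mul_of_nonneg_left h1 hx),
      (mul_le_mul_of_nonneg_left h2 hx).trans (le_max_right _ _)⟩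
  · exact ⟨(min_le_right _ _).trans (mul_le_mul_of_nonpos_left h2 hx),
      (mul_le_mul_of_nonpos_left h1 hx).trans (le_max_left _ _)⟩

theorem Mem.mul {S x y : ℝ} {a b : Int × Int} (ha : Mem S x a) (hb : Mem S y b) :
    Mem (S * S) (x * y) (mulI a b) := by
  have k1 := mul_between (x := x * S) hb.1 hb.2
  have k2 := mul_between (x := (b.1 : ℝ)) ha.1 ha.2
  have k3 := mul_between (x := (b.2 : ℝ)) ha.1 ha.2
  have e : x * y * (S * S) = (x * S) * (y * S) := by ring
  simp only [Mem, mulI, e, Int.cast_min, Int.cast_max, Int.cast_mul]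
  rw [mul_comm (b.1 : ℝ) (a.1 : ℝ), mul_comm (b.1 : ℝ) (a.2 : ℝ), mul_comm (b.1 : ℝ) (x * S)] at k2
  rw [mul_comm (b.2 : ℝ) (a.1 : ℝ), mul_comm (b.2 : ℝ) (a.2 : ℝ), mul_comm (b.2 : ℝ) (x * S)] at k3
  refine ⟨le_trans ?_ k1.1, k1.2.trans ?_⟩
  · refine le_min (le_trans ?_ k2.1) (le_trans ?_ k3.1)
    · refine le_min ?_ ?_
      · exact (min_le_left _ _).trans (min_le_left _ _)
      · exact (min_le_right _ _).trans (min_le_left _ _)
    · refine le_min ?_ ?_
      · exact (min_le_left _ _).trans (min_le_right _ _)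
      · exact (min_le_right _ _).trans (min_le_right _ _)
  · refine max_le (k2.2.trans ?_) (k3.2.trans ?_)
    · refine max_le ?_ ?_
      · exact le_trans (le_max_left _ _) (le_max_left _ _)
      · exact le_trans (le_max_left _ _) (le_max_right _ _)
    · refine max_le ?_ ?_
      · exact le_trans (le_max_right _ _) (le_max_left _ _)
      · exact le_trans (le_max_right _ _) (le_max_right _ _)

theorem Mem.abs_le {S x : ℝ} {a : Int × Int} (h : Mem S x a) (hS : 0 < S) :
    |x| * S ≤ (mag a : ℝ) := by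
  have h1 : |x| * S = |x * S| := by rw [abs_mul, abs_of_pos hS]
  rw [h1, mag, Nat.cast_max, Nat.cast_natAbs, Nat.cast_natAbs, Int.cast_abs, Int.cast_abs]
  exact abs_le_max_abs_abs h.1 h.2

/-- `Σ_{i<j} A i * R (m-1-i)`, in units of `1/S²`. -/
def conv (A R : List (Int × Int)) (m : ℕ) : ℕ → Int × Int
  | 0 => (0, 0)
  | i + 1 => addI (conv A R m i) (mulI (get A i) (get R (m - 1 - i)))

theorem mem_conv {S : ℝ} {A R : List (Int × Int)} {f g : ℕ → ℝ} {m : ℕ}
    (hf : ∀ i, i < m → Mem S (f i) (get A i)) (hg : ∀ i, i < m → Mem S (g i) (get R i)) :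
    ∀ j, j ≤ m → Mem (S * S) (∑ i ∈ range j, f i * g (m - 1 - i)) (conv A R m j)
  | 0, _ => by simpa [conv] using mem_zero (S * S)
  | j + 1, hj => by
      rw [sum_range_succ]
      exact (mem_conv hf hg j (by omega)).add ((hf j (by omega)).mul (hg _ (by omega)))

/-- A product interval fits into a table entry. -/
def fit (c r : Int × Int) : Bool :=
  decide (r.1 * (scale : Int) ≤ c.1) && decide (c.2 ≤ r.2 * (scale : Int))

theorem fit_sound {x : ℝ} {c r : Int × Int} (h : fit c r = true)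
    (hx : Mem ((scale : ℝ) * scale) x c) : Mem (scale : ℝ) x r := by
  simp only [fit, Bool.and_eq_true, decide_eq_true_eq] at h
  have hS : (0:ℝ) < scale := by simp [scale]
  have h1 : (r.1 : ℝ) * scale ≤ (c.1 : ℝ) := by exact_mod_cast h.1
  have h2 : (c.2 : ℝ) ≤ (r.2 : ℝ) * scale := by exact_mod_cast h.2
  obtain ⟨k1, k2⟩ := hx
  constructor
  · exact le_of_mul_le_mul_right (by linarith [show x * (↑scale * ↑scale) = x * ↑scale * ↑scale by ring]) hS
  · exact le_of_mul_le_mul_right (by linarith [show x * (↑scale * ↑scale) = x * ↑scale * ↑scale by ring]) hS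

/-- The table entry `a` contains `-r / den k`. -/
def fitDiv (k : ℕ) (r a : Int × Int) : Bool :=
  decide (a.1 * (den k : Int) ≤ -r.2) && decide (-r.1 ≤ a.2 * (den k : Int))

theorem fitDiv_sound {x : ℝ} {k : ℕ} {r a : Int × Int} (hk : 1 ≤ k) (h : fitDiv k r a = true)
    (hx : Mem (scale : ℝ) x r) : Mem (scale : ℝ) (-x / (den k : ℝ)) a := by
  simp only [fitDiv, Bool.and_eq_true, decide_eq_true_eq] at h
  have hd : (0:ℝ) < den k := by
    have : 0 < den k := by unfold den; positivity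
    exact_mod_cast this
  have h1 : (a.1 : ℝ) * den k ≤ -(r.2 : ℝ) := by exact_mod_cast h.1
  have h2 : -(r.1 : ℝ) ≤ (a.2 : ℝ) * den k := by exact_mod_cast h.2
  obtain ⟨k1, k2⟩ := hx
  unfold Mem
  rw [div_mul_eq_mul_div, le_div_iff₀ hd, div_le_iff₀ hd]
  constructor <;> linarith

/-- `Σ_{k<j} w k * A k`. -/
def wsum (w : ℕ → ℕ) (A : List (Int × Int)) : ℕ → Int × Int
  | 0 => (0, 0)
  | k + 1 => addI (wsum w A k) ((w k : Int) * (get A k).1, (w k : Int) * (get A k).2)

theorem mem_wsum {S : ℝ} {w : ℕ → ℕ} {A : List (Int × Int)} {f : ℕ → ℝ} :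
    ∀ j, (∀ k, k < j → Mem S (f k) (get A k)) →
      Mem S (∑ k ∈ range j, (w k : ℝ) * f k) (wsum w A j)
  | 0, _ => by simpa [wsum] using mem_zero S
  | j + 1, h => by
      rw [sum_range_succ]
      refine (mem_wsum j fun k hk => h k (by omega)).add ?_
      obtain ⟨a, b⟩ := h j (by omega)
      constructor <;> push_cast <;> rw [mul_assoc] <;>
        exact mul_le_mul_of_nonneg_left (by assumption) (Nat.cast_nonneg _)

/-- `Σ_{k<j} w k * mag (A k)`. -/
def msum (w : ℕ → ℕ) (A : List (Int × Int)) : ℕ → ℕ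
  | 0 => 0
  | k + 1 => msum w A k + w k * mag (get A k)

theorem msum_sound {S : ℝ} (hS : 0 < S) {w : ℕ → ℕ} {A : List (Int × Int)} {f : ℕ → ℝ} :
    ∀ j, (∀ k, k < j → Mem S (f k) (get A k)) →
      (∑ k ∈ range j, (w k : ℝ) * |f k|) * S ≤ (msum w A j : ℝ)
  | 0, _ => by simp [msum]
  | j + 1, h => by
      rw [sum_range_succ, add_mul, mul_assoc ((w j : ℝ))]
      simp only [msum, Nat.cast_add, Nat.cast_mul]
      exact add_le_add (msum_sound hS j fun k hk => h k (by omega))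
        (mul_le_mul_of_nonneg_left ((h j (by omega)).abs_le hS) (Nat.cast_nonneg _))

/-- Table check for the nonlinear recursion. -/
def chkMain (A R : List (Int × Int)) : Bool :=
  (List.range (depth - 2)).all fun j =>
    fit (conv A R (j + 1) (j + 1)) (get R (j + 1)) && fitDiv (j + 2) (get R (j + 1)) (get A (j + 2))

/-- Table check for the linear recursion. -/
def chkLin (A R XA XR : List (Int × Int)) : Bool :=
  (List.range (depth - 2)).all fun j =>
    fit (addI (conv A XR (j + 1) (j + 1)) (conv XA R (j + 1) (j + 1))) (get R (j + 1)) &&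
      fitDiv (j + 2) (get R (j + 1)) (get A (j + 2))

/-- The weights `(k+1)`-fold products of `3/2` of the three functionals, times `2^(depth+1)`. -/
def wt : Fin 3 → ℕ → ℕ
  | 0, k => 3 ^ (k + 1) * 2 ^ (depth - k)
  | 1, k => (k + 1) * 3 ^ k * 2 ^ (depth + 1 - k)
  | 2, k => (k + 1) * k * 3 ^ (k - 1) * 2 ^ (depth + 2 - k)

/-- Weights of `ρ^-(k+1)` with `ρ = 19/50`, times `19^depth`. -/
def wRho (k : ℕ) : ℕ := 50 ^ (k + 1) * 19 ^ (depth - 1 - k)

/-- Weights of `σ^-(k+1)` with `σ = 9/20`, times `9^depth`. -/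
def wSig (k : ℕ) : ℕ := 20 ^ (k + 1) * 9 ^ (depth - 1 - k)

/-- `|c - Σ wt i k A k / T - z/d| ≤ e1/e2` with `T = scale * 2^(depth+1)`. -/
def within (i : Fin 3) (A : List (Int × Int)) (c z : Int) (d e1 e2 : ℕ) : Bool :=
  let v := wsum (wt i) A depth
  let T : Int := (scale * 2 ^ (depth + 1) : ℕ)
  decide (((c * (d : Int) - z) * T - v.1 * (d : Int)) * (e2 : Int) ≤ (e1 : Int) * (d : Int) * T) &&
    decide (-((e1 : Int) * (d : Int) * T) ≤ ((c * (d : Int) - z) * T - v.2 * (d : Int)) * (e2 : Int))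

theorem within_sound {i : Fin 3} {A : List (Int × Int)} {c z : Int} {d e1 e2 : ℕ} {f : ℕ → ℝ}
    (hd : 0 < d) (he : 0 < e2) (h : within i A c z d e1 e2 = true)
    (hf : ∀ k, k < depth → Mem (scale : ℝ) (f k) (get A k)) :
    |(c : ℝ) - (∑ k ∈ range depth, (wt i k : ℝ) * f k) / 2 ^ (depth + 1) - (z : ℝ) / d|
      ≤ (e1 : ℝ) / e2 := by
  simp only [within, Bool.and_eq_true, decide_eq_true_eq] at h
  obtain ⟨m1, m2⟩ := mem_wsum (S := (scale : ℝ)) (w := wt i) depth hf
  set v := wsum (wt i) A depth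
  set X := ∑ k ∈ range depth, (wt i k : ℝ) * f k
  obtain ⟨h1, h2⟩ := h
  have h1' : (((c : ℝ) * d - z) * ((scale : ℝ) * 2 ^ (depth + 1)) - v.1 * d) * e2
      ≤ (e1 : ℝ) * d * ((scale : ℝ) * 2 ^ (depth + 1)) := by exact_mod_cast h1
  have h2' : -((e1 : ℝ) * d * ((scale : ℝ) * 2 ^ (depth + 1)))
      ≤ (((c : ℝ) * d - z) * ((scale : ℝ) * 2 ^ (depth + 1)) - v.2 * d) * e2 := by exact_mod_cast h2
  have hdR : (0:ℝ) < d := by exact_mod_cast hd
  have heR : (0:ℝ) < e2 := by exact_mod_cast he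
  have hS : (0:ℝ) < (scale : ℝ) := by simp [scale]
  have e : (c : ℝ) - X / 2 ^ (depth + 1) - (z : ℝ) / d =
      (((c : ℝ) * d - z) * ((scale : ℝ) * 2 ^ (depth + 1)) - X * scale * d) * e2
        / (d * ((scale : ℝ) * 2 ^ (depth + 1)) * e2) := by
    field_simp
    ring
  have hp : (0:ℝ) < d * ((scale : ℝ) * 2 ^ (depth + 1)) * e2 := by positivity
  rw [e, abs_div, abs_of_pos hp, div_le_iff₀ hp]
  have e' : (e1 : ℝ) / e2 * (d * ((scale : ℝ) * 2 ^ (depth + 1)) * e2)
      = (e1 : ℝ) * d * ((scale : ℝ) * 2 ^ (depth + 1)) := by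
    field_simp
  rw [e', _root_.abs_le]
  have n1 : (v.1 : ℝ) * d * e2 ≤ X * scale * d * e2 := by gcongr
  have n2 : X * scale * d * e2 ≤ (v.2 : ℝ) * d * e2 := by gcongr
  constructor <;> linarith [sub_mul (((c : ℝ) * d - z) * ((scale : ℝ) * 2 ^ (depth + 1)))
    (X * scale * d) (e2 : ℝ), sub_mul (((c : ℝ) * d - z) * ((scale : ℝ) * 2 ^ (depth + 1)))
    ((v.1 : ℝ) * d) (e2 : ℝ), sub_mul (((c : ℝ) * d - z) * ((scale : ℝ) * 2 ^ (depth + 1)))
    ((v.2 : ℝ) * d) (e2 : ℝ)]

end Vale.Agent.P264.Soliton.Inner.Series
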