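import Vale.Agent.P264.Soliton.Inner.SeriesData

/-!
The coefficient recursions of the series at the origin, their difference quotients and the
geometric majorants.
-/

namespace Vale.Agent.P264.Soliton.Inner.Series

open Finset

/-- A coefficient from the previous coefficient of the reciprocal. -/
noncomputable def coA (x y r : ℝ) (k : ℕ) : ℝ :=
  if k = 0 then x else if k = 1 then y else -r / (den k : ℝ)

/-- Coefficients of `1/q`. -/
noncomputable def rco (x y : ℝ) : ℕ → ℝ
  | 0 => 1
  | m + 1 => ∑ i : Fin (m + 1),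
      coA x y (if (i : ℕ) = 0 then 0 else rco x y ((i : ℕ) - 1)) i * rco x y (m - i)
  termination_by m => m
  decreasing_by all_goals omega

/-- Coefficients of `g`. -/
noncomputable def aco (x y : ℝ) (k : ℕ) : ℝ :=
  coA x y (if k = 0 then 0 else rco x y (k - 1)) k

/-- The linear recursion along a coefficient pair `(a, r')`. -/
noncomputable def lr (a r' : ℕ → ℝ) (x y : ℝ) : ℕ → ℝ
  | 0 => 0
  | m + 1 => ∑ i : Fin (m + 1),
      (coA x y (if (i : ℕ) = 0 then 0 else lr a r' x y ((i : ℕ) - 1)) i * r' (m - i)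
        + a i * lr a r' x y (m - i))
  termination_by m => m
  decreasing_by all_goals omega

/-- The linear counterpart of `aco`. -/
noncomputable def la (a r' : ℕ → ℝ) (x y : ℝ) (k : ℕ) : ℝ :=
  coA x y (if k = 0 then 0 else lr a r' x y (k - 1)) k

theorem rco_zero (x y : ℝ) : rco x y 0 = 1 := by rw [rco]

theorem rco_succ (x y : ℝ) (m : ℕ) :
    rco x y (m + 1) = ∑ i ∈ range (m + 1), aco x y i * rco x y (m - i) := by
  rw [rco, ← Fin.sum_univ_eq_sum_range]
  rfl

theorem lr_zero (a r' : ℕ → ℝ) (x y : ℝ) : lr a r' x y 0 = 0 := by rw [lr]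

theorem lr_succ (a r' : ℕ → ℝ) (x y : ℝ) (m : ℕ) :
    lr a r' x y (m + 1)
      = ∑ i ∈ range (m + 1), (la a r' x y i * r' (m - i) + a i * lr a r' x y (m - i)) := by
  rw [lr, ← Fin.sum_univ_eq_sum_range]
  rfl

theorem aco_zero (x y : ℝ) : aco x y 0 = x := by simp [aco, coA]
theorem aco_one (x y : ℝ) : aco x y 1 = y := by simp [aco, coA]

theorem aco_succ (x y : ℝ) {k : ℕ} (hk : 1 ≤ k) :
    aco x y (k + 1) = -rco x y k / (den (k + 1) : ℝ) := by
  simp [aco, coA, show k ≠ 0 by omega]

theorem la_zero (a r' : ℕ → ℝ) (x y : ℝ) : la a r' x y 0 = x := by simp [la, coA]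
theorem la_one (a r' : ℕ → ℝ) (x y : ℝ) : la a r' x y 1 = y := by simp [la, coA]

theorem la_succ (a r' : ℕ → ℝ) (x y : ℝ) {k : ℕ} (hk : 1 ≤ k) :
    la a r' x y (k + 1) = -lr a r' x y k / (den (k + 1) : ℝ) := by
  simp [la, coA, show k ≠ 0 by omega]

/-- The difference of two coefficient sequences is linear in the parameter difference. -/
theorem diff_eq (x y x' y' : ℝ) :
    (∀ m, rco x y m - rco x' y' m =
        (x - x') * lr (aco x y) (rco x' y') 1 0 m + (y - y') * lr (aco x y) (rco x' y') 0 1 m) ∧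
    (∀ k, aco x y k - aco x' y' k =
        (x - x') * la (aco x y) (rco x' y') 1 0 k + (y - y') * la (aco x y) (rco x' y') 0 1 k) := by
  set U := lr (aco x y) (rco x' y') 1 0 with hU
  set V := lr (aco x y) (rco x' y') 0 1 with hV
  have hA : ∀ k, (∀ j, j < k → rco x y j - rco x' y' j = (x - x') * U j + (y - y') * V j) →
      aco x y k - aco x' y' k =
        (x - x') * la (aco x y) (rco x' y') 1 0 k + (y - y') * la (aco x y) (rco x' y') 0 1 k := by
    intro k hk
    match k with
    | 0 => simp [aco_zero, la_zero]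
    | 1 => simp [aco_one, la_one]
    | j + 2 =>
      have h := hk (j + 1) (by omega)
      rw [aco_succ _ _ (by omega), aco_succ _ _ (by omega), la_succ _ _ _ _ (by omega),
        la_succ _ _ _ _ (by omega)]
      linear_combination -(1 / (den (j + 1 + 1) : ℝ)) * h
  have hR : ∀ m, rco x y m - rco x' y' m = (x - x') * U m + (y - y') * V m := by
    intro m
    induction m using Nat.strong_induction_on with
    | _ m ih =>
      match m with
      | 0 => simp [hU, hV, rco_zero, lr_zero]
      | n + 1 =>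
        rw [rco_succ, rco_succ, ← sum_sub_distrib, hU, hV, lr_succ, lr_succ, mul_sum, mul_sum,
          ← sum_add_distrib]
        refine sum_congr rfl fun i hi => ?_
        have hi' := mem_range.1 hi
        have h1 := ih (n - i) (by omega)
        have h2 := hA i fun j hj => ih j (by omega)
        rw [hU, hV] at h1
        linear_combination aco x y i * h1 + rco x' y' (n - i) * h2
  exact ⟨hR, fun k => hA k fun j _ => hR j⟩

theorem den_pos {k : ℕ} (hk : 1 ≤ k) : (0:ℝ) < den k := by
  have : 0 < den k := by unfold den; positivity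
  exact_mod_cast this

/-- The main table is sound. -/
theorem main_mem {x y : ℝ} {A R : List (Int × Int)} (h : chkMain A R = true)
    (hR0 : get R 0 = ((scale : Int), (scale : Int))) (hx : Mem (scale : ℝ) x (get A 0))
    (hy : Mem (scale : ℝ) y (get A 1)) :
    (∀ k, k < depth → Mem (scale : ℝ) (aco x y k) (get A k)) ∧
      (∀ m, m < depth - 1 → Mem (scale : ℝ) (rco x y m) (get R m)) := by
  simp only [chkMain, List.all_eq_true, List.mem_range, Bool.and_eq_true] at h
  have hA : ∀ k, k < depth → (∀ j, j < k → j < depth - 1 → Mem (scale : ℝ) (rco x y j) (get R j)) →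
      Mem (scale : ℝ) (aco x y k) (get A k) := by
    intro k hk hr
    match k with
    | 0 => rwa [aco_zero]
    | 1 => rwa [aco_one]
    | j + 2 =>
      rw [aco_succ _ _ (by omega)]
      exact fitDiv_sound (by omega) (h j (by omega)).2 (hr (j + 1) (by omega) (by omega))
  have hR : ∀ m, m < depth - 1 → Mem (scale : ℝ) (rco x y m) (get R m) := by
    intro m
    induction m using Nat.strong_induction_on with
    | _ m ih =>
      intro hm
      match m with
      | 0 => rw [rco_zero, hR0]; simp [Mem]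
      | n + 1 =>
        refine fit_sound (h n (by omega)).1 ?_
        rw [rco_succ]
        refine mem_conv (f := aco x y) (g := rco x y) (m := n + 1) ?_ ?_ (n + 1) le_rfl
        · exact fun i hi => hA i (by omega) fun j hj hj' => ih j (by omega) hj'
        · exact fun i hi => ih i (by omega) (by omega)
  exact ⟨fun k hk => hA k hk fun j _ hj => hR j hj, hR⟩

/-- The linear table is sound. -/
theorem lin_mem {x y : ℝ} {a r' : ℕ → ℝ} {A R XA XR : List (Int × Int)}
    (h : chkLin A R XA XR = true) (hR0 : get R 0 = (0, 0))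
    (hxa : ∀ k, k < depth → Mem (scale : ℝ) (a k) (get XA k))
    (hxr : ∀ m, m < depth - 1 → Mem (scale : ℝ) (r' m) (get XR m))
    (hx : Mem (scale : ℝ) x (get A 0)) (hy : Mem (scale : ℝ) y (get A 1)) :
    ∀ k, k < depth → Mem (scale : ℝ) (la a r' x y k) (get A k) := by
  simp only [chkLin, List.all_eq_true, List.mem_range, Bool.and_eq_true] at h
  have hA : ∀ k, k < depth →
      (∀ j, j < k → j < depth - 1 → Mem (scale : ℝ) (lr a r' x y j) (get R j)) →
      Mem (scale : ℝ) (la a r' x y k) (get A k) := by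
    intro k hk hr
    match k with
    | 0 => rwa [la_zero]
    | 1 => rwa [la_one]
    | j + 2 =>
      rw [la_succ _ _ _ _ (by omega)]
      exact fitDiv_sound (by omega) (h j (by omega)).2 (hr (j + 1) (by omega) (by omega))
  have hR : ∀ m, m < depth - 1 → Mem (scale : ℝ) (lr a r' x y m) (get R m) := by
    intro m
    induction m using Nat.strong_induction_on with
    | _ m ih =>
      intro hm
      match m with
      | 0 => rw [lr_zero, hR0]; exact mem_zero _
      | n + 1 =>
        refine fit_sound (h n (by omega)).1 ?_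
        rw [lr_succ, sum_add_distrib]
        refine Mem.add ?_ ?_
        · refine mem_conv (f := la a r' x y) (g := r') (m := n + 1) ?_ ?_ (n + 1) le_rfl
          · exact fun i hi => hA i (by omega) fun j hj hj' => ih j (by omega) hj'
          · exact fun i hi => hxr i (by omega)
        · refine mem_conv (f := a) (g := lr a r' x y) (m := n + 1) ?_ ?_ (n + 1) le_rfl
          · exact fun i hi => hxa i (by omega)
          · exact fun i hi => ih i (by omega) (by omega)
  exact fun k hk => hA k hk fun j _ hj => hR j hj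

theorem sum_Ico_inv_le (n : ℕ) :
    ∑ i ∈ Ico depth n, 1 / ((i : ℝ) * (i + 1)) ≤ 1 / (depth : ℝ) := by
  rcases le_or_gt n depth with hn | hn
  · rw [Ico_eq_empty (by omega), sum_empty]; positivity
  · have hd : 0 < depth := by decide
    have : ∑ i ∈ Ico depth n, 1 / ((i : ℝ) * (i + 1)) = 1 / (depth : ℝ) - 1 / (n : ℝ) := by
      have hterm : ∀ i ∈ Ico depth n, 1 / ((i : ℝ) * (i + 1)) =
          -(1 / ((i + 1 : ℕ) : ℝ) - 1 / (i : ℝ)) := fun i hi => by
        have : (0:ℝ) < i := by
          have : 0 < i := lt_of_lt_of_le hd (mem_Ico.1 hi).1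
          exact_mod_cast this
        push_cast
        field_simp
        ring
      rw [sum_congr rfl hterm, sum_neg_distrib,
        sum_Ico_sub (fun i : ℕ => 1 / (i : ℝ)) hn.le]
      ring
    rw [this]
    linarith [show (0:ℝ) ≤ 1 / (n : ℝ) by positivity]

/-- A partial weighted sum is at most the tabulated head plus a tail. -/
theorem wsum_bound {f : ℕ → ℝ} {w H B : ℝ} {n : ℕ} (hw : 0 < w) (hB : 0 ≤ B)
    (hhead : ∑ i ∈ range depth, |f i| / w ^ (i + 1) ≤ H)
    (htail : ∀ i, depth ≤ i → i < n → |f i| ≤ B * w ^ (i - 1) / (den i : ℝ)) :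
    ∑ i ∈ range n, |f i| / w ^ (i + 1) ≤ H + B / (2 * w ^ 2 * (depth : ℝ) ^ 2) := by
  have hd : 0 < depth := by decide
  have h0 : ∀ i, 0 ≤ |f i| / w ^ (i + 1) := fun i => by positivity
  have hle : ∑ i ∈ range n, |f i| / w ^ (i + 1)
      ≤ (∑ i ∈ range depth, |f i| / w ^ (i + 1)) + ∑ i ∈ Ico depth n, |f i| / w ^ (i + 1) := by
    rw [← sum_union (by
      rw [Finset.disjoint_left]; intro i h1 h2; simp only [mem_range, mem_Ico] at h1 h2; omega)]
    exact sum_le_sum_of_subset_of_nonneg (fun i hi => by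
      simp only [mem_range] at hi
      simp only [mem_union, mem_range, mem_Ico]; omega) fun i _ _ => h0 i
  refine hle.trans (add_le_add hhead ?_)
  calc ∑ i ∈ Ico depth n, |f i| / w ^ (i + 1)
      ≤ ∑ i ∈ Ico depth n, B / (2 * w ^ 2 * depth) * (1 / ((i : ℝ) * (i + 1))) := by
        refine sum_le_sum fun i hi => ?_
        obtain ⟨h1, h2⟩ := mem_Ico.1 hi
        have hi0 : 1 ≤ i := by omega
        have hdi := den_pos hi0
        have hpow : w ^ (i + 1) = w ^ (i - 1) * w ^ 2 := by
          rw [← pow_add]; congr 1; omega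
        have hiR : (0:ℝ) < i := by exact_mod_cast hi0
        have hdd : (depth : ℝ) * ((i : ℝ) * (i + 1)) * 2 ≤ den i := by
          have h1R : (depth : ℝ) ≤ i := by exact_mod_cast h1
          have : (den i : ℝ) = 2 * i * (i + 8) * (i + 9) := by simp [den]
          rw [this]
          nlinarith [mul_le_mul_of_nonneg_left h1R (by positivity : (0:ℝ) ≤ 2 * i * (i + 1)),
            sq_nonneg (i : ℝ)]
        calc |f i| / w ^ (i + 1) ≤ B * w ^ (i - 1) / (den i : ℝ) / w ^ (i + 1) := by
              gcongr; exact htail i h1 h2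
          _ = B / w ^ 2 / (den i : ℝ) := by rw [hpow]; field_simp
          _ ≤ B / w ^ 2 / ((depth : ℝ) * ((i : ℝ) * (i + 1)) * 2) := by gcongr
          _ = _ := by field_simp
    _ ≤ B / (2 * w ^ 2 * depth) * (1 / (depth : ℝ)) := by
        rw [← mul_sum]; gcongr; exact sum_Ico_inv_le n
    _ = _ := by field_simp

theorem aco_abs_of {x y ρ : ℝ} (hr : ∀ j, |rco x y j| ≤ ρ ^ j) {i : ℕ} (hi : 2 ≤ i) :
    |aco x y i| ≤ 1 * ρ ^ (i - 1) / (den i : ℝ) := by
  obtain ⟨j, rfl⟩ : ∃ j, i = j + 1 := ⟨i - 1, by omega⟩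
  rw [aco_succ _ _ (by omega), abs_div, abs_neg, abs_of_pos (den_pos (by omega)), one_mul,
    add_tsub_cancel_right]
  exact div_le_div_of_nonneg_right (hr j) (den_pos (by omega)).le

/-- Geometric majorant of `1/q`. -/
theorem rco_le {x y ρ H : ℝ} (hρ : 0 < ρ)
    (hhead : ∑ i ∈ range depth, |aco x y i| / ρ ^ (i + 1) ≤ H)
    (hH : H + 1 / (2 * ρ ^ 2 * (depth : ℝ) ^ 2) ≤ 1) :
    (∀ m, |rco x y m| ≤ ρ ^ m) ∧ ∀ n, ∑ i ∈ range n, |aco x y i| / ρ ^ (i + 1) ≤ 1 := by
  have key : ∀ n, (∀ j, j + 1 < n → |rco x y j| ≤ ρ ^ j) →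
      ∑ i ∈ range n, |aco x y i| / ρ ^ (i + 1) ≤ 1 := by
    intro n hn
    refine (wsum_bound hρ zero_le_one hhead fun i h1 h2 => ?_).trans hH
    have hd : 2 ≤ depth := by decide
    obtain ⟨j, rfl⟩ : ∃ j, i = j + 1 := ⟨i - 1, by omega⟩
    rw [aco_succ _ _ (by omega), abs_div, abs_neg, abs_of_pos (den_pos (by omega)), one_mul,
      add_tsub_cancel_right]
    exact div_le_div_of_nonneg_right (hn j h2) (den_pos (by omega)).le
  have hr : ∀ m, |rco x y m| ≤ ρ ^ m := by
    intro m
    induction m using Nat.strong_induction_on with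
    | _ m ih =>
      match m with
      | 0 => simp [rco_zero]
      | n + 1 =>
        rw [rco_succ]
        calc |∑ i ∈ range (n + 1), aco x y i * rco x y (n - i)|
            ≤ ∑ i ∈ range (n + 1), |aco x y i| * ρ ^ (n - i) := by
              refine (abs_sum_le_sum_abs _ _).trans (sum_le_sum fun i hi => ?_)
              rw [abs_mul]
              exact mul_le_mul_of_nonneg_left (ih _ (by have := mem_range.1 hi; omega)) (abs_nonneg _)
          _ = ρ ^ (n + 1) * ∑ i ∈ range (n + 1), |aco x y i| / ρ ^ (i + 1) := by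
              rw [mul_sum]
              refine sum_congr rfl fun i hi => ?_
              have := mem_range.1 hi
              have : ρ ^ (n + 1) = ρ ^ (n - i) * ρ ^ (i + 1) := by rw [← pow_add]; congr 1; omega
              rw [this]; field_simp
          _ ≤ ρ ^ (n + 1) * 1 :=
              mul_le_mul_of_nonneg_left (key _ fun j hj => ih j (by omega)) (by positivity)
          _ = ρ ^ (n + 1) := mul_one _
  exact ⟨hr, fun n => key n fun j _ => hr j⟩

/-- Geometric majorant of the linear recursion. -/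
theorem lr_le {x y ρ σ B Ha H : ℝ} {a r' : ℕ → ℝ} (hρ : 0 ≤ ρ) (hρσ : ρ ≤ σ) (hσ : 0 < σ)
    (hB : 0 ≤ B) (hr' : ∀ m, |r' m| ≤ ρ ^ m)
    (ha : ∀ n, ∑ i ∈ range n, |a i| / σ ^ (i + 1) ≤ Ha)
    (hhead : ∑ i ∈ range depth, |la a r' x y i| / σ ^ (i + 1) ≤ H)
    (hH : H + B / (2 * σ ^ 2 * (depth : ℝ) ^ 2) + B * Ha ≤ B) :
    (∀ m, |lr a r' x y m| ≤ B * σ ^ m) ∧
      ∀ i, 2 ≤ i → |la a r' x y i| ≤ B * σ ^ (i - 1) / (den i : ℝ) := by
  have hla : ∀ i, 2 ≤ i → |lr a r' x y (i - 1)| ≤ B * σ ^ (i - 1) →
      |la a r' x y i| ≤ B * σ ^ (i - 1) / (den i : ℝ) := by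
    intro i hi h
    obtain ⟨j, rfl⟩ : ∃ j, i = j + 1 := ⟨i - 1, by omega⟩
    rw [la_succ _ _ _ _ (by omega), abs_div, abs_neg, abs_of_pos (den_pos (by omega))]
    exact div_le_div_of_nonneg_right (by simpa using h) (den_pos (by omega)).le
  have hr : ∀ m, |lr a r' x y m| ≤ B * σ ^ m := by
    intro m
    induction m using Nat.strong_induction_on with
    | _ m ih =>
      match m with
      | 0 => simp [lr_zero, hB]
      | n + 1 =>
        have hd : 2 ≤ depth := by decide
        have h1 := wsum_bound (n := n + 1) hσ hB hhead fun i h1 h2 =>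
          hla i (by omega) (ih (i - 1) (by omega))
        have h2 := mul_le_mul_of_nonneg_left (ha (n + 1)) hB
        rw [lr_succ]
        calc |∑ i ∈ range (n + 1), (la a r' x y i * r' (n - i) + a i * lr a r' x y (n - i))|
            ≤ ∑ i ∈ range (n + 1), (|la a r' x y i| * σ ^ (n - i) + |a i| * (B * σ ^ (n - i))) := by
              refine (abs_sum_le_sum_abs _ _).trans (sum_le_sum fun i hi => ?_)
              have := mem_range.1 hi
              refine (abs_add_le _ _).trans (add_le_add ?_ ?_)
              · rw [abs_mul]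
                exact mul_le_mul_of_nonneg_left
                  ((hr' _).trans (pow_le_pow_left₀ hρ hρσ _)) (abs_nonneg _)
              · rw [abs_mul]
                exact mul_le_mul_of_nonneg_left (ih _ (by omega)) (abs_nonneg _)
          _ = σ ^ (n + 1) * ((∑ i ∈ range (n + 1), |la a r' x y i| / σ ^ (i + 1))
                + B * ∑ i ∈ range (n + 1), |a i| / σ ^ (i + 1)) := by
              rw [mul_sum, ← sum_add_distrib, mul_sum]
              refine sum_congr rfl fun i hi => ?_
              have := mem_range.1 hi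
              have : σ ^ (n + 1) = σ ^ (n - i) * σ ^ (i + 1) := by rw [← pow_add]; congr 1; omega
              rw [this]; field_simp
          _ ≤ σ ^ (n + 1) * B := mul_le_mul_of_nonneg_left (by linarith) (by positivity)
          _ = B * σ ^ (n + 1) := mul_comm _ _
  exact ⟨hr, fun i hi => hla i hi (hr _)⟩

end Vale.Agent.P264.Soliton.Inner.Series
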