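import Vale.Agent.P264.Soliton.Inner.Frame

/-!
Real bounds behind the integer check of one piece.
-/

namespace Vale.Agent.P264.Soliton.Inner

open Set

theorem le_cdiv (a : ℕ) {b : ℕ} (hb : 0 < b) : (a : ℝ) / b ≤ (cdiv a b : ℝ) := by
  have h2 : a ≤ cdiv a b * b := by
    unfold cdiv
    have e := Nat.div_add_mod (a + b - 1) b
    have h := Nat.mod_lt (a + b - 1) hb
    rw [mul_comm]
    generalize b * ((a + b - 1) / b) = m at e ⊢
    omega
  rw [div_le_iff₀ (by exact_mod_cast hb)]
  exact_mod_cast h2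

/-- A quotient bound through `cdiv` at the scale `2^200`. -/
theorem div_le_scaled {x : ℝ} (n : ℕ) {d : ℕ} (hd : 0 < d) (h : x ≤ (n : ℝ) / d) :
    x ≤ (cdiv (n * 2 ^ 200) d : ℝ) / 2 ^ 200 := by
  refine h.trans ?_
  rw [le_div_iff₀ (by positivity)]
  calc (n : ℝ) / d * 2 ^ 200 = ((n * 2 ^ 200 : ℕ) : ℝ) / d := by push_cast; ring
    _ ≤ _ := le_cdiv _ hd

theorem absLow_le : ∀ (p : IPoly) (u : ℝ), |u| ≤ 1 → (absLow p : ℝ) ≤ |ev p u|
  | [], u, _ => by simp [absLow]
  | a :: p, u, hu => by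
      have h := abs_ev_le p u hu
      simp only [absLow, ev_cons]
      rcases Nat.le_total (absSum p) a.natAbs with hle | hle
      · rw [Nat.cast_sub hle]
        have h1 : |(a : ℝ)| - |u * ev p u| ≤ |(a : ℝ) + u * ev p u| := by
          have := abs_sub_abs_le_abs_sub (a : ℝ) (-(u * ev p u))
          rwa [abs_neg, sub_neg_eq_add] at this
        have h2 : |u * ev p u| ≤ (absSum p : ℝ) := by
          rw [abs_mul]
          exact (mul_le_of_le_one_left (abs_nonneg _) hu).trans h
        have h3 : ((a.natAbs : ℕ) : ℝ) = |(a : ℝ)| := by rw [Nat.cast_natAbs, Int.cast_abs]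
        linarith
      · rw [Nat.sub_eq_zero_of_le hle]; simp

theorem ev_opY (Y v : IPoly) (u : ℝ) :
    ev (opY Y v) u = ev Y u ^ 3 * ev (pdiff (pdiff (pdiff v))) u
      + 17 * ev Y u ^ 2 * ev (pdiff (pdiff v)) u + 56 * ev Y u * ev (pdiff v) u := by
  simp [opY, ev_padd, ev_pmul, ev_psmul]; ring

theorem ev_minor (f g : IPoly) (u : ℝ) :
    ev (minor f g) u = ev f u * ev (pdiff g) u - ev g u * ev (pdiff f) u := by
  simp [minor, ev_padd, ev_pmul, ev_psmul]; ring

theorem pdiff_padd_ev (f g : IPoly) (u : ℝ) :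
    ev (pdiff (padd f g)) u = ev (pdiff f) u + ev (pdiff g) u := by
  have h : HasDerivAt (fun x => ev f x + ev g x) (ev (pdiff f) u + ev (pdiff g) u) u :=
    (hasDerivAt_ev f u).add (hasDerivAt_ev g u)
  have h' := hasDerivAt_ev (padd f g) u
  rw [show ev (padd f g) = fun x => ev f x + ev g x from funext fun x => ev_padd f g x] at h'
  exact h'.unique h

theorem pdiff_psmul_ev (k : Int) (f : IPoly) (u : ℝ) :
    ev (pdiff (psmul k f)) u = (k : ℝ) * ev (pdiff f) u := by
  have h := (hasDerivAt_ev f u).const_mul (k : ℝ)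
  have h' := hasDerivAt_ev (psmul k f) u
  rw [show ev (psmul k f) = fun x => (k : ℝ) * ev f x from funext fun x => ev_psmul k f x] at h'
  exact h'.unique h

theorem pdiff2_padd_ev (f g : IPoly) (u : ℝ) :
    ev (pdiff (pdiff (padd f g))) u = ev (pdiff (pdiff f)) u + ev (pdiff (pdiff g)) u := by
  have h : HasDerivAt (fun x => ev (pdiff f) x + ev (pdiff g) x)
      (ev (pdiff (pdiff f)) u + ev (pdiff (pdiff g)) u) u :=
    (hasDerivAt_ev _ u).add (hasDerivAt_ev _ u)
  have h' := hasDerivAt_ev (pdiff (padd f g)) u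
  rw [show ev (pdiff (padd f g)) = fun x => ev (pdiff f) x + ev (pdiff g) x from
    funext fun x => pdiff_padd_ev f g x] at h'
  exact h'.unique h

theorem pdiff2_psmul_ev (k : Int) (f : IPoly) (u : ℝ) :
    ev (pdiff (pdiff (psmul k f))) u = (k : ℝ) * ev (pdiff (pdiff f)) u := by
  have h := (hasDerivAt_ev (pdiff f) u).const_mul (k : ℝ)
  have h' := hasDerivAt_ev (pdiff (psmul k f)) u
  rw [show ev (pdiff (psmul k f)) = fun x => (k : ℝ) * ev (pdiff f) x from
    funext fun x => pdiff_psmul_ev k f x] at h'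
  exact h'.unique h

theorem ctil_pos : 0 < ctil := by unfold ctil cNum; positivity

theorem phc_eq (d : ℝ) : phc d = -psi ctil d := by simp [phc, psi]

/-- Size of the second order part. -/
theorem psi_abs {q x D qlo : ℝ} (hx : |x| ≤ D) (hD : D < qlo) (hq : qlo ≤ q) :
    |psi q x| ≤ 2 * D ^ 2 / (qlo - D) ^ 3 := by
  have h0 : 0 ≤ D := (abs_nonneg x).trans hx
  have hqx : qlo - D ≤ q + x := by linarith [(abs_le.1 hx).1]
  have hp : 0 < qlo - D := by linarith
  have hqp : 0 < q := by linarith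
  rw [psi, abs_neg, abs_of_nonneg (by have : 0 < q + x := by linarith
                                      positivity)]
  refine div_le_div₀ (by positivity) ?_ (by positivity) ?_
  · nlinarith [sq_le_sq' (abs_le.1 hx).1 (abs_le.1 hx).2]
  · calc (qlo - D) ^ 3 = (qlo - D) ^ 2 * (qlo - D) := by ring
      _ ≤ (2 * q ^ 2) * (q + x) := by
          refine mul_le_mul ?_ hqx hp.le (by positivity)
          nlinarith [pow_le_pow_left₀ hp.le (by linarith : qlo - D ≤ q) 2]

/-- Lipschitz bound of the second order part. -/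
theorem psi_lip {q x x' D qlo d : ℝ} (hd : 0 ≤ d) (hx : |x| ≤ D) (hx' : |x'| ≤ D)
    (hxx : |x - x'| ≤ d * D) (hD : D < qlo) (hq : qlo ≤ q) :
    |psi q x - psi q x'| ≤ d * (2 * D ^ 2 / (qlo - D) ^ 3) := by
  have h0 : 0 ≤ D := (abs_nonneg x).trans hx
  have hp : 0 < qlo - D := by linarith
  have hqp : 0 < q := by linarith
  have hx1 : qlo - D ≤ q + x := by linarith [(abs_le.1 hx).1]
  have hx2 : qlo - D ≤ q + x' := by linarith [(abs_le.1 hx').1]
  have hP : 0 < (q + x) * (q + x') := mul_pos (by linarith) (by linarith)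
  have e : psi q x - psi q x'
      = -((x - x') * (q * x + q * x' + x * x') / (2 * q ^ 2 * ((q + x) * (q + x')))) := by
    have n1 : q + x ≠ 0 := by intro h; linarith
    have n2 : q + x' ≠ 0 := by intro h; linarith
    unfold psi; field_simp; ring
  have hnum : |(x - x') * (q * x + q * x' + x * x')| ≤ d * D * (3 * q * D) := by
    rw [abs_mul]
    refine mul_le_mul hxx ?_ (abs_nonneg _) (by positivity)
    calc |q * x + q * x' + x * x'| ≤ |q * x| + |q * x'| + |x * x'| := abs_add_three _ _ _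
      _ ≤ q * D + q * D + D * q := by
          simp only [abs_mul, abs_of_pos hqp]
          gcongr
          linarith
      _ = 3 * q * D := by ring
  have hx0 : 0 ≤ q + x := by linarith
  rw [e, abs_neg, abs_div, abs_of_pos (by positivity : (0:ℝ) < 2 * q ^ 2 * ((q + x) * (q + x')))]
  calc |(x - x') * (q * x + q * x' + x * x')| / (2 * q ^ 2 * ((q + x) * (q + x')))
      ≤ d * D * (3 * q * D) / (2 * q ^ 2 * ((qlo - D) * (qlo - D))) := by gcongr
    _ = d * (3 * D ^ 2 / (2 * q * ((qlo - D) * (qlo - D)))) := by field_simp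
    _ ≤ d * (2 * D ^ 2 / (qlo - D) ^ 3) := by
        refine mul_le_mul_of_nonneg_left ?_ hd
        rw [div_le_div_iff₀ (by positivity) (by positivity)]
        nlinarith [mul_le_mul_of_nonneg_left (by linarith : 3 * (qlo - D) ≤ 4 * q)
          (by positivity : (0:ℝ) ≤ D ^ 2 * (qlo - D) ^ 2)]

end Vale.Agent.P264.Soliton.Inner
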